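import Vale.Agent.P073.H235.PreParts
import Vale.Agent.P073.H253.R1Parts
import Vale.Agent.P073.H194.FlatN

/-!
# P073, rank one, `2 ≤ p < 3`: pieces of the assembly of `PreBeam` (statements, helper732)

The rank-one twins of `H235.PreParts`; direction 1, box `bm θ₁ θ₂`.
-/

namespace Vale.Agent.P073.H732

open MeasureTheory Set Filter Topology Metric Vale.Agent.P073.St Vale.Agent.P073.AB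
open Vale.Agent.P073.SQ (ev)
open Vale.Agent.P073.H194 (sInt RgN up)
open Vale.Agent.P073.H235 (Bx bm fl Co Fr P1 cmpD)
open Vale.Agent.P073.H253 (rectN redgeN ledge xL BVData)
open _root_.P073 (ConHomeo)
open _root_.P073.Net (dyc dyo)
open scoped ENNReal

/-- **[RECT-B]** the core rectangle of generation `m` in the plane `x 1 = v 1 + B₁ / 2 ^ m`; the line
`x 2 = v 2 + B₂ / 2 ^ m` is in it -/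
def SpecRectB : Prop :=
  ∀ (θ₁ θ₂ ν₁ : ℝ) (v : V) (m : ℕ) (B₁ B₂ : ℤ), 0 < θ₁ → 0 < θ₂ → θ₂ ≤ 1 / 4 → 0 < ν₁ →
    ν₁ ≤ 1 / 4 → 1 / 2 ^ m ≤ ν₁ * θ₂ / 8 → 1 / 2 ^ m ≤ θ₁ / 2 →
    |v 1 + B₁ / 2 ^ m - θ₁| ≤ 1 / 2 ^ m → |v 2 + B₂ / 2 ^ m - θ₂| ≤ 1 / 2 ^ m →
    ∃ α β : Fin 3 → ℤ, α 1 = B₁ ∧ (∀ j, j ≠ 1 → α j < β j) ∧ RgN 1 v m α β ⊆ Bx (bm θ₁ θ₂) ∧
      (β 0 - α 0 : ℝ) / 2 ^ m ≤ 1 ∧ (β 2 - α 2 : ℝ) / 2 ^ m ≤ 2 * θ₂ ∧ B₂ ∈ Icc (α 2) (β 2) ∧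
      (∀ k ∈ Finset.Ico (α 0) (β 0), edge v (ledge m B₁ B₂ k) ⊆ RgN 1 v m α β) ∧
      ∀ x ∈ Bx (fl θ₂) ∩ Co (fl θ₂) (ν₁ / 2) {0, 2}, ∀ j, j ≠ 1 →
        v j + α j / 2 ^ m ≤ x j ∧ x j ≤ v j + β j / 2 ^ m

open Classical in
/-- **[COUNT-B]** the squares of generation `m` and `n ≥ m` in the rectangle; the squares which meet
the strips `x 0 ≤ c`, `x 0 ≥ 1 - c` -/
def SpecCountB : Prop :=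
  ∀ (v : V) (m n : ℕ) (α β : Fin 3 → ℤ) (s : ℝ), m ≤ n → (∀ j, j ≠ 1 → α j < β j) →
    (β 0 - α 0 : ℝ) / 2 ^ m ≤ 1 → (β 2 - α 2 : ℝ) / 2 ^ m ≤ s →
    ((rectN 1 (up m n α) (up m n β)).card : ℝ) / 4 ^ n ≤ s ∧
    (∀ c : ℝ, 1 / 2 ^ n ≤ c → (0 ≤ v 0 + α 0 / 2 ^ m) → (v 0 + β 0 / 2 ^ m ≤ 1) →
      (((rectN 1 (up m n α) (up m n β)).filter fun k =>
        v 0 + k 0 / 2 ^ n ≤ c ∨ 1 - c ≤ v 0 + k 0 / 2 ^ n).card : ℝ) / 4 ^ n ≤ 4 * c * s) ∧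
    (∀ H : V → ℝ≥0∞, Measurable H → ∑ k ∈ rectN 1 (up m n α) (up m n β), sInt v ((n, k), 1) H =
      ∑ k ∈ rectN 1 α β, sInt v ((m, k), 1) H)

/-- the error on an edge of the line; `b`: distance of `h₀` to `f` -/
noncomputable def XL (θ₁ θ₂ : ℝ) (v : V) (F : V → Mat) (b : ℝ) (e : Idx × Fin 3) : ℝ≥0∞ :=
  2 * (eInt v e (fun x => ‖cl (cmpD (bm θ₁ θ₂) F x) - P1‖ₑ) + ENNReal.ofReal (b / 2 ^ e.1.1))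

/-- the integer `k` in units of generation `n`, from generation `m` -/
def upz (m n : ℕ) (k : ℤ) : ℤ := 2 ^ (n - m) * k

/-- **[XLINE]** the edges of the line -/
def SpecXL : Prop :=
  ∀ (p θ₁ θ₂ κ : ℝ) (m₀ : ℕ) (Λ : Set V) (f : V → V) (F : V → Mat), 1 ≤ p → 0 < κ →
    ∀ (D : BVData p θ₁ θ₂ κ m₀ Λ f F) (α β : ℤ), α < β → (β - α : ℝ) / 2 ^ m₀ ≤ 1 →
    (∀ k ∈ Finset.Ico α β, edge D.v (ledge m₀ D.B₁ D.B₂ k) ⊆ Bx (bm θ₁ θ₂)) →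
    ∀ n : ℕ, m₀ ≤ n →
    ∀ (h₀ : ConHomeo (Bx (bm θ₁ θ₂)) Λ) (T : ConHomeo Λ Λ) (b : ℝ), 0 < b → b ≤ 1 →
    (∀ y ∈ Λ, T.toFun y 0 = y 0) →
    (∀ k ∈ Finset.Ico (upz m₀ n α) (upz m₀ n β),
      eInt D.v (ledge n (upz m₀ n D.B₁) (upz m₀ n D.B₂) k)
        (fun x => ENNReal.ofReal ‖lineDeriv ℝ h₀.toFun x (ev 0) -
          cl (cmpD (bm θ₁ θ₂) F x) (ev 0)‖) ≤ ENNReal.ofReal (b / 2 ^ n)) →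
    (∀ k ∈ Finset.Ico (upz m₀ n α) (upz m₀ n β),
      edge D.v (ledge n (upz m₀ n D.B₁) (upz m₀ n D.B₂) k) ⊆ Bx (bm θ₁ θ₂) ∧
      xL (h₀.trans T).toFun D.v (ledge n (upz m₀ n D.B₁) (upz m₀ n D.B₂) k) ≤
        XL θ₁ θ₂ D.v F b (ledge n (upz m₀ n D.B₁) (upz m₀ n D.B₂) k) ∧
      eInt D.v (ledge n (upz m₀ n D.B₁) (upz m₀ n D.B₂) k) (fun x => D.H x ^ (1 / p) + 1) ≤
        2 * (ENNReal.ofReal (1 / 2 ^ n) +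
          XL θ₁ θ₂ D.v F b (ledge n (upz m₀ n D.B₁) (upz m₀ n D.B₂) k))) ∧
    ∑ k ∈ Finset.Ico (upz m₀ n α) (upz m₀ n β), ENNReal.ofReal ((1 / 2 ^ n) ^ (1 - p)) *
      XL θ₁ θ₂ D.v F b (ledge n (upz m₀ n D.B₁) (upz m₀ n D.B₂) k) ^ p ≤
        ENNReal.ofReal (4 ^ p * (κ + b))

/-- **[ENER-B]** the density `G = H + 1` on the beam -/
def SpecEnerB : Prop :=
  ∀ (p θ₁ θ₂ κ : ℝ) (m₀ : ℕ) (Λ : Set V) (f : V → V) (F : V → Mat), 1 ≤ p → 0 < θ₁ →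
    θ₁ ≤ 1 / 4 → 0 < θ₂ → θ₂ ≤ 1 / 4 → ∀ D : BVData p θ₁ θ₂ κ m₀ Λ f F,
    -- integrals
    (∀ R ⊆ Bx (bm θ₁ θ₂), MeasurableSet R → ∫⁻ x in R, (D.H x + H194.Bk 1 x) ≤
      ENNReal.ofReal (2 ^ p) * ((∫⁻ x in R, D.H₁ x) + volume R)) ∧
    (∀ x ∈ Bx (bm θ₁ θ₂), H194.Bk 1 x = 1) ∧
    volume (Bx (bm θ₁ θ₂)) ≤ ENNReal.ofReal (4 * θ₁ * θ₂) ∧
    (∀ ν, 0 < ν → volume (Bx (bm θ₁ θ₂) ∩ Fr (bm θ₁ θ₂) (3 * ν) {0, 2}) ≤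
      ENNReal.ofReal (48 * ν * θ₁ * θ₂)) ∧
    (∀ (c ε : ℝ) (N : ℕ), 0 < ε → ∃ n ≥ N,
      ∫⁻ x in Bx (bm θ₁ θ₂) ∩ {x | |x 1 - c| ≤ 1 / 2 ^ n}, (D.H x + H194.Bk 1 x) ≤
        ENNReal.ofReal ε) ∧
    -- squares
    (∀ (n : ℕ) (S : Finset (Fin 3 → ℤ)), (∀ k ∈ S, squ D.v ((n, k), 1) ⊆ Bx (bm θ₁ θ₂)) →
      ∑ k ∈ S, sInt D.v ((n, k), 1) (fun x => D.H x + H194.Bk 1 x) ≤ ENNReal.ofReal (2 ^ p) *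
        ((∑ k ∈ S, sInt D.v ((n, k), 1) D.H₁) + ENNReal.ofReal (S.card / 4 ^ n))) ∧
    -- edges of the line
    (∀ (n : ℕ) (k₁ k₂ : ℤ) (S : Finset ℤ),
      (∀ k ∈ S, edge D.v (ledge n k₁ k₂ k) ⊆ Bx (bm θ₁ θ₂)) →
      (∑ k ∈ S, eInt D.v (ledge n k₁ k₂ k) (fun x => D.H x + H194.Bk 1 x) ≤
        ENNReal.ofReal (2 ^ p) * ((∑ k ∈ S, eInt D.v (ledge n k₁ k₂ k) D.H₁) +
          ENNReal.ofReal (S.card / 2 ^ n))) ∧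
      ∀ t : ℝ, 0 < t →
        ∑ k ∈ S, eInt D.v (ledge n k₁ k₂ k) (fun x => ‖cl (cmpD (bm θ₁ θ₂) F x) - P1‖ₑ) ≤
        ENNReal.ofReal (t * (S.card / 2 ^ n)) +
          ENNReal.ofReal (t ^ (1 - p)) * ∑ k ∈ S, eInt D.v (ledge n k₁ k₂ k) D.H₁)

end Vale.Agent.P073.H732
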