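import Vale.Agent.P073.H235.RedP2

/-!
# P073: the reduction to finite distortion (block RED), with closeness at the boundary

* `Van Ω w`: the map `w` tends to zero at the boundary of `Ω`;
* `CloseA q`: the theorem for `W^{1,q}` with uniform closeness and closeness zero at the boundary,
  for uniformly continuous homeomorphisms; `CloseFD q`: the same for finite distortion;
* `red_close : CloseFD q → (local theorems of rank one and two) → CloseA q`.
-/

namespace Vale.Agent.P073.H732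

open MeasureTheory Set Filter Topology Metric Vale.Agent.P073.St Vale.Agent.P073.RED
open Vale.Agent.P073.SQ (ev)
open Vale.Agent.P073.AB (cl err FinDist)
open Vale.Agent.P073.PK (cl_apply)
open Vale.Agent.P073.H235
open scoped ContDiff ENNReal

/-- `w` tends to zero at the boundary of `Ω` -/
def Van (Ω : Set V) (w : V → V) : Prop :=
  ∀ η > 0, ∃ K ⊆ Ω, IsCompact K ∧ ∀ x ∈ Ω \ K, ‖w x‖ ≤ η

/-- the theorem for the exponent `q`, with closeness at the boundary -/
def CloseA (q : ℝ) : Prop :=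
  ∀ (Ω Λ : Set V) (f : V → V) (F : V → Mat), St.IsBoundedDomain Ω → St.IsBoundedDomain Λ →
    St.IsHomeo Ω Λ f → St.IsSobolev q Ω f F → UniformContinuousOn f Ω →
    ∀ ε > 0, ∃ φ : V → V, St.IsDiffeo Ω Λ φ ∧ err q Ω f F φ ≤ ENNReal.ofReal ε ∧
      (∀ x ∈ Ω, ‖φ x - f x‖ ≤ ε) ∧
      ∀ η > 0, ∃ K ⊆ Ω, IsCompact K ∧ ∀ x ∈ Ω \ K, ‖φ x - f x‖ ≤ η

/-- the theorem for finite distortion, exponent `q`, with closeness at the boundary -/
def CloseFD (q : ℝ) : Prop :=
  ∀ (Ω Λ : Set V) (f : V → V) (F : V → Mat), St.IsBoundedDomain Ω → St.IsBoundedDomain Λ →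
    St.IsHomeo Ω Λ f → St.IsSobolev q Ω f F → UniformContinuousOn f Ω → FinDist Ω F →
    ∀ ε > 0, ∃ φ : V → V, St.IsDiffeo Ω Λ φ ∧ err q Ω f F φ ≤ ENNReal.ofReal ε ∧
      (∀ x ∈ Ω, ‖φ x - f x‖ ≤ ε) ∧
      ∀ η > 0, ∃ K ⊆ Ω, IsCompact K ∧ ∀ x ∈ Ω \ K, ‖φ x - f x‖ ≤ η

section

variable {p : ℝ} {Ω Λ : Set V} {f : V → V} {F : V → Mat} {ι : Type} {ε : ℝ} {K : ι → Set V}
  {u : ι → V → V} {U : ι → V → Mat}

/-- a continuous map which vanishes at the boundary of a bounded open set is uniformly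
continuous -/
theorem uniform_of_van {w : V → V} (hΩ : IsOpen Ω) (hb : Bornology.IsBounded Ω)
    (hw : ContinuousOn w Ω) (hv : Van Ω w) : UniformContinuousOn w Ω := by
  have hc : Continuous (Ω.indicator w) := by
    rw [continuous_iff_continuousAt]
    intro x
    by_cases hx : x ∈ Ω
    · have h1 : ContinuousAt w x := hw.continuousAt (hΩ.mem_nhds hx)
      refine h1.congr ?_
      filter_upwards [hΩ.mem_nhds hx] with y hy
      rw [indicator_of_mem hy]
    · rw [Metric.continuousAt_iff']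
      intro η hη
      obtain ⟨K, hK, hKc, h⟩ := hv (η / 2) (by positivity)
      have hxK : x ∉ K := fun h => hx (hK h)
      filter_upwards [hKc.isClosed.isOpen_compl.mem_nhds hxK] with y hy
      rw [indicator_of_notMem hx, dist_zero_right]
      by_cases hyΩ : y ∈ Ω
      · rw [indicator_of_mem hyΩ]
        linarith [h y ⟨hyΩ, hy⟩]
      · rw [indicator_of_notMem hyΩ, norm_zero]
        exact hη
  have h1 : UniformContinuousOn (Ω.indicator w) (closure Ω) :=
    hb.isCompact_closure.uniformContinuousOn_of_continuous hc.continuousOn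
  have h2 := h1.mono subset_closure
  rw [Metric.uniformContinuousOn_iff] at h2 ⊢
  intro η hη
  obtain ⟨δ, hδ, h⟩ := h2 η hη
  refine ⟨δ, hδ, fun x hx y hy hxy => ?_⟩
  have h3 := h x hx y hy hxy
  rwa [indicator_of_mem hx, indicator_of_mem hy] at h3

theorem uniform_add {w w' : V → V} (h : UniformContinuousOn w Ω)
    (h' : UniformContinuousOn w' Ω) : UniformContinuousOn (fun x => w x + w' x) Ω := by
  rw [Metric.uniformContinuousOn_iff] at h h' ⊢
  intro η hη
  obtain ⟨δ, hδ, h1⟩ := h (η / 2) (by positivity)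
  obtain ⟨δ', hδ', h2⟩ := h' (η / 2) (by positivity)
  refine ⟨min δ δ', lt_min hδ hδ', fun x hx y hy hxy => ?_⟩
  have a1 := h1 x hx y hy (hxy.trans_le (min_le_left _ _))
  have a2 := h2 x hx y hy (hxy.trans_le (min_le_right _ _))
  have a3 := dist_add_add_le (w x) (w' x) (w y) (w' y)
  linarith

/-- the glued perturbation tends to zero at the boundary -/
theorem van_glue (hΩ : St.IsBoundedDomain Ω) (huc : UniformContinuousOn f Ω)
    (hC : ∀ i, Cell p Ω f F ε (K i) (u i) (U i))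
    (hd : ∀ i j, i ≠ j → Disjoint (K i) (K j)) : Van Ω (glue K u) := by
  intro δ hδ
  obtain ⟨η, hη, hηf⟩ := Metric.uniformContinuousOn_iff.1 huc δ hδ
  have hfin := GlueH.finite_diam hΩ (fun i => (hC i).comp) (fun i => (hC i).sub)
    (fun i => (hC i).fat) hd hη
  refine ⟨⋃ i ∈ {i | η ≤ diam (K i)}, K i, iUnion₂_subset fun i _ => (hC i).sub,
    hfin.isCompact_biUnion fun i _ => (hC i).comp, fun x hx => ?_⟩
  by_cases hi : ∃ i, x ∈ interior (K i)
  · obtain ⟨i, hi⟩ := hi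
    rw [GlueH.glue_in hd hi]
    have hiS : diam (K i) < η := by
      by_contra hcon
      push Not at hcon
      exact hx.2 (mem_iUnion₂.2 ⟨i, hcon, interior_subset hi⟩)
    obtain ⟨h', hinv, -, -⟩ := (hC i).diffeo
    obtain ⟨y, hy, hfy⟩ := (hinv.1 x hi).1
    have hxy : dist y x < η :=
      (dist_le_diam_of_mem (hC i).comp.isBounded (interior_subset hy)
        (interior_subset hi)).trans_lt hiS
    have h1 := hηf y ((hC i).sub (interior_subset hy)) x hx.1 hxy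
    have h2 : u i x = f y - f x := by
      have : f y = f x + u i x := hfy
      rw [this]; abel
    rw [h2, ← dist_eq_norm]
    exact h1.le
  · push Not at hi
    rw [GlueH.glue_off hi, norm_zero]
    exact hδ.le

open Red225 GlueH in
/-- the error for `f` from the error for the glued map -/
theorem err_of_glue [Countable ι] (hp : 1 ≤ p) (hΩ : St.IsBoundedDomain Ω)
    (hΛ : St.IsBoundedDomain Λ) (hf : St.IsHomeo Ω Λ f) (hF : St.IsSobolev p Ω f F)
    {ε₁ : ℝ} (hε₁0 : 0 < ε₁) (hε₁1 : ε₁ ≤ 1)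
    (hC : ∀ i, Cell p Ω f F ε₁ (K i) (u i) (U i))
    (hd : ∀ i j, i ≠ j → Disjoint (K i) (K j)) (g : V → V) :
    err p Ω f F g ≤ 2 ^ (p - 1) * err p Ω (fun x => f x + glue K u x)
      (fun x => F x + glue K U x) g + 2 ^ (p - 1) * (2 * (ENNReal.ofReal ε₁ * volume Ω)) := by
  have hF1 := specGlueS p Ω Λ f F hp hΩ hΛ hf hF ι inferInstance ε₁ K u U hC hd
  have hfc : ContinuousOn f Ω := by
    obtain ⟨_, _, h, _⟩ := hf
    exact h
  have hgc : ContinuousOn (glue K u) Ω := continuousOn_glue hΩ hfc hC hd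
  have hmu : AEMeasurable (fun x => ENNReal.ofReal (‖glue K u x‖ ^ p)) (volume.restrict Ω) :=
    ((hgc.aemeasurable hΩ.1.measurableSet).norm.pow_const p).ennreal_ofReal
  have hmU : ∀ j, AEMeasurable (fun x => ENNReal.ofReal (‖cl (glue K U x) (ev j)‖ ^ p))
      (volume.restrict Ω) := by
    intro j
    have h1 : AEMeasurable (fun x => cl (F x + glue K U x) (ev j)) (volume.restrict Ω) :=
      ((ContinuousLinearMap.apply ℝ V (ev j)).continuous.comp_aestronglyMeasurable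
        (PK.IsSob.aesm hF1)).aemeasurable
    have h2 : AEMeasurable (fun x => cl (F x) (ev j)) (volume.restrict Ω) :=
      ((ContinuousLinearMap.apply ℝ V (ev j)).continuous.comp_aestronglyMeasurable
        (PK.IsSob.aesm hF)).aemeasurable
    have e : (fun x => cl (glue K U x) (ev j)) =
        fun x => cl (F x + glue K U x) (ev j) - cl (F x) (ev j) := by
      funext x i
      rw [Pi.sub_apply, cl_apply, cl_apply, cl_apply, ← Finset.sum_sub_distrib]
      exact Finset.sum_congr rfl fun l _ => by simp only [Pi.add_apply]; ring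
    have h3 : AEMeasurable (fun x => cl (glue K U x) (ev j)) (volume.restrict Ω) := by
      rw [e]; exact h1.sub h2
    exact (h3.norm.pow_const p).ennreal_ofReal
  -- the two parts of the error
  have hA : ∫⁻ x in Ω, ENNReal.ofReal (‖g x - f x‖ ^ p) ≤
      2 ^ (p - 1) * ((∫⁻ x in Ω, ENNReal.ofReal (‖g x - (f x + glue K u x)‖ ^ p)) +
        ∫⁻ x in Ω, ENNReal.ofReal (‖glue K u x‖ ^ p)) := by
    rw [← lintegral_add_right' _ hmu, ← lintegral_const_mul' _ _ H880.two_rpow_ne_top]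
    refine lintegral_mono fun x => ?_
    have h1 := H880.add_rpow_le hp (g x - (f x + glue K u x)) (glue K u x)
    have e : g x - (f x + glue K u x) + glue K u x = g x - f x := by abel
    rwa [e] at h1
  have hB : ∀ j, ∫⁻ x in Ω, ENNReal.ofReal (‖fderiv ℝ g x (ev j) - cl (F x) (ev j)‖ ^ p) ≤
      2 ^ (p - 1) * ((∫⁻ x in Ω, ENNReal.ofReal (‖fderiv ℝ g x (ev j) -
        cl (F x + glue K U x) (ev j)‖ ^ p)) +
        ∫⁻ x in Ω, ENNReal.ofReal (‖cl (glue K U x) (ev j)‖ ^ p)) := by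
    intro j
    rw [← lintegral_add_right' _ (hmU j), ← lintegral_const_mul' _ _ H880.two_rpow_ne_top]
    refine lintegral_mono fun x => ?_
    have h1 := H880.add_rpow_le hp (fderiv ℝ g x (ev j) - cl (F x + glue K U x) (ev j))
      (cl (glue K U x) (ev j))
    have e : fderiv ℝ g x (ev j) - cl (F x + glue K U x) (ev j) + cl (glue K U x) (ev j) =
        fderiv ℝ g x (ev j) - cl (F x) (ev j) := by
      funext i
      simp only [Pi.sub_apply, Pi.add_apply, cl_apply, add_mul, Finset.sum_add_distrib]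
      ring
    rwa [e] at h1
  have h1 := sup_le hp hε₁0.le hε₁1 hC hd
  have h2 := energy_le hp hC hd
  unfold err
  calc (∫⁻ x in Ω, ENNReal.ofReal (‖g x - f x‖ ^ p)) +
      ∑ j, ∫⁻ x in Ω, ENNReal.ofReal (‖fderiv ℝ g x (ev j) - cl (F x) (ev j)‖ ^ p)
      ≤ 2 ^ (p - 1) * ((∫⁻ x in Ω, ENNReal.ofReal (‖g x - (f x + glue K u x)‖ ^ p)) +
        ∫⁻ x in Ω, ENNReal.ofReal (‖glue K u x‖ ^ p)) +
        ∑ j, 2 ^ (p - 1) * ((∫⁻ x in Ω, ENNReal.ofReal (‖fderiv ℝ g x (ev j) -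
        cl (F x + glue K U x) (ev j)‖ ^ p)) +
        ∫⁻ x in Ω, ENNReal.ofReal (‖cl (glue K U x) (ev j)‖ ^ p)) :=
        add_le_add hA (Finset.sum_le_sum fun j _ => hB j)
    _ = 2 ^ (p - 1) * ((∫⁻ x in Ω, ENNReal.ofReal (‖g x - (f x + glue K u x)‖ ^ p)) +
        ∑ j, ∫⁻ x in Ω, ENNReal.ofReal (‖fderiv ℝ g x (ev j) -
        cl (F x + glue K U x) (ev j)‖ ^ p)) +
        2 ^ (p - 1) * ((∫⁻ x in Ω, ENNReal.ofReal (‖glue K u x‖ ^ p)) +
        ∑ j, ∫⁻ x in Ω, ENNReal.ofReal (‖cl (glue K U x) (ev j)‖ ^ p)) := by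
        rw [← Finset.mul_sum, Finset.sum_add_distrib]
        ring
    _ ≤ 2 ^ (p - 1) * ((∫⁻ x in Ω, ENNReal.ofReal (‖g x - (f x + glue K u x)‖ ^ p)) +
        ∑ j, ∫⁻ x in Ω, ENNReal.ofReal (‖fderiv ℝ g x (ev j) -
        cl (F x + glue K U x) (ev j)‖ ^ p)) +
        2 ^ (p - 1) * (ENNReal.ofReal ε₁ * volume Ω + ENNReal.ofReal ε₁ * volume Ω) := by
        gcongr
    _ = _ := by ring

end

open Red225 GlueH in
/-- the glued map: a homeomorphism of finite distortion, uniformly close to `f`, with the same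
boundary values -/
theorem exists_glued {p : ℝ} (hp : 1 ≤ p) (hL1 : ∀ L, Rk1 L → Loc p L)
    (hL2 : ∀ L, Rk2 L → Loc p L) {Ω Λ : Set V} {f : V → V} {F : V → Mat}
    (hΩ : St.IsBoundedDomain Ω) (hΛ : St.IsBoundedDomain Λ) (hf : St.IsHomeo Ω Λ f)
    (hF : St.IsSobolev p Ω f F) (huc : UniformContinuousOn f Ω) {ε : ℝ} (hε : 0 < ε) :
    ∃ (f₁ : V → V) (F₁ : V → Mat), St.IsHomeo Ω Λ f₁ ∧ St.IsSobolev p Ω f₁ F₁ ∧
      FinDist Ω F₁ ∧ UniformContinuousOn f₁ Ω ∧ (∀ x, ‖f₁ x - f x‖ ≤ ε) ∧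
      Van Ω (fun x => f₁ x - f x) ∧
      ∀ g : V → V, err p Ω f F g ≤ 2 ^ (p - 1) * err p Ω f₁ F₁ g +
        2 ^ (p - 1) * (2 * (ENNReal.ofReal ε * volume Ω)) := by
  set ε₁ : ℝ := min 1 ε with hε₁
  have hε₁0 : 0 < ε₁ := lt_min one_pos hε
  have hε₁1 : ε₁ ≤ 1 := min_le_left _ _
  obtain ⟨ι, K, u, U, hι, hC, hd, hn⟩ := specVit p Ω f F ε₁ hΩ (fine_p hp hL1 hL2 hΩ hΛ hf hF hε₁0)
  have := hι
  have hf1 := specGlueH p Ω Λ f F hp hΩ hΛ hf ι hι ε₁ K u U hC hd
  have hF1 := specGlueS p Ω Λ f F hp hΩ hΛ hf hF ι hι ε₁ K u U hC hd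
  have hfc : ContinuousOn f Ω := by
    obtain ⟨_, _, h, _⟩ := hf
    exact h
  have hv := van_glue hΩ huc hC hd
  have hgc : ContinuousOn (glue K u) Ω := continuousOn_glue hΩ hfc hC hd
  obtain ⟨D, -, hD⟩ := AB.norm_bound_of_domain hΩ
  have hug := uniform_of_van hΩ.1 (isBounded_iff_forall_norm_le.2 ⟨D, hD⟩) hgc hv
  refine ⟨_, _, hf1, hF1, finDist hC hd hn, uniform_add huc hug, fun x => ?_, ?_, fun g => ?_⟩
  · rw [add_sub_cancel_left]
    exact (norm_glue_le hε₁0.le hC hd x).trans (min_le_right _ _)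
  · intro η hη
    obtain ⟨K', h1, h2, h3⟩ := hv η hη
    exact ⟨K', h1, h2, fun x hx => by
      have h4 := h3 x hx
      simpa only [add_sub_cancel_left] using h4⟩
  · refine (err_of_glue hp hΩ hΛ hf hF hε₁0 hε₁1 hC hd g).trans ?_
    gcongr
    exact min_le_right _ _

/-- **(RED) with closeness**: it is enough to treat finite distortion. -/
theorem red_close {q : ℝ} (hq : 1 ≤ q) (hFD : CloseFD q) (hL1 : ∀ L, Rk1 L → Loc q L)
    (hL2 : ∀ L, Rk2 L → Loc q L) : CloseA q := by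
  intro Ω Λ f F hΩ hΛ hf hF huc ε hε
  have hΩt : volume Ω ≠ ⊤ := PK.volume_ne_top_of_domain hΩ
  set m : ℝ := (volume Ω).toReal with hm
  have hm0 : 0 ≤ m := ENNReal.toReal_nonneg
  have hmv : volume Ω = ENNReal.ofReal m := (ENNReal.ofReal_toReal hΩt).symm
  have h2pos : (0 : ℝ) < 2 ^ (q - 1) := by positivity
  have h2E : (2 : ℝ≥0∞) ^ (q - 1) = ENNReal.ofReal (2 ^ (q - 1)) := by
    rw [← ENNReal.ofReal_rpow_of_pos (by norm_num)]
    simp
  set ε₁ : ℝ := min (ε / 2) (ε / 2 ^ (q - 1) / (4 * (m + 1))) with hε₁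
  have hε₁0 : 0 < ε₁ := lt_min (by positivity) (by positivity)
  obtain ⟨f₁, F₁, hf₁, hF₁, hD₁, hu₁, hc₁, hv₁, hE₁⟩ := exists_glued hq hL1 hL2 hΩ hΛ hf hF huc hε₁0
  obtain ⟨φ, hφ, hφE, hφc, hφv⟩ := hFD Ω Λ f₁ F₁ hΩ hΛ hf₁ hF₁ hu₁ hD₁
    (min (ε / 2) (ε / 2 ^ (q - 1) / 2)) (lt_min (by positivity) (by positivity))
  refine ⟨φ, hφ, ?_, fun x hx => ?_, fun η hη => ?_⟩
  · refine (hE₁ φ).trans ?_
    have h2 : (2 : ℝ≥0∞) = ENNReal.ofReal 2 := by norm_num
    calc 2 ^ (q - 1) * err q Ω f₁ F₁ φ +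
          2 ^ (q - 1) * (2 * (ENNReal.ofReal ε₁ * volume Ω))
        ≤ 2 ^ (q - 1) * ENNReal.ofReal (ε / 2 ^ (q - 1) / 2) +
          2 ^ (q - 1) * (2 * (ENNReal.ofReal ε₁ * ENNReal.ofReal m)) := by
          rw [hmv]
          gcongr
          exact hφE.trans (ENNReal.ofReal_le_ofReal (min_le_right _ _))
      _ = ENNReal.ofReal (2 ^ (q - 1) * (ε / 2 ^ (q - 1) / 2) +
          2 ^ (q - 1) * (2 * (ε₁ * m))) := by
          rw [ENNReal.ofReal_add (by positivity) (by positivity), ENNReal.ofReal_mul h2pos.le,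
            ENNReal.ofReal_mul h2pos.le, ENNReal.ofReal_mul (by norm_num),
            ENNReal.ofReal_mul hε₁0.le, ← h2E, ← h2]
      _ ≤ ENNReal.ofReal ε := by
          apply ENNReal.ofReal_le_ofReal
          have h5 : ε₁ * (4 * (m + 1)) ≤ ε / 2 ^ (q - 1) := by
            calc ε₁ * (4 * (m + 1)) ≤ ε / 2 ^ (q - 1) / (4 * (m + 1)) * (4 * (m + 1)) := by
                  gcongr; exact min_le_right _ _
              _ = ε / 2 ^ (q - 1) := by field_simp
          have h6 : 2 * (ε₁ * m) ≤ ε / 2 ^ (q - 1) / 2 := by nlinarith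
          calc 2 ^ (q - 1) * (ε / 2 ^ (q - 1) / 2) + 2 ^ (q - 1) * (2 * (ε₁ * m))
              ≤ 2 ^ (q - 1) * (ε / 2 ^ (q - 1) / 2) + 2 ^ (q - 1) * (ε / 2 ^ (q - 1) / 2) := by
                gcongr
            _ = ε := by field_simp; ring
  · have e : φ x - f x = (φ x - f₁ x) + (f₁ x - f x) := by abel
    rw [e]
    refine (norm_add_le _ _).trans ?_
    have h1 := (hφc x hx).trans (min_le_left _ _)
    have h2 := (hc₁ x).trans (min_le_left _ _)
    linarith
  · obtain ⟨K₁, h1, h2, h3⟩ := hφv (η / 2) (by positivity)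
    obtain ⟨K₂, h4, h5, h6⟩ := hv₁ (η / 2) (by positivity)
    refine ⟨K₁ ∪ K₂, union_subset h1 h4, h2.union h5, fun x hx => ?_⟩
    have h7 := h3 x ⟨hx.1, fun h => hx.2 (Or.inl h)⟩
    have h8 := h6 x ⟨hx.1, fun h => hx.2 (Or.inr h)⟩
    have e : φ x - f x = (φ x - f₁ x) + (f₁ x - f x) := by abel
    rw [e]
    refine (norm_add_le _ _).trans ?_
    simp only at h8
    linarith

end Vale.Agent.P073.H732
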