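import Vale.Agent.P073.H732.OwnW11
import Vale.Agent.P073.H234.Cleaned

/-!
# P073, P2 (exponent two, rank three): `[K2]`, the edges of the fine tiles (helper732)

`h₁`: the cleaned homeomorphism.  On the edges of the tiles of generation `N` which touch a good
cell, `h₁` is close to the affine map of the big cube in `W^{1,1}`.
-/

namespace Vale.Agent.P073.H732

open MeasureTheory Set Filter Topology Metric
open Vale.Agent.P073.St (V Mat)
open Vale.Agent.P073.SQ (ev)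
open Vale.Agent.P073.AB
open Vale.Agent.P073.H333
open Vale.Agent.P073.H234
open Vale.Agent.P073.H190 (IsColB)
open _root_.P073 (ConHomeo ConicalOn)
open _root_.P073.Net (dyc dyo)
open _root_.P073.Gauge (gam dvar)
open _root_.P073.Gauge.C110 (mem_edge_iff)
open scoped ENNReal NNReal

section

variable {Ω Λ : Set V}

/-- **[OWN-W11]**, for `h₁ = Tc ∘ h'` -/
theorem own_w11' {γ : Type*} {b : γ → V} {r : γ → ℝ} {D : V → ℝ} {J : Finset γ} {ε l₀ : ℝ}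
    (h₀ h' h₁ : ConHomeo Ω Λ) {Tc : V → V} (HT : IsColB b r D J ε l₀ Tc) (hε : 0 ≤ ε)
    (hl : 0 ≤ l₀)
    (hd : ∀ g ∈ J, ∀ g' ∈ J, g ≠ g' → Disjoint (closedBall (b g) (r g)) (closedBall (b g') (r g')))
    {v : V} {e : Idx × Fin 3} (he : edge v e ⊆ Ω)
    (heq : ∀ x ∈ edge v e, h₁.toFun x = Tc (h'.toFun x))
    (hoff : ∀ x ∈ edge v e, h'.toFun x = h₀.toFun x ∨ ∃ g ∈ J, h'.toFun x ∈ closedBall (b g) (r g))
    {A : V → V} {L : V →L[ℝ] V} (aff : ∀ x y, A y - A x = L (y - x)) {M a β s : ℝ}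
    (hM : ‖L (ev e.2)‖ ≤ M) (hβ : 0 ≤ β) (hs : 0 ≤ s)
    (hclose : ∀ x ∈ edge v e, ‖h₁.toFun x - A x‖ ≤ a)
    (hW : eInt v e (fun x => ENNReal.ofReal ‖lineDeriv ℝ h₀.toFun x (ev e.2) - L (ev e.2)‖) ≤
      ENNReal.ofReal β)
    (hι : ENNReal.ofReal l₀ * dvar 1 h'.toFun v e 0 ≤ ENNReal.ofReal s) :
    eInt v e (fun x => ENNReal.ofReal ‖lineDeriv ℝ h₁.toFun x (ev e.2) - L (ev e.2)‖) ≤
      ENNReal.ofReal (3 * (2 * ((1 + 192 * ε) * β + 192 * ε * (M / 2 ^ e.1.1) + s) + 2 * a)) := by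
  classical
  set U : γ → Set V := fun g => if g ∈ J then edge v e ∩ h'.toFun ⁻¹' closedBall (b g) (r g)
    else ∅ with hU
  have hcomp : IsClosed (edge v e) := by
    unfold edge
    rw [segment_eq_image_lineMap]
    exact (isCompact_Icc.image AffineMap.lineMap_continuous).isClosed
  have hUc : ∀ g, IsClosed (U g) := by
    intro g
    simp only [hU]
    split_ifs with hg
    · exact (h'.cont.mono he).preimage_isClosed_of_isClosed hcomp isClosed_closedBall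
    · exact isClosed_empty
  have hUd : ∀ g g', g ≠ g' → Disjoint (U g) (U g') := by
    intro g g' hgg
    simp only [hU]
    split_ifs with h1 h2 h2
    · rw [Set.disjoint_left]
      intro x hx hx'
      exact Set.disjoint_left.1 (hd g h1 g' h2 hgg) hx.2 hx'.2
    · exact disjoint_empty _
    · exact empty_disjoint _
    · exact disjoint_empty _
  have hUeq : (⋃ g, U g) = ⋃ g : J, U g := by
    ext x
    simp only [mem_iUnion]
    constructor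
    · rintro ⟨g, hg⟩
      by_cases h1 : g ∈ J
      · exact ⟨⟨g, h1⟩, hg⟩
      · simp only [hU, if_neg h1] at hg
        exact absurd hg (notMem_empty _)
    · rintro ⟨g, hg⟩
      exact ⟨g, hg⟩
  have hUm : MeasurableSet (⋃ g, U g) := by
    rw [hUeq]
    exact MeasurableSet.iUnion fun g => (hUc g).measurableSet
  have h1 := small_edge (J := J) h' h₁ he (U := fun g => U g)
    (fun g => (hUc g).measurableSet)
    (fun g g' hgg => hUd g g' fun h => hgg (Subtype.ext h)) hl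
    (fun g x hx y hy => by
      have hx1 := hx.1
      have hy1 := hy.1
      simp only [hU, if_pos g.2] at hx1 hy1
      have hx2 := hx1.2
      have hy2 := hy1.2
      rw [mem_preimage, mem_closedBall, dist_eq_norm] at hx2 hy2
      rw [heq x hx.2, heq y hy.2]
      exact HT.sq g g.2 _ hx2 _ hy2)
  rw [← hUeq] at h1
  set N : ℕ := e.1.1 with hN
  have hw : ‖(1 / 2 ^ N : ℝ) • L (ev e.2)‖ ≤ M / 2 ^ N := by
    rw [norm_smul, Real.norm_of_nonneg (by positivity)]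
    calc (1 / 2 ^ N : ℝ) * ‖L (ev e.2)‖ ≤ 1 / 2 ^ N * M := by gcongr
      _ = M / 2 ^ N := by ring
  have hg0 : gam v e 0 ∈ edge v e := mem_edge_iff.2 ⟨0, ⟨le_rfl, zero_le_one⟩, rfl⟩
  have hg1 : gam v e 1 ∈ edge v e := mem_edge_iff.2 ⟨1, ⟨zero_le_one, le_rfl⟩, rfl⟩
  have hend : ‖h₁.toFun (gam v e 1) - h₁.toFun (gam v e 0) -
      (1 / 2 ^ N : ℝ) • L (ev e.2)‖ ≤ 2 * a := by
    have e1 : A (gam v e 1) - A (gam v e 0) = (1 / 2 ^ N : ℝ) • L (ev e.2) := by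
      rw [aff, ← map_smul]
      congr 1
      simp only [gam, hN]
      module
    rw [← e1]
    have e2 := hclose _ hg0
    have e3 := hclose _ hg1
    have e6 : h₁.toFun (gam v e 1) - h₁.toFun (gam v e 0) -
        (A (gam v e 1) - A (gam v e 0)) =
        (h₁.toFun (gam v e 1) - A (gam v e 1)) - (h₁.toFun (gam v e 0) - A (gam v e 0)) := by
      abel
    rw [e6]
    refine (norm_sub_le _ _).trans ?_
    linarith
  have h2 := dvar1_edge h₀ h₁ he (T := Tc) (η := 96 * ε) (by positivity)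
    (fun y y' i => by
      refine (HT.lip y y' i).trans ?_
      have := abs_nonneg (y i - y' i)
      nlinarith) hUm
    (fun x hx hxU => by
      rcases hoff x hx with h3 | ⟨g, hg, h3⟩
      · rw [heq x hx, h3]
      · refine absurd (mem_iUnion.2 ⟨g, ?_⟩) hxU
        simp only [hU, if_pos hg]
        exact ⟨hx, h3⟩) hβ hs
    (w := (1 / 2 ^ N : ℝ) • L (ev e.2)) (by rw [dvar_one]; exact hW) (h1.trans hι) hend
  rw [dvar_one] at h2
  refine h2.trans (ENNReal.ofReal_le_ofReal ?_)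
  have h3 : 2 * (96 * ε) * ‖(1 / 2 ^ N : ℝ) • L (ev e.2)‖ ≤ 192 * ε * (M / 2 ^ N) := by
    calc 2 * (96 * ε) * ‖(1 / 2 ^ N : ℝ) • L (ev e.2)‖ = 192 * ε * ‖(1 / 2 ^ N : ℝ) • L (ev e.2)‖ := by
          ring
      _ ≤ _ := by gcongr
  linarith

end

variable {p : ℝ} {ε : ℝ≥0∞} {θ M κ c₀ t₀ δ₀ ε₁ β σ : ℝ} {j : ℕ} {Ω Λ : Set V} {f : V → V}
  {F : V → Mat} {T : Set V} {v : V} {m : ℕ}
  {C : P2Cells p ε θ M κ c₀ t₀ δ₀ j Ω Λ f F T v m}
  {Nk : Necks θ M β σ f v m j C.J C.A} {n N : ℕ} {J' : Finset (Fin 3 → ℤ)}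
  {π : (Fin 3 → ℤ) → Fin 3 → ℤ} {η l₀ : ℝ} {o : Nk.γ → V} {h₀ h' h₁ : ConHomeo Ω Λ}
  {Tc : V → V} {G : Finset Nk.γ}

/-- the tiles which touch a good cell are in the big cube -/
theorem touch_sub (S : SubCells C n J' π) (hmn : m ≤ n) (hnN : n ≤ N) {z u : Fin 3 → ℤ}
    (hz : z ∈ J') (hu : Touch v n N z u) : dyc v N u ⊆ dyc v m (π z) := by
  obtain ⟨x, hxu, hxz⟩ := hu
  intro y hy k
  obtain ⟨d, rfl⟩ := Nat.exists_eq_add_of_le hmn
  have hm : (0:ℝ) < 2 ^ m := by positivity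
  have hd : (0:ℝ) < 2 ^ d := by positivity
  have hN : (1:ℝ) / 2 ^ N ≤ 1 / 2 ^ (m + d) :=
    one_div_le_one_div_of_le (by positivity) (pow_le_pow_right₀ (by norm_num) hnN)
  -- the two extreme corners
  have c1 : (fun k => v k + z k / 2 ^ (m + d)) ∈ dyc v (m + d) z := fun k => by
    refine ⟨le_rfl, ?_⟩
    show v k + (z k : ℝ) / 2 ^ (m + d) ≤ v k + (z k + 1) / 2 ^ (m + d)
    gcongr
    linarith
  have c2 : (fun k => v k + (z k + 1) / 2 ^ (m + d)) ∈ dyc v (m + d) z := fun k => by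
    refine ⟨?_, le_rfl⟩
    show v k + (z k : ℝ) / 2 ^ (m + d) ≤ v k + (z k + 1) / 2 ^ (m + d)
    gcongr
    linarith
  have s1 := (S.sub z hz c1 k).1
  have s2 := (S.sub z hz c2 k).2
  simp only [add_lt_add_iff_left] at s1 s2
  rw [pow_add, div_lt_div_iff₀ (by positivity) (by positivity)] at s1 s2
  have t1 : (π z k : ℝ) * 2 ^ d < z k := by
    have : ((π z k : ℝ) * 2 ^ d) * 2 ^ m < z k * 2 ^ m := by linarith
    exact lt_of_mul_lt_mul_right this hm.le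
  have t2 : (z k : ℝ) + 1 < (π z k + 1) * 2 ^ d := by
    have : ((z k : ℝ) + 1) * 2 ^ m < ((π z k + 1) * 2 ^ d) * 2 ^ m := by linarith
    exact lt_of_mul_lt_mul_right this hm.le
  have u1 : (π z k : ℤ) * 2 ^ d + 1 ≤ z k := by
    have : ((π z k * 2 ^ d : ℤ) : ℝ) < z k := by push_cast; exact t1
    exact_mod_cast this
  have u2 : z k + 1 + 1 ≤ (π z k + 1) * 2 ^ d := by
    have : ((z k + 1 : ℤ) : ℝ) < (((π z k + 1) * 2 ^ d : ℤ) : ℝ) := by push_cast; exact t2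
    exact_mod_cast this
  have w1 : (π z k : ℝ) * 2 ^ d + 1 ≤ z k := by exact_mod_cast u1
  have w2 : (z k : ℝ) + 1 + 1 ≤ (π z k + 1) * 2 ^ d := by exact_mod_cast u2
  have x1 := hxu k
  have x2 := hxz k
  have x3 := hy k
  have y1 : (π z k : ℝ) / 2 ^ m + 1 / 2 ^ (m + d) ≤ z k / 2 ^ (m + d) := by
    rw [pow_add]
    have : (π z k : ℝ) / 2 ^ m + 1 / (2 ^ m * 2 ^ d) = (π z k * 2 ^ d + 1) / (2 ^ m * 2 ^ d) := by
      field_simp
    rw [this]
    gcongr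
  have y2 : ((z k : ℝ) + 1) / 2 ^ (m + d) + 1 / 2 ^ (m + d) ≤ (π z k + 1) / 2 ^ m := by
    rw [pow_add]
    have : ((π z k : ℝ) + 1) / 2 ^ m = ((π z k + 1) * 2 ^ d) / (2 ^ m * 2 ^ d) := by
      field_simp
    rw [this, ← add_div]
    gcongr
  have z1 : ((u k : ℝ) + 1) / 2 ^ N = u k / 2 ^ N + 1 / 2 ^ N := by ring
  rw [z1] at x1 x3
  constructor
  · linarith [x1.1, x1.2, x2.1, x2.2, x3.1, x3.2]
  · linarith [x1.1, x1.2, x2.1, x2.2, x3.1, x3.2]

/-- the tiles which touch a good cell: finitely many -/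
theorem finite_touch (v : V) {n N : ℕ} (hnN : n ≤ N) (z : Fin 3 → ℤ) :
    {u | Touch v n N z u}.Finite := by
  obtain ⟨d, rfl⟩ := Nat.exists_eq_add_of_le hnN
  refine (Set.finite_Icc (fun k => z k * 2 ^ d - 1) (fun k => (z k + 1) * 2 ^ d)).subset ?_
  rintro u ⟨x, hxu, hxz⟩
  have hn : (0:ℝ) < 2 ^ n := by positivity
  have hd : (0:ℝ) < 2 ^ d := by positivity
  refine ⟨fun k => ?_, fun k => ?_⟩
  · have h1 : (z k : ℝ) / 2 ^ n ≤ (u k + 1) / 2 ^ (n + d) := by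
      linarith [(hxu k).2, (hxz k).1]
    rw [pow_add, div_le_div_iff₀ (by positivity) (by positivity)] at h1
    have h2 : (z k : ℝ) * 2 ^ d ≤ u k + 1 := by
      have : ((z k : ℝ) * 2 ^ d) * 2 ^ n ≤ (u k + 1) * 2 ^ n := by linarith
      exact le_of_mul_le_mul_right this hn
    have h3 : z k * 2 ^ d ≤ u k + 1 := by exact_mod_cast h2
    show z k * 2 ^ d - 1 ≤ u k
    linarith
  · have h1 : (u k : ℝ) / 2 ^ (n + d) ≤ (z k + 1) / 2 ^ n := by
      linarith [(hxu k).1, (hxz k).2]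
    rw [pow_add, div_le_div_iff₀ (by positivity) (by positivity)] at h1
    have h2 : (u k : ℝ) ≤ (z k + 1) * 2 ^ d := by
      have : (u k : ℝ) * 2 ^ n ≤ ((z k + 1) * 2 ^ d) * 2 ^ n := by linarith
      exact le_of_mul_le_mul_right this hn
    exact_mod_cast h2

/-- the edges of a cube -/
theorem finite_edges (q : Idx) : {e : Idx × Fin 3 | EdgeOf e q}.Finite := by
  have hfin : (({q.1} : Set ℕ) ×ˢ (Set.pi univ fun j => ({q.2 j, q.2 j + 1} : Set ℤ))).Finite := by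
    exact Set.Finite.prod (finite_singleton _) (Set.Finite.pi fun j => Set.toFinite _)
  refine (hfin.prod (finite_univ (α := Fin 3))).subset ?_
  rintro ⟨⟨m, z⟩, k⟩ ⟨a1, a2, a3⟩
  refine ⟨⟨a1, fun j _ => ?_⟩, mem_univ _⟩
  by_cases hj : j = k
  · subst hj
    left; exact a2
  · exact a3 j hj

/-- the points of the edges of generation `N ≤ m + j` are in no open cube of generation `m + j` -/
theorem edge_notMem_fine {N M' : ℕ} (hN : N ≤ M') {e : Idx × Fin 3} (he : e.1.1 = N) {x : V}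
    (hx : x ∈ edge v e) (w : Fin 3 → ℤ) : x ∉ dyo v M' w := by
  obtain ⟨d, rfl⟩ := Nat.exists_eq_add_of_le hN
  obtain ⟨i, -, hxi⟩ := S293.mem_subEdge hx d
  refine edge_notMem_dyo (e := subEdge e d i) ?_ hxi w
  show e.1.1 + d = N + d
  rw [he]

/-- a property of the points of the own edges holds on the edges of generation `N ≤ m + j` -/
theorem of_own_edges {N M' : ℕ} (hN : N ≤ M') {B : Set V} {P : V → Prop}
    (H : ∀ e' : Idx × Fin 3, e'.1.1 = M' → edge v e' ⊆ B → ∀ x ∈ edge v e', P x)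
    {e : Idx × Fin 3} (he : e.1.1 = N) (hB : edge v e ⊆ B) : ∀ x ∈ edge v e, P x := by
  intro x hx
  obtain ⟨d, rfl⟩ := Nat.exists_eq_add_of_le hN
  obtain ⟨i, hi, hxi⟩ := S293.mem_subEdge hx d
  refine H (subEdge e d i) ?_ ((S308.subEdge_sub hi).trans hB) x hxi
  show e.1.1 + d = N + d
  rw [he]

/-- on the edges of generation `N` in the big cubes: `h'` is `h₀` or in a selected neck cube -/
theorem K2_off (hT : TSet θ M κ t₀ δ₀ ε₁ Ω f F T) (hNj : N ≤ m + j)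
    (K : Cleaned C Nk n N J' η l₀ o h₀ h' h₁ Tc G) {z' : Fin 3 → ℤ} (hz' : z' ∈ C.J)
    {e : Idx × Fin 3} (he : e.1.1 = N) (hez : edge v e ⊆ dyc v m z') {x : V} (hx : x ∈ edge v e) :
    h'.toFun x = h₀.toFun x ∨ ∃ g ∈ G, h'.toFun x ∈ Metric.ball (Nk.b g) (Nk.ρ g) := by
  refine K.dich x (C.sub hT hz' (hez hx)) fun i _ => qC_notMem fun w => ?_
  obtain ⟨z₁, -, hs₁⟩ := Nk.clean i
  rw [hs₁.1]
  exact edge_notMem_fine hNj he hx w

/-- **[K2]**, an edge of generation `N` in a big cube -/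
theorem K2_edge (hT : TSet θ M κ t₀ δ₀ ε₁ Ω f F T) (hNj : N ≤ m + j) (rat : RatGood v Ω f F)
    (K : Cleaned C Nk n N J' η l₀ o h₀ h' h₁ Tc G) (hκ : 0 ≤ κ) (hσ : 0 ≤ σ) (hl₀ : 0 ≤ l₀)
    {z' : Fin 3 → ℤ} (hz' : z' ∈ C.J) {e : Idx × Fin 3} (he : e.1.1 = N)
    (hez : edge v e ⊆ dyc v m z') {a δ' s : ℝ} (hδ' : 0 ≤ δ') (hs : 0 ≤ s)
    (hclose : ∀ x ∈ edge v e, ‖h₁.toFun x - C.A z' x‖ ≤ a)
    (h0 : eInt v e (fun x => ENNReal.ofReal
      ‖lineDeriv ℝ h₀.toFun x (ev e.2) - cl (F x) (ev e.2)‖) ≤ ENNReal.ofReal δ')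
    (hι : ENNReal.ofReal l₀ * dvar 1 h'.toFun v e 0 ≤ ENNReal.ofReal s) :
    eInt v e (fun x => ENNReal.ofReal ‖lineDeriv ℝ h₁.toFun x (ev e.2) - C.L z' (ev e.2)‖) ≤
      ENNReal.ofReal (3 * (2 * ((1 + 192 * σ) * (δ' + κ / 2 ^ N) + 192 * σ * (M / 2 ^ N) + s) +
        2 * a)) := by
  have hΩ : edge v e ⊆ Ω := hez.trans (C.sub hT hz')
  have hL : ‖C.L z' (ev e.2)‖ ≤ M := by
    have := C.above z' hz' (ev e.2)
    rwa [S293.ev_norm, mul_one] at this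
  obtain ⟨d, hd⟩ := Nat.exists_eq_add_of_le hNj
  have h2 : eInt v e (fun x => ENNReal.ofReal ‖cl (F x) (ev e.2) - C.L z' (ev e.2)‖) ≤
      ENNReal.ofReal (κ / 2 ^ N) := by
    rw [← he]
    refine len_le_sub v e d _ fun i hi => ?_
    have hsub : edge v (subEdge e d i) ⊆ edge v e := S308.subEdge_sub hi
    have hgen : (subEdge e d i).1.1 = m + j := by
      show e.1.1 + d = m + j
      rw [he, hd]
    have h3 := C.edge z' hz' (subEdge e d i) hgen (hsub.trans hez)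
    rw [he, ← hd]
    exact h3
  have h3 := eInt_tri rat hΩ h₀.toFun (C.L z' (ev e.2)) hδ' (by positivity) h0 h2
  have h4 := own_w11' h₀ h' h₁ K.col hσ hl₀ (fun g _ g' _ hgg => Nk.bdisj g g' hgg) hΩ
    (fun x hx => K.eq x (hΩ hx))
    (fun x hx => by
      rcases K2_off hT hNj K hz' he hez hx with h5 | ⟨g, hg, h5⟩
      · exact Or.inl h5
      · exact Or.inr ⟨g, hg, ball_subset_closedBall h5⟩)
    (C.aff z' hz') hL (by positivity) hs hclose h3 hι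
  rw [he] at h4
  exact h4

/-- **[K2]**, the edges of the tiles of generation `N` which touch a good cell -/
theorem K2_own (hT : TSet θ M κ t₀ δ₀ ε₁ Ω f F T) (S : SubCells C n J' π) (hmn : m ≤ n)
    (hnN : n ≤ N) (hNj : N ≤ m + j) (rat : RatGood v Ω f F)
    (K : Cleaned C Nk n N J' η l₀ o h₀ h' h₁ Tc G) (hκ : 0 ≤ κ) (hσ : 0 ≤ σ)
    (hσ' : 192 * σ ≤ 1) (hl₀ : 0 ≤ l₀)
    {z u : Fin 3 → ℤ} (hz : z ∈ J') (hu : Touch v n N z u) {e : Idx × Fin 3}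
    (he : EdgeOf e (N, u)) {a : ℝ}
    (hclose : ∀ x ∈ edge v e, ‖h₁.toFun x - C.A (π z) x‖ ≤ a / 2 ^ (m + j))
    (h0 : eInt v e (fun x => ENNReal.ofReal
      ‖lineDeriv ℝ h₀.toFun x (ev e.2) - cl (F x) (ev e.2)‖) ≤ ENNReal.ofReal (κ / 2 ^ N))
    (hι : ENNReal.ofReal l₀ * dvar 1 h'.toFun v e 0 ≤ ENNReal.ofReal (κ / 2 ^ N)) :
    eInt v e (fun x => ENNReal.ofReal
      ‖lineDeriv ℝ h₁.toFun x (ev e.2) - C.L (π z) (ev e.2)‖) ≤
      ENNReal.ofReal ((30 * κ + 1152 * σ * M + 6 * a / 2 ^ (m + j - N)) / 2 ^ N) := by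
  have hzJ : π z ∈ C.J := S.mem z hz
  have hez : edge v e ⊆ dyc v m (π z) :=
    (PK.edgeOf_subset he).trans (touch_sub S hmn hnN hz hu)
  have hk : 0 ≤ κ / 2 ^ N := by positivity
  refine (K2_edge hT hNj rat K hκ hσ hl₀ hzJ he.1 hez hk hk hclose h0 hι).trans
    (ENNReal.ofReal_le_ofReal ?_)
  have e1 : a / 2 ^ (m + j) = a / 2 ^ (m + j - N) / 2 ^ N := by
    rw [div_div, ← pow_add, Nat.sub_add_cancel hNj]
  have e2 : (30 * κ + 1152 * σ * M + 6 * a / 2 ^ (m + j - N)) / 2 ^ N =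
      30 * (κ / 2 ^ N) + 1152 * σ * (M / 2 ^ N) + 6 * (a / 2 ^ (m + j - N) / 2 ^ N) := by ring
  rw [e1, e2]
  have h1 : 192 * σ * (κ / 2 ^ N) ≤ 1 * (κ / 2 ^ N) := mul_le_mul_of_nonneg_right hσ' hk
  nlinarith

/-- **[K2]**, the length -/
theorem K2_len (hT : TSet θ M κ t₀ δ₀ ε₁ Ω f F T) (S : SubCells C n J' π) (hmn : m ≤ n)
    (hnN : n ≤ N) (hNj : N ≤ m + j) (rat : RatGood v Ω f F)
    (K : Cleaned C Nk n N J' η l₀ o h₀ h' h₁ Tc G) (hM : 0 ≤ M) (hκ : 0 ≤ κ) (hσ : 0 ≤ σ)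
    (hσ' : 192 * σ ≤ 1) (hl₀ : 0 ≤ l₀)
    {z u : Fin 3 → ℤ} (hz : z ∈ J') (hu : Touch v n N z u) {e : Idx × Fin 3}
    (he : EdgeOf e (N, u)) {a : ℝ} (ha : 0 ≤ a)
    (hclose : ∀ x ∈ edge v e, ‖h₁.toFun x - C.A (π z) x‖ ≤ a / 2 ^ (m + j))
    (h0 : eInt v e (fun x => ENNReal.ofReal
      ‖lineDeriv ℝ h₀.toFun x (ev e.2) - cl (F x) (ev e.2)‖) ≤ ENNReal.ofReal (κ / 2 ^ N))
    (hι : ENNReal.ofReal l₀ * dvar 1 h'.toFun v e 0 ≤ ENNReal.ofReal (κ / 2 ^ N)) :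
    eInt v e (fun x => ENNReal.ofReal ‖lineDeriv ℝ h₁.toFun x (ev e.2)‖) ≤
      ENNReal.ofReal ((30 * κ + 1152 * σ * M + 6 * a / 2 ^ (m + j - N) + M) / 2 ^ N) := by
  have h1 := K2_own hT S hmn hnN hNj rat K hκ hσ hσ' hl₀ hz hu he hclose h0 hι
  have h2 : e.1.1 = N := he.1
  rw [← h2] at h1 ⊢
  exact len_le_of_close (by positivity) hM (C.above (π z) (S.mem z hz)) h1

/-- the collapse of the neck cubes can be so strong that the hypothesis on `l₀` holds on all the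
edges of the tiles which touch the good cells -/
theorem exists_l₂ (hT : TSet θ M κ t₀ δ₀ ε₁ Ω f F T) (S : SubCells C n J' π) (hmn : m ≤ n)
    (hnN : n ≤ N) (h' : ConHomeo Ω Λ) {s : ℝ} (hs : 0 < s) :
    ∃ l₂ > 0, ∀ l₀, 0 ≤ l₀ → l₀ ≤ l₂ → ∀ z ∈ J', ∀ u, Touch v n N z u → ∀ e : Idx × Fin 3,
      EdgeOf e (N, u) → ENNReal.ofReal l₀ * dvar 1 h'.toFun v e 0 ≤ ENNReal.ofReal s := by
  have hfin : (⋃ z ∈ J', ⋃ u ∈ {u | Touch v n N z u}, {e : Idx × Fin 3 | EdgeOf e (N, u)}).Finite :=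
    J'.finite_toSet.biUnion fun z _ => (finite_touch v hnN z).biUnion fun u _ =>
      finite_edges _
  obtain ⟨l₂, hl, hl₂⟩ := exists_iota_own h' (v := v) hfin (fun e he => by
    simp only [mem_iUnion] at he
    obtain ⟨z, hz, u, hu, he⟩ := he
    exact (PK.edgeOf_subset he).trans
      ((touch_sub S hmn hnN hz hu).trans (C.sub hT (S.mem z hz)))) hs
  refine ⟨l₂, hl, fun l₀ h0 h1 z hz u hu e he => hl₂ l₀ h0 h1 e ?_⟩
  simp only [mem_iUnion]
  exact ⟨z, hz, u, hu, he⟩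

end Vale.Agent.P073.H732
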