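import Vale.Agent.P073.H235.UncSpec

/-!
# P073: the un-collapse map is a diffeomorphism (helper732), `SpecU1`
-/

namespace Vale.Agent.P073.H732

open MeasureTheory Set Filter Topology Metric Vale.Agent.P073.H235
open Vale.Agent.P073.St (V Mat)
open Vale.Agent.P073.SQ (ev)
open scoped ContDiff ENNReal

/-- A smooth bijection of `V` with injective derivatives is a diffeomorphism. -/
theorem exists_inv {s : V → V} (hs : ContDiff ℝ ∞ s) (hb : Function.Bijective s)
    (hd : ∀ x v, fderiv ℝ s x v = 0 → v = 0) :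
    ∃ t : V → V, ContDiff ℝ ∞ t ∧ (∀ x, t (s x) = x) ∧ ∀ y, s (t y) = y := by
  have hdiff : Differentiable ℝ s := hs.differentiable (by simp)
  have hker : ∀ x, LinearMap.ker (fderiv ℝ s x : V →ₗ[ℝ] V) = ⊥ := fun x =>
    LinearMap.ker_eq_bot'.2 fun v hv => hd x v hv
  let e : ∀ x : V, V ≃L[ℝ] V := fun x =>
    (LinearEquiv.ofInjectiveEndo (fderiv ℝ s x : V →ₗ[ℝ] V)
      (LinearMap.ker_eq_bot.1 (hker x))).toContinuousLinearEquiv
  have he : ∀ x, ((e x : V ≃L[ℝ] V) : V →L[ℝ] V) = fderiv ℝ s x := by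
    intro x
    ext v i
    rfl
  have hstrict : ∀ x, HasStrictFDerivAt s ((e x : V ≃L[ℝ] V) : V →L[ℝ] V) x := by
    intro x
    rw [he x]
    exact (hs.contDiffAt).hasStrictFDerivAt (by simp)
  have hopen : IsOpenMap s := isOpenMap_of_hasStrictFDerivAt_equiv hstrict
  let E : V ≃ₜ V := (Equiv.ofBijective s hb).toHomeomorphOfContinuousOpen hs.continuous hopen
  have hE : ∀ x, E x = s x := fun x => rfl
  have hsymm : ContDiff ℝ ∞ E.symm :=
    E.contDiff_symm (f₀' := e) (fun x => (hstrict x).hasFDerivAt) hs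
  exact ⟨E.symm, hsymm, fun x => by rw [← hE]; exact E.symm_apply_apply x,
    fun x => by rw [← hE]; exact E.apply_symm_apply x⟩

section

variable {θ δ τ u : ℝ}

theorem monotone_Apr_sub (hδ : δ ≠ 0) : Monotone fun x => Apr δ τ u x - τ * x := by
  have h : ∀ x, HasDerivAt (fun x => Apr δ τ u x - τ * x) (Spr δ u x) x := by
    intro x
    refine HasDerivAt.congr_deriv ((hasDerivAt_Apr hδ).sub ((hasDerivAt_id x).const_mul τ)) ?_
    ring
  exact monotone_of_deriv_nonneg (fun x => (h x).differentiableAt)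
    fun x => by rw [(h x).deriv]; exact Spr_nonneg

theorem surj_dpr (hθ : 0 < θ) (hδ : 0 < δ) (hτ : 0 < τ) (h1 : δ ≤ u) (h2 : u ≤ 1 - δ) :
    Function.Surjective fun x => dpr θ δ τ u x := by
  have hw : 0 < 2 * u + τ := by linarith
  have hc : Continuous fun x => dpr θ δ τ u x :=
    continuous_iff_continuousAt.2 fun x => (hasDerivAt_dpr hδ.ne').continuousAt
  have hm := monotone_Apr_sub (τ := τ) (u := u) hδ.ne'
  have e0 := Apr_zero (τ := τ) hδ h1 h2
  have hlin : ∀ x, dpr θ δ τ u x = 2 * θ / (2 * u + τ) * Apr δ τ u x := by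
    intro x
    unfold dpr
    ring
  have hq : 0 < 2 * θ / (2 * u + τ) := by positivity
  refine hc.surjective ?_ ?_
  · have ht : Tendsto (fun x : ℝ => 2 * θ / (2 * u + τ) * (τ * x)) atTop atTop :=
      (tendsto_id.const_mul_atTop hτ).const_mul_atTop hq
    refine tendsto_atTop_mono' _ ?_ ht
    filter_upwards [eventually_ge_atTop (0:ℝ)] with x hx
    rw [hlin]
    have := hm hx
    simp only [e0, mul_zero, sub_zero] at this
    exact mul_le_mul_of_nonneg_left (by linarith) hq.le
  · have ht : Tendsto (fun x : ℝ => 2 * θ / (2 * u + τ) * (τ * x)) atBot atBot :=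
      (tendsto_id.const_mul_atBot hτ).const_mul_atBot hq
    refine tendsto_atBot_mono' _ ?_ ht
    filter_upwards [eventually_le_atBot (0:ℝ)] with x hx
    rw [hlin]
    have := hm hx
    simp only [e0, mul_zero, sub_zero] at this
    exact mul_le_mul_of_nonneg_left (by linarith) hq.le

end

section

variable {θ δ τ ν M : ℝ} {k : Fin 3} {a : V} {L : V → ℝ}

theorem Par.u1 (P : Par θ δ τ ν M k a L) (x : V) : δ ≤ uu θ L x :=
  P.hδ'.trans (uu_ge P.lat P.hθ' x)

theorem Par.u2 (P : Par θ δ τ ν M k a L) (x : V) : uu θ L x ≤ 1 - δ := by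
  have h1 := uu_le P.lat P.hθ' x
  have h2 := P.hδ'
  have h3 := P.hθ'
  linarith

theorem Par.u0 (P : Par θ δ τ ν M k a L) (x : V) : 0 < uu θ L x := P.hδ.trans_le (Par.u1 P x)

theorem inj_Dm (P : Par θ δ τ ν M k a L) : Function.Injective (Dm θ δ τ k L) := by
  intro x y h
  have h1 : y = Function.update x k (y k) := by
    ext i
    by_cases hi : i = k
    · subst hi; simp
    · rw [Function.update_of_ne hi]
      have := congrFun h i
      rw [Dm_apply_ne hi, Dm_apply_ne hi] at this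
      exact this.symm
  have h2 := congrFun h k
  rw [Dm_apply, Dm_apply] at h2
  have h3 : uu θ L y = uu θ L x := by
    rw [h1]
    exact uu_update P.lat x _
  rw [h3] at h2
  have h4 := (strictMono_dpr P.hδ.ne' P.hθ P.hτ (Par.u0 P x)).injective h2
  rw [h1, ← h4]
  simp

theorem surj_Dm (P : Par θ δ τ ν M k a L) : Function.Surjective (Dm θ δ τ k L) := by
  intro y
  obtain ⟨s, hs⟩ := surj_dpr P.hθ P.hδ P.hτ (Par.u1 P y) (Par.u2 P y) (y k)
  refine ⟨Function.update y k s, ?_⟩
  rw [Dm_update P.lat]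
  have hs' : dpr θ δ τ (uu θ L y) s = y k := hs
  rw [hs']
  simp

theorem der_Dm (P : Par θ δ τ ν M k a L) (x v : V) (h : fderiv ℝ (Dm θ δ τ k L) x v = 0) : v = 0 := by
  rw [fderiv_Dm P.lat P.hθ P.hθ' P.hτ P.hδ.ne'] at h
  have h1 : ∀ i, i ≠ k → v i = 0 := by
    intro i hi
    have := congrFun h i
    rwa [Function.update_of_ne hi] at this
  have h2 : v = v k • ev k := by
    ext i
    by_cases hi : i = k
    · subst hi; simp [ev]
    · rw [h1 i hi]; simp [ev, hi]
  have h3 : fderiv ℝ (uu θ L) x v = 0 := by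
    rw [h2, map_smul, fderiv_uu_k P.lat, smul_zero]
  have h4 := congrFun h k
  rw [Function.update_self, h3, mul_zero, zero_add, Pi.zero_apply] at h4
  have h5 : v k = 0 := by
    rcases mul_eq_zero.1 h4 with h5 | h5
    · exact absurd h5 (dx_pos P.hθ P.hτ (Par.u0 P x)).ne'
    · exact h5
  rw [h2, h5, zero_smul]

/-- the boxes correspond to each other -/
theorem Dm_mem (P : Par θ δ τ ν M k a L) (x : V) :
    Dm θ δ τ k L x ∈ Bx (Function.update a k (2 * θ)) ↔ x ∈ Bx (Function.update a k 1) := by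
  have hm := strictMono_dpr (u := uu θ L x) P.hδ.ne' P.hθ P.hτ (Par.u0 P x)
  have e0 := dpr_zero (θ := θ) (τ := τ) P.hδ (Par.u1 P x) (Par.u2 P x)
  have e1 := dpr_one (θ := θ) P.hδ P.hτ.le (Par.u1 P x) (Par.u2 P x)
  have key : (0 < dpr θ δ τ (uu θ L x) (x k) ∧ dpr θ δ τ (uu θ L x) (x k) < 2 * θ) ↔ (0 < x k ∧ x k < 1) := by
    constructor
    · rintro ⟨h1, h2⟩
      constructor
      · rw [← e0] at h1; exact hm.lt_iff_lt.1 h1
      · rw [← e1] at h2; exact hm.lt_iff_lt.1 h2
    · rintro ⟨h1, h2⟩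
      constructor
      · have := hm h1; simp only [e0] at this; exact this
      · have := hm h2; simp only [e1] at this; exact this
  constructor
  · intro h i
    have hi := h i
    by_cases hik : i = k
    · subst hik
      rw [Function.update_self, Dm_apply] at hi
      rw [Function.update_self]
      exact key.1 hi
    · rw [Function.update_of_ne hik, Dm_apply_ne hik] at hi
      rwa [Function.update_of_ne hik]
  · intro h i
    have hi := h i
    by_cases hik : i = k
    · subst hik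
      rw [Function.update_self] at hi
      rw [Function.update_self, Dm_apply]
      exact key.2 hi
    · rw [Function.update_of_ne hik] at hi
      rwa [Function.update_of_ne hik, Dm_apply_ne hik]

theorem exists_inv_Dm (P : Par θ δ τ ν M k a L) :
    ∃ t : V → V, ContDiff ℝ ∞ t ∧ (∀ x, t (Dm θ δ τ k L x) = x) ∧ ∀ y, Dm θ δ τ k L (t y) = y :=
  exists_inv (contDiff_Dm P.lat P.hθ P.hθ' P.hτ) ⟨inj_Dm P, surj_Dm P⟩ (der_Dm P)

end

/-- **(U1)** -/
theorem specU1 : SpecU1 := by
  intro θ δ τ ν M k a L P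
  obtain ⟨t, ht, ht1, ht2⟩ := exists_inv_Dm P
  refine ⟨t, ⟨fun x hx => ⟨(Dm_mem P x).2 hx, ht1 x⟩, fun y hy => ⟨?_, ht2 y⟩⟩, fun i => ?_, fun i => ?_⟩
  · rw [← Dm_mem P, ht2]
    exact hy
  · exact (contDiff_pi.1 (contDiff_Dm P.lat P.hθ P.hθ' P.hτ) i).contDiffOn
  · exact (contDiff_pi.1 ht i).contDiffOn

end Vale.Agent.P073.H732
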