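import Vale.Agent.P073.H235.ConSpec
import Vale.Agent.P073.H732.U1

/-!
# P073: small shifts of a box (helper732), `SpecC3`
-/

namespace Vale.Agent.P073.H732

open MeasureTheory Set Filter Topology Metric Vale.Agent.P073.H235
open Vale.Agent.P073.St (V Mat)
open Vale.Agent.P073.SQ (ev)
open scoped ContDiff ENNReal NNReal Manifold

/-- the image of Lebesgue measure under a map with `2`-Lipschitz inverse -/
theorem map_le_of_lipschitz {s t : V → V} (hs : Measurable s) (ht : LipschitzWith 2 t)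
    (h1 : ∀ x, t (s x) = x) (h2 : ∀ y, s (t y) = y) :
    Measure.map s volume ≤ (8 : ℝ≥0∞) • (volume : Measure V) := by
  refine Measure.le_iff.2 fun E hE => ?_
  rw [Measure.map_apply hs hE]
  have h : s ⁻¹' E = t '' E := by
    ext x
    constructor
    · intro hx
      exact ⟨s x, hx, h1 x⟩
    · rintro ⟨y, hy, rfl⟩
      change s (t y) ∈ E
      rwa [h2]
  rw [h]
  have h3 := ht.hausdorffMeasure_image_le (d := (Fintype.card (Fin 3) : ℝ)) (by positivity) E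
  rw [hausdorffMeasure_pi_real] at h3
  refine h3.trans (le_of_eq ?_)
  simp only [Fintype.card_fin, Measure.smul_apply, smul_eq_mul]
  congr 1
  rw [show ((3 : ℕ) : ℝ) = (3 : ℕ) from rfl, ENNReal.rpow_natCast]
  norm_num

theorem lintegral_comp_le {s t : V → V} (hs : Continuous s) (ht : LipschitzWith 2 t)
    (h1 : ∀ x, t (s x) = x) (h2 : ∀ y, s (t y) = y) {S : Set V} (hS : MeasurableSet S)
    (G : V → ℝ≥0∞) :
    ∫⁻ x in S, G (s x) ≤ 8 * ∫⁻ y in s '' S, G y := by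
  have himg : s '' S = t ⁻¹' S := by
    ext y
    constructor
    · rintro ⟨x, hx, rfl⟩
      change t (s x) ∈ S
      rwa [h1]
    · intro hy
      exact ⟨t y, hy, h2 y⟩
  have hmS : MeasurableSet (s '' S) := by
    rw [himg]
    exact ht.continuous.measurable hS
  let e : V ≃ₜ V :=
    { toFun := s, invFun := t, left_inv := h1, right_inv := h2,
      continuous_toFun := hs, continuous_invFun := ht.continuous }
  have hemb : MeasurableEmbedding s := e.measurableEmbedding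
  calc ∫⁻ x in S, G (s x) = ∫⁻ x, (s '' S).indicator G (s x) := by
        rw [← lintegral_indicator hS]
        refine lintegral_congr fun x => ?_
        by_cases hx : x ∈ S
        · rw [indicator_of_mem hx, indicator_of_mem (mem_image_of_mem s hx)]
        · rw [indicator_of_notMem hx, indicator_of_notMem]
          rw [himg]
          change t (s x) ∉ S
          rwa [h1]
    _ = ∫⁻ y, (s '' S).indicator G y ∂(Measure.map s volume) := (hemb.lintegral_map _).symm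
    _ ≤ ∫⁻ y, (s '' S).indicator G y ∂((8 : ℝ≥0∞) • (volume : Measure V)) :=
        lintegral_mono' (map_le_of_lipschitz hs.measurable ht h1 h2) le_rfl
    _ = 8 * ∫⁻ y in s '' S, G y := by
        rw [lintegral_smul_measure, lintegral_indicator hmS, smul_eq_mul]

/-- a bump function with all the data needed -/
theorem exists_bump {B K₀ : Set V} (hB : IsOpen B) (hK₀ : IsCompact K₀) (hKB : K₀ ⊆ B) :
    ∃ (χ : V → ℝ) (K U : Set V) (M : ℝ), IsCompact K ∧ K ⊆ B ∧ IsOpen U ∧ K₀ ⊆ U ∧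
      ContDiff ℝ ∞ χ ∧ (∀ x, χ x ∈ Icc (0:ℝ) 1) ∧ (∀ x ∈ U, χ x = 1) ∧ (∀ x ∉ K, χ x = 0) ∧
      0 < M ∧ ∀ x, ‖fderiv ℝ χ x‖ ≤ M := by
  obtain ⟨K, hK, h1, h2⟩ := exists_compact_between hK₀ hB hKB
  obtain ⟨f, hf1, hf2, hf3⟩ := exists_contMDiffMap_one_nhds_of_subset_interior 𝓘(ℝ, V)
    (n := (⊤ : ℕ∞))
    hK₀.isClosed h1
  have hf : ContDiff ℝ ∞ f := contMDiff_iff_contDiff.1 f.contMDiff
  obtain ⟨U, hU, hU1, hU2⟩ := mem_nhdsSet_iff_exists.1 hf1
  have hz : ∀ x ∉ K, fderiv ℝ f x = 0 := by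
    intro x hx
    have : (f : V → ℝ) =ᶠ[𝓝 x] fun _ => 0 := by
      filter_upwards [hK.isClosed.isOpen_compl.mem_nhds hx] with y hy
      exact hf2 y hy
    rw [this.fderiv_eq]
    simp
  obtain ⟨M, hM⟩ := hK.exists_bound_of_continuousOn (f := fderiv ℝ f)
    (hf.continuous_fderiv (by simp)).continuousOn
  refine ⟨f, K, U, max M 1, hK, h2, hU, hU1, hf, hf3, fun x hx => hU2 hx, hf2,
    lt_max_of_lt_right one_pos, fun x => ?_⟩
  by_cases hx : x ∈ K
  · exact (hM x hx).trans (le_max_left _ _)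
  · rw [hz x hx, norm_zero]
    exact le_max_of_le_right zero_le_one

section

variable {χ : V → ℝ} {M : ℝ} {w : V}

/-- the shift -/
noncomputable def sh (χ : V → ℝ) (w : V) : V → V := fun x => x + χ x • w

theorem contDiff_sh (hχ : ContDiff ℝ ∞ χ) : ContDiff ℝ ∞ (sh χ w) :=
  contDiff_id.add (hχ.smul contDiff_const)

theorem fderiv_sh (hχ : ContDiff ℝ ∞ χ) (x v : V) :
    fderiv ℝ (sh χ w) x v = v + (fderiv ℝ χ x v) • w := by
  have hd : HasFDerivAt χ (fderiv ℝ χ x) x := (hχ.differentiable (by simp) x).hasFDerivAt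
  have h : HasFDerivAt (sh χ w) (ContinuousLinearMap.id ℝ V + (fderiv ℝ χ x).smulRight w) x :=
    (hasFDerivAt_id x).add (hd.smul_const w)
  rw [h.fderiv]
  simp

theorem lip_sub (hχ : ContDiff ℝ ∞ χ) (hM : ∀ x, ‖fderiv ℝ χ x‖ ≤ M) (hw : M * ‖w‖ ≤ 1 / 2)
    (x y : V) : ‖(χ x - χ y) • w‖ ≤ 1 / 2 * ‖x - y‖ := by
  have h1 : ‖χ x - χ y‖ ≤ M * ‖x - y‖ :=
    Convex.norm_image_sub_le_of_norm_fderiv_le (𝕜 := ℝ) (s := univ) (f := χ)
      (fun z _ => (hχ.differentiable (by simp) z)) (fun z _ => hM z) convex_univ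
      (mem_univ _) (mem_univ _)
  rw [norm_smul]
  calc ‖χ x - χ y‖ * ‖w‖ ≤ M * ‖x - y‖ * ‖w‖ := by gcongr
    _ = M * ‖w‖ * ‖x - y‖ := by ring
    _ ≤ 1 / 2 * ‖x - y‖ := by gcongr

theorem antilip (hχ : ContDiff ℝ ∞ χ) (hM : ∀ x, ‖fderiv ℝ χ x‖ ≤ M) (hw : M * ‖w‖ ≤ 1 / 2)
    (x y : V) : ‖x - y‖ ≤ 2 * ‖sh χ w x - sh χ w y‖ := by
  have h1 := lip_sub hχ hM hw x y
  have h2 : x - y = (sh χ w x - sh χ w y) - (χ x - χ y) • w := by
    simp only [sh, sub_smul]
    abel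
  have h3 : ‖x - y‖ ≤ ‖sh χ w x - sh χ w y‖ + ‖(χ x - χ y) • w‖ := by
    calc ‖x - y‖ = ‖(sh χ w x - sh χ w y) - (χ x - χ y) • w‖ := by rw [← h2]
      _ ≤ _ := norm_sub_le _ _
  linarith

theorem surj_sh (hχ : ContDiff ℝ ∞ χ) (hM : ∀ x, ‖fderiv ℝ χ x‖ ≤ M) (hw : M * ‖w‖ ≤ 1 / 2) :
    Function.Surjective (sh χ w) := by
  intro y
  have hc : ContractingWith (1 / 2 : ℝ≥0) (fun x : V => y - χ x • w) := by
    refine ⟨by rw [div_lt_one (by norm_num)]; norm_num, LipschitzWith.of_dist_le_mul fun a b => ?_⟩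
    rw [dist_eq_norm, dist_eq_norm]
    have h := lip_sub hχ hM hw b a
    have e : (y - χ a • w) - (y - χ b • w) = (χ b - χ a) • w := by
      rw [sub_smul]; abel
    rw [e, norm_sub_rev a b]
    simpa using h
  obtain ⟨z, hz⟩ : ∃ z, y - χ z • w = z := ⟨_, hc.fixedPoint_isFixedPt⟩
  refine ⟨z, ?_⟩
  unfold sh
  rw [← sub_eq_iff_eq_add.1 hz]

end

/-- the pointwise estimate of the energy -/
theorem rpow_est {p : ℝ} (hp : 1 ≤ p) (D : V →L[ℝ] V) (c : ℝ) (w : V) (hcw : |c| * ‖w‖ ≤ 1 / 2)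
    (j : Fin 3) :
    ‖D (ev j + c • w)‖ ^ p ≤ 8 ^ p / 3 * ∑ i, ‖D (ev i)‖ ^ p := by
  have hw : w = ∑ i, w i • ev i := by
    ext k
    simp [ev, Finset.sum_apply, Pi.single_apply]
  have h1 : ‖D w‖ ≤ ‖w‖ * ∑ i, ‖D (ev i)‖ := by
    conv_lhs => rw [hw]
    rw [map_sum, Finset.mul_sum]
    refine (norm_sum_le _ _).trans (Finset.sum_le_sum fun i _ => ?_)
    rw [map_smul, norm_smul]
    exact mul_le_mul_of_nonneg_right (norm_le_pi_norm w i) (norm_nonneg _)
  have h2 : ‖D (ev j)‖ ≤ ∑ i, ‖D (ev i)‖ :=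
    Finset.single_le_sum (f := fun i => ‖D (ev i)‖) (fun i _ => norm_nonneg _) (Finset.mem_univ j)
  have hs0 : 0 ≤ ∑ i, ‖D (ev i)‖ := Finset.sum_nonneg fun i _ => norm_nonneg _
  have h3 : ‖D (ev j + c • w)‖ ≤ 3 / 2 * ∑ i, ‖D (ev i)‖ := by
    rw [map_add, map_smul]
    calc ‖D (ev j) + c • D w‖ ≤ ‖D (ev j)‖ + ‖c • D w‖ := norm_add_le _ _
      _ = ‖D (ev j)‖ + |c| * ‖D w‖ := by rw [norm_smul, Real.norm_eq_abs]
      _ ≤ (∑ i, ‖D (ev i)‖) + |c| * (‖w‖ * ∑ i, ‖D (ev i)‖) := by gcongr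
      _ = (1 + |c| * ‖w‖) * ∑ i, ‖D (ev i)‖ := by ring
      _ ≤ (1 + 1 / 2) * ∑ i, ‖D (ev i)‖ := by gcongr
      _ = 3 / 2 * ∑ i, ‖D (ev i)‖ := by norm_num
  have h4 : (∑ i, ‖D (ev i)‖) ^ p ≤ 3 ^ (p - 1) * ∑ i, ‖D (ev i)‖ ^ p := by
    have := Real.rpow_sum_le_const_mul_sum_rpow_of_nonneg (s := Finset.univ)
      (f := fun i => ‖D (ev i)‖) hp fun i _ => norm_nonneg _
    simpa using this
  calc ‖D (ev j + c • w)‖ ^ p ≤ (3 / 2 * ∑ i, ‖D (ev i)‖) ^ p := by gcongr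
    _ = (3 / 2) ^ p * (∑ i, ‖D (ev i)‖) ^ p := Real.mul_rpow (by norm_num) hs0
    _ ≤ (3 / 2) ^ p * (3 ^ (p - 1) * ∑ i, ‖D (ev i)‖ ^ p) := by gcongr
    _ = (9 / 2) ^ p / 3 * ∑ i, ‖D (ev i)‖ ^ p := by
        rw [Real.rpow_sub_one (by norm_num), show (9 / 2 : ℝ) = 3 / 2 * 3 by norm_num,
          Real.mul_rpow (by norm_num) (by norm_num)]
        ring
    _ ≤ 8 ^ p / 3 * ∑ i, ‖D (ev i)‖ ^ p := by
        have : (9 / 2 : ℝ) ^ p ≤ 8 ^ p := by gcongr; norm_num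
        gcongr

/-- **(C3)** -/
theorem specC3 : SpecC3 := by
  intro a ha K₀ hK₀a hK₀
  have hB : IsOpen (Bx a) := by
    have : Bx a = ⋂ i, {x : V | 0 < x i ∧ x i < a i} := by
      ext x; simp [Bx]
    rw [this]
    exact isOpen_iInter_of_finite fun i =>
      (isOpen_lt continuous_const (continuous_apply i)).inter
        (isOpen_lt (continuous_apply i) continuous_const)
  obtain ⟨χ, K, U, M, hK, hKB, hU, hKU, hχ, hχ1, hχU, hχK, hM0, hM⟩ := exists_bump hB hK₀ hK₀a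
  refine ⟨K, hKB, hK, 1 / (2 * M), by positivity, fun w hw => ?_⟩
  have hMw : M * ‖w‖ ≤ 1 / 2 := by
    calc M * ‖w‖ ≤ M * (1 / (2 * M)) := by gcongr
      _ = 1 / 2 := by field_simp
  have hsm : ContDiff ℝ ∞ (sh χ w) := contDiff_sh hχ
  have hanti := antilip (w := w) hχ hM hMw
  have hinj : Function.Injective (sh χ w) := by
    intro x y hxy
    have := hanti x y
    rw [hxy, sub_self, norm_zero, mul_zero] at this
    exact sub_eq_zero.1 (norm_le_zero_iff.1 this)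
  obtain ⟨t, ht, ht1, ht2⟩ : ∃ t : V → V, ContDiff ℝ ∞ t ∧ (∀ x, t (sh χ w x) = x) ∧
      ∀ y, sh χ w (t y) = y := by
    refine exists_inv hsm ⟨hinj, surj_sh hχ hM hMw⟩ fun x v hv => ?_
    rw [fderiv_sh hχ] at hv
    have h1 : ‖(fderiv ℝ χ x v) • w‖ ≤ 1 / 2 * ‖v‖ := by
      rw [norm_smul]
      calc ‖fderiv ℝ χ x v‖ * ‖w‖ ≤ (‖fderiv ℝ χ x‖ * ‖v‖) * ‖w‖ := by
            gcongr; exact ContinuousLinearMap.le_opNorm _ _
        _ ≤ (M * ‖v‖) * ‖w‖ := by gcongr; exact hM x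
        _ = M * ‖w‖ * ‖v‖ := by ring
        _ ≤ 1 / 2 * ‖v‖ := by gcongr
    have h2 : v = -((fderiv ℝ χ x v) • w) := eq_neg_of_add_eq_zero_left hv
    have h3 : ‖v‖ ≤ 1 / 2 * ‖v‖ := by
      calc ‖v‖ = ‖(fderiv ℝ χ x v) • w‖ := by
            conv_lhs => rw [h2]
            rw [norm_neg]
        _ ≤ _ := h1
    exact norm_le_zero_iff.1 (by linarith [norm_nonneg v])
  have hid : ∀ x ∉ K, sh χ w x = x := by
    intro x hx
    simp [sh, hχK x hx]
  have hmem : ∀ x, sh χ w x ∈ Bx a ↔ x ∈ Bx a := by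
    intro x
    by_cases hx : x ∈ K
    · refine ⟨fun _ => hKB hx, fun _ => ?_⟩
      by_contra hn
      have hn' : sh χ w x ∉ K := fun h => hn (hKB h)
      have := hinj (hid _ hn')
      rw [this] at hn'
      exact hn' hx
    · rw [hid x hx]
  have htl : LipschitzWith 2 t := by
    refine LipschitzWith.of_dist_le_mul fun y z => ?_
    rw [dist_eq_norm, dist_eq_norm]
    have := hanti (t y) (t z)
    rw [ht2, ht2] at this
    exact_mod_cast this
  refine ⟨sh χ w, ⟨t, ⟨fun x hx => ⟨(hmem x).2 hx, ht1 x⟩, fun y hy => ⟨?_, ht2 y⟩⟩,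
    fun i => (contDiff_pi.1 hsm i).contDiffOn, fun i => (contDiff_pi.1 ht i).contDiffOn⟩,
    ⟨U, hU, hKU, fun x hx => by simp [sh, hχU x hx]⟩, hid, fun x => ?_, ?_⟩
  · rw [← hmem, ht2]
    exact hy
  · have : sh χ w x - x = χ x • w := by simp [sh]
    rw [this, norm_smul, Real.norm_of_nonneg (hχ1 x).1]
    exact mul_le_of_le_one_left (norm_nonneg _) (hχ1 x).2
  · intro p g S hp hS hSB hg
    have hd : ∀ x ∈ S, ∀ j, fderiv ℝ (fun x => g (sh χ w x)) x (ev j) =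
        fderiv ℝ g (sh χ w x) (ev j + (fderiv ℝ χ x (ev j)) • w) := by
      intro x hx j
      have hgd : DifferentiableAt ℝ g (sh χ w x) :=
        ((hg.contDiffAt (hB.mem_nhds ((hmem x).2 (hSB hx)))).differentiableAt (by simp))
      have hsd : DifferentiableAt ℝ (sh χ w) x := hsm.differentiable (by simp) x
      have h : HasFDerivAt (fun x => g (sh χ w x))
          ((fderiv ℝ g (sh χ w x)).comp (fderiv ℝ (sh χ w) x)) x :=
        hgd.hasFDerivAt.comp x hsd.hasFDerivAt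
      rw [h.fderiv, ContinuousLinearMap.comp_apply, fderiv_sh hχ]
    have hev : ∀ j, ‖(ev j : V)‖ = 1 := by
      intro j
      simp [ev, Pi.norm_single]
    unfold En
    calc ∑ j, ∫⁻ x in S, ENNReal.ofReal (‖fderiv ℝ (fun x => g (sh χ w x)) x (ev j)‖ ^ p)
        ≤ ∑ j : Fin 3, ∫⁻ x in S, ENNReal.ofReal (8 ^ p / 3) *
            ∑ i, ENNReal.ofReal (‖fderiv ℝ g (sh χ w x) (ev i)‖ ^ p) := by
          refine Finset.sum_le_sum fun j _ => setLIntegral_mono' hS fun x hx => ?_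
          rw [hd x hx j, ← ENNReal.ofReal_sum_of_nonneg fun i _ => by positivity,
            ← ENNReal.ofReal_mul (by positivity)]
          refine ENNReal.ofReal_le_ofReal (rpow_est hp _ _ _ ?_ j)
          rw [← Real.norm_eq_abs]
          calc ‖fderiv ℝ χ x (ev j)‖ * ‖w‖ ≤ (‖fderiv ℝ χ x‖ * ‖(ev j : V)‖) * ‖w‖ := by
                gcongr; exact ContinuousLinearMap.le_opNorm _ _
            _ ≤ M * ‖w‖ := by
                rw [hev, mul_one]; gcongr; exact hM x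
            _ ≤ 1 / 2 := hMw
      _ ≤ ∑ j : Fin 3, ENNReal.ofReal (8 ^ p / 3) *
            (8 * ∫⁻ y in sh χ w '' S, ∑ i, ENNReal.ofReal (‖fderiv ℝ g y (ev i)‖ ^ p)) := by
          refine Finset.sum_le_sum fun j _ => ?_
          rw [lintegral_const_mul' _ _ ENNReal.ofReal_ne_top]
          gcongr
          exact lintegral_comp_le hsm.continuous htl ht1 ht2 hS
            fun y => ∑ i, ENNReal.ofReal (‖fderiv ℝ g y (ev i)‖ ^ p)
      _ = ENNReal.ofReal (8 ^ p * 8) * ∑ i : Fin 3, ∫⁻ x in sh χ w '' S,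
            ENNReal.ofReal (‖fderiv ℝ g x (ev i)‖ ^ p) := by
          rw [lintegral_finsetSum]
          · rw [Finset.sum_const, Finset.card_univ, Fintype.card_fin, nsmul_eq_mul,
              ← mul_assoc, ← mul_assoc]
            congr 1
            have e3 : ((3 : ℕ) : ℝ≥0∞) = ENNReal.ofReal 3 := by norm_num
            have e8 : (8 : ℝ≥0∞) = ENNReal.ofReal 8 := by norm_num
            rw [e3, e8, ← ENNReal.ofReal_mul (by norm_num), ← ENNReal.ofReal_mul (by positivity)]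
            congr 1
            ring
          · intro i _
            exact ENNReal.measurable_ofReal.comp
              ((measurable_fderiv_apply_const ℝ g (ev i)).norm.pow_const p)

end Vale.Agent.P073.H732
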