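import Vale.Agent.P073.H732.U1

/-!
# P073: transfer of the boundary values under the un-collapse map (helper732), `SpecU2`
-/

namespace Vale.Agent.P073.H732

open MeasureTheory Set Filter Topology Metric Vale.Agent.P073.H235 Vale.Agent.P073.LOC
open Vale.Agent.P073.St (V Mat)
open Vale.Agent.P073.SQ (ev)
open scoped ContDiff ENNReal

theorem closure_Q1 : closure Q1 = Icc (0:V) 1 := by
  have h : Q1 = Set.pi univ fun _ : Fin 3 => Ioo (0:ℝ) 1 := by
    ext x
    simp [Q1, Set.mem_pi]
  rw [h, closure_pi_set]
  simp only [closure_Ioo (zero_ne_one' ℝ)]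
  ext x
  simp only [Set.mem_pi, Set.mem_univ, true_imp_iff, Set.mem_Icc, Pi.le_def, Pi.zero_apply, Pi.one_apply]
  exact forall_and

theorem div_mem {x : V} {b : V} (h : x ∈ Bx b) : (fun i => x i / b i) ∈ Icc (0:V) 1 := by
  constructor
  · intro i
    obtain ⟨h1, h2⟩ := h i
    exact (div_pos h1 (h1.trans h2)).le
  · intro i
    obtain ⟨h1, h2⟩ := h i
    exact ((div_lt_one (h1.trans h2)).2 h2).le

/-- **(U2)** -/
theorem specU2 : SpecU2 := by
  intro θ δ τ ν M k a L f g P hf hg ε hε
  obtain ⟨K', hK's, hK'c, hK'⟩ := hg (ε / 2) (by positivity)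
  obtain ⟨t, ht, ht1, ht2⟩ := exists_inv_Dm P
  rw [closure_Q1] at hf
  have huc := isCompact_Icc.uniformContinuousOn_of_continuous hf
  rw [Metric.uniformContinuousOn_iff] at huc
  obtain ⟨η, hη, hu⟩ := huc (ε / 2) (by positivity)
  have hθ2 : 0 < 2 * θ := by have := P.hθ; positivity
  set D : V → ℝ := fun x => |Dm θ δ τ k L x k / (2 * θ) - x k| with hD
  have hDc : Continuous D := by
    have h1 : Continuous fun x => Dm θ δ τ k L x k :=
      (continuous_apply k).comp (contDiff_Dm P.lat P.hθ P.hθ' P.hτ).continuous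
    exact ((h1.div_const _).sub (continuous_apply k)).abs
  set K2 : Set V := Icc (0:V) (Function.update a k 1) ∩ {x | η ≤ D x} with hK2
  have hK2c : IsCompact K2 := isCompact_Icc.inter_right (isClosed_le continuous_const hDc)
  have hK2s : K2 ⊆ Bx (Function.update a k 1) := by
    rintro x ⟨⟨hx0, hx1⟩, hx⟩
    have hx : η ≤ D x := hx
    by_contra hcon
    unfold Bx at hcon
    rw [Set.mem_ofPred_eq, not_forall] at hcon
    obtain ⟨i, hi⟩ := hcon
    have h0 : 0 ≤ x i := hx0 i
    have h1 : x i ≤ Function.update a k 1 i := hx1 i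
    have hb : x i = 0 ∨ x i = Function.update a k 1 i := by
      by_contra h2
      push Not at h2
      exact hi ⟨lt_of_le_of_ne h0 (Ne.symm h2.1), lt_of_le_of_ne h1 h2.2⟩
    have hD0 : D x = 0 := by
      rw [hD]
      simp only [Dm_apply]
      rw [abs_eq_zero, sub_eq_zero, div_eq_iff hθ2.ne']
      by_cases hik : i = k
      · subst hik
        rw [Function.update_self] at hb
        rcases hb with hb | hb
        · rw [hb, dpr_zero P.hδ (Par.u1 P x) (Par.u2 P x), zero_mul]
        · rw [hb, dpr_one P.hδ P.hτ.le (Par.u1 P x) (Par.u2 P x), one_mul]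
      · rw [Function.update_of_ne hik] at hb
        have hai := P.ha i hik
        have hν := P.hν
        have hL : L x = 0 := by
          refine P.lat.zero x ⟨i, hik, ?_⟩
          rcases hb with hb | hb
          · left
            rw [hb]
            positivity
          · right
            rw [hb]
            nlinarith
        have hu2 : uu θ L x = 1 / 2 := by
          unfold uu
          rw [hL]
          ring
        rw [hu2, dpr_half P.hδ P.hτ.le]
        ring
    rw [hD0] at hx
    linarith
  refine ⟨t '' K' ∪ K2, ?_, (hK'c.image ht.continuous).union hK2c, ?_⟩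
  · refine union_subset ?_ hK2s
    rintro _ ⟨y, hy, rfl⟩
    rw [← Dm_mem P, ht2]
    exact hK's hy
  · rintro x ⟨hx, hxK⟩
    have hy := (Dm_mem P x).2 hx
    have hyK : Dm θ δ τ k L x ∉ K' := by
      intro h
      exact hxK (Or.inl ⟨_, h, ht1 x⟩)
    have h1 := hK' _ ⟨hy, hyK⟩
    have h2 : dist (cmp (Function.update a k (2 * θ)) f (Dm θ δ τ k L x)) (cmp (Function.update a k 1) f x) < ε / 2 := by
      refine hu _ (div_mem hy) _ (div_mem hx) ?_
      rw [dist_pi_lt_iff hη]
      intro i
      by_cases hik : i = k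
      · subst hik
        rw [Function.update_self, Function.update_self, Real.dist_eq, div_one]
        by_contra hcon
        refine hxK (Or.inr ⟨⟨fun j => (hx j).1.le, fun j => (hx j).2.le⟩, ?_⟩)
        exact not_lt.1 hcon
      · rw [Function.update_of_ne hik, Function.update_of_ne hik, Dm_apply_ne hik, dist_self]
        exact hη
    rw [dist_eq_norm] at h2
    calc _ = ‖(g (Dm θ δ τ k L x) - cmp (Function.update a k (2 * θ)) f (Dm θ δ τ k L x)) +
          (cmp (Function.update a k (2 * θ)) f (Dm θ δ τ k L x) - cmp (Function.update a k 1) f x)‖ := by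
          congr 1
          abel
      _ ≤ _ := norm_add_le _ _
      _ ≤ ε / 2 + ε / 2 := add_le_add h1 h2.le
      _ = ε := by ring

end Vale.Agent.P073.H732
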