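import Vale.Agent.P073.H732.LocSum

/-!
# P073, P2: `[LOCSUM]` for clean squares (helper732), in the form of helper953
-/

namespace Vale.Agent.P073.H732

open MeasureTheory Set Filter Topology Metric Vale.Agent.P073.St Vale.Agent.P073.AB
open Vale.Agent.P073.SQ (ev)
open Vale.Agent.P073.H234
open _root_.P073.Net (dyc dyo)
open scoped ENNReal

/-- the big cube of a small cube is unique -/
theorem le_of_dyc_sub {v : V} {m j : ℕ} {w z z' : Fin 3 → ℤ}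
    (h : dyc v (m + j) w ⊆ dyc v m z) (h' : dyc v (m + j) w ⊆ dyc v m z') (k : Fin 3) :
    z k ≤ z' k := by
  have h1 : pt v (m + j) w ∈ dyc v (m + j) w := by
    intro k
    refine ⟨le_rfl, ?_⟩
    simp only [pt]
    gcongr
    linarith
  have h2 : pt v (m + j) (fun k => w k + 1) ∈ dyc v (m + j) w := by
    intro k
    constructor
    · simp only [pt]
      gcongr
      linarith
    · simp only [pt]
      push_cast
      exact le_rfl
  have h3 := (h h1 k).1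
  have h4 := (h' h2 k).2
  simp only [pt] at h3 h4
  push_cast at h4
  have h5 : (z k : ℝ) / 2 ^ m ≤ w k / 2 ^ (m + j) := by linarith
  have h6 : ((w k : ℝ) + 1) / 2 ^ (m + j) ≤ (z' k + 1) / 2 ^ m := by linarith
  have h7 : (w k : ℝ) / 2 ^ (m + j) < ((w k : ℝ) + 1) / 2 ^ (m + j) := by
    gcongr
    linarith
  have h8 : (z k : ℝ) / 2 ^ m < (z' k + 1) / 2 ^ m := by linarith
  have h9 : (z k : ℝ) < z' k + 1 := by
    by_contra hn
    rw [not_lt] at hn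
    have : ((z' k : ℝ) + 1) / 2 ^ m ≤ z k / 2 ^ m := by gcongr
    linarith
  have : z k < z' k + 1 := by exact_mod_cast h9
  omega

theorem squ_sub_dyc (v : V) (s : Idx × Fin 3) : squ v s ⊆ dyc v s.1.1 s.1.2 := by
  intro x hx k
  by_cases hk : k = s.2
  · rw [hk, hx.1]
    refine ⟨le_rfl, ?_⟩
    gcongr
    linarith
  · exact hx.2 k hk

variable {p θ M κ c₀ t₀ δ₀ ε₁ θ' M' κ' : ℝ} {ε : ℝ≥0∞} {j m : ℕ} {Ω Λ : Set V} {f : V → V}
  {F : V → Mat} {T : Set V} {v : V}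

/-- **[LOCSUM]**, clean squares -/
theorem locsum_clean (HT : TSet θ M κ t₀ δ₀ ε₁ Ω f F T)
    (C : P2Cells p ε θ' M' κ' c₀ t₀ δ₀ j Ω Λ f F T v m) (hκ : κ ≤ θ / 2) (hθ : 0 < θ)
    (ht₀ : 0 < t₀) (hM' : 0 ≤ M') (hθM : θ ≤ M') (hκ' : 0 ≤ κ') (y : V) {R : ℝ} (hR : 0 ≤ R)
    (S : Finset ((Fin 3 → ℤ) × (Idx × Fin 3)))
    (hS : ∀ q ∈ S, q.1 ∈ C.J ∧ Clean v m j q.1 q.2 ∧
      ∃ x ∈ squ v q.2, ‖C.A q.1 x - y‖ ≤ R / 2 ^ (m + j)) :
    (S.card : ℝ) ≤ 3 * (4 * (R + M' + κ') / θ + 2) ^ 3 := by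
  classical
  have hinj : Set.InjOn (fun q : (Fin 3 → ℤ) × (Idx × Fin 3) => q.2) S := by
    intro q hq q' hq' h
    have h1 := (hS q hq).2.1.2.1
    have h2 := (hS q' hq').2.1.2.1
    have h : q.2 = q'.2 := h
    rw [h] at h1
    refine Prod.ext (funext fun k => le_antisymm ?_ ?_) h
    · exact le_of_dyc_sub h1 h2 k
    · exact le_of_dyc_sub h2 h1 k
  have h1 := locsum_card HT C hκ hθ ht₀ hM' hθM hκ' y (R := R / 2 ^ (m + j)) (by positivity)
    (S.image fun q => q.2) (fun s hs => by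
      obtain ⟨q, hq, rfl⟩ := Finset.mem_image.1 hs
      obtain ⟨a1, a2, x, hx, a3⟩ := hS q hq
      refine ⟨a2.1, q.1, a1, ?_, x, hx, a3⟩
      have := squ_sub_dyc v q.2
      rw [a2.1] at this
      exact this.trans a2.2.1)
  rw [Finset.card_image_of_injOn hinj, div_mul_cancel₀ _ (by positivity)] at h1
  exact h1

/-- **[LOCSUM]** in the form of `helper953` (`R = 10`), the constant depends on `θ M` only -/
theorem locsum_953 (HT : TSet θ M κ t₀ δ₀ ε₁ Ω f F T)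
    (C : P2Cells p ε θ' M' κ' c₀ t₀ δ₀ j Ω Λ f F T v m) (hκ : κ ≤ θ / 2) (hθ : 0 < θ)
    (ht₀ : 0 < t₀) (hM' : 0 ≤ M') (hθM : θ ≤ M') (hκ' : 0 ≤ κ') (hκ1 : κ' ≤ 1) (y : V)
    (S : Finset ((Fin 3 → ℤ) × (Idx × Fin 3)))
    (hS : ∀ q ∈ S, q.1 ∈ C.J ∧ Clean v m j q.1 q.2 ∧
      ∃ x ∈ squ v q.2, ‖C.A q.1 x - y‖ ≤ 10 / 2 ^ (m + j)) :
    (S.card : ℝ) ≤ 3 * (4 * (M' + 11) / θ + 2) ^ 3 := by
  refine (locsum_clean HT C hκ hθ ht₀ hM' hθM hκ' y (R := 10) (by norm_num) S hS).trans ?_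
  have h : 10 + M' + κ' ≤ M' + 11 := by linarith
  have h0 : 0 ≤ 10 + M' + κ' := by positivity
  generalize 10 + M' + κ' = u at h h0
  gcongr

end Vale.Agent.P073.H732
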