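import Vale.Agent.P073.H732.XLine
import Vale.Agent.P073.H253.LineG
import Vale.Agent.P073.H687.BeamT

/-!
# P073, rank one: the measure on a line, good and bad edges of a line (helper732)
-/

namespace Vale.Agent.P073.H732

open MeasureTheory Set Filter Topology Metric Vale.Agent.P073.St Vale.Agent.P073.AB
open Vale.Agent.P073.SQ (ev)
open Vale.Agent.P073.H235 (Bx bm fl Co Fr P1 cmpD cmp)
open Vale.Agent.P073.H253 (rectN redgeN ledge xL BVData lpt)
open _root_.P073 (ConHomeo ConicalOn)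
open _root_.P073.Gauge (gam)
open _root_.P073.Gauge.O407 (eInt_eq)
open _root_.P073.Gauge.C110 (mem_edge_iff)
open scoped ENNReal

/-! ### The measure -/

/-- the length measure on the edges of `S` -/
noncomputable def edgeM (v : V) (S : Finset (Idx × Fin 3)) : Measure V :=
  ∑ e ∈ S, ENNReal.ofReal (1 / 2 ^ e.1.1) • (volume.restrict (Icc (0:ℝ) 1)).map (gam v e)

instance (v : V) (S : Finset (Idx × Fin 3)) : SFinite (edgeM v S) := by
  unfold edgeM
  classical
  induction S using Finset.induction_on with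
  | empty => rw [Finset.sum_empty]; infer_instance
  | insert k S hk ih => rw [Finset.sum_insert hk]; infer_instance

theorem lintegral_edgeM {v : V} {S : Finset (Idx × Fin 3)} {F : V → ℝ≥0∞}
    (hF : AEMeasurable F (edgeM v S)) :
    ∫⁻ x, F x ∂(edgeM v S) = ∑ e ∈ S, eInt v e F := by
  classical
  unfold edgeM at hF ⊢
  rw [lintegral_finsetSum_measure]
  refine Finset.sum_congr rfl fun e he => ?_
  rw [lintegral_smul_measure]
  have h1 : AEMeasurable F ((volume.restrict (Icc (0:ℝ) 1)).map (gam v e)) := by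
    refine hF.mono_ac ?_
    intro s hs
    rw [Measure.finsetSum_apply, Finset.sum_eq_zero_iff] at hs
    have h2 := hs e he
    rw [Measure.smul_apply, smul_eq_mul, mul_eq_zero] at h2
    rcases h2 with h2 | h2
    · have : (0:ℝ) < 1 / 2 ^ e.1.1 := by positivity
      exact absurd h2 (by simp)
    · exact h2
  rw [lintegral_map' h1 (continuous_gam v e).measurable.aemeasurable]
  rfl

theorem edgeM_compl {v : V} {S : Finset (Idx × Fin 3)} {U : Set V}
    (hU : MeasurableSet U) (hS : ∀ e ∈ S, edge v e ⊆ U) : edgeM v S Uᶜ = 0 := by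
  unfold edgeM
  rw [Measure.finsetSum_apply]
  refine Finset.sum_eq_zero fun e he => ?_
  rw [Measure.smul_apply, Measure.map_apply (continuous_gam v e).measurable hU.compl,
    Measure.restrict_apply ((continuous_gam v e).measurable hU.compl)]
  have h1 : gam v e ⁻¹' Uᶜ ∩ Icc 0 1 = ∅ := by
    rw [Set.eq_empty_iff_forall_notMem]
    rintro t ⟨ht1, ht2⟩
    exact ht1 (hS e he (mem_edge_iff.2 ⟨t, ht2, rfl⟩))
  rw [h1, measure_empty, smul_zero]

theorem ledge_inj (n : ℕ) (k₁ k₂ : ℤ) : Function.Injective (ledge n k₁ k₂) := by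
  intro k k' h
  have := congrArg (fun e : Idx × Fin 3 => e.1.2 0) h
  exact this

/-- the length measure on the edges of the line -/
noncomputable def lineM (v : V) (n : ℕ) (k₁ k₂ : ℤ) (S : Finset ℤ) : Measure V :=
  edgeM v (S.map ⟨ledge n k₁ k₂, ledge_inj n k₁ k₂⟩)

instance (v : V) (n : ℕ) (k₁ k₂ : ℤ) (S : Finset ℤ) : SFinite (lineM v n k₁ k₂ S) := by
  unfold lineM
  infer_instance

theorem lintegral_lineM {v : V} {n : ℕ} {k₁ k₂ : ℤ} {S : Finset ℤ} {F : V → ℝ≥0∞}
    (hF : AEMeasurable F (lineM v n k₁ k₂ S)) :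
    ∫⁻ x, F x ∂(lineM v n k₁ k₂ S) = ∑ k ∈ S, eInt v (ledge n k₁ k₂ k) F := by
  unfold lineM at hF ⊢
  rw [lintegral_edgeM hF, Finset.sum_map]
  rfl

theorem lineM_compl {v : V} {n : ℕ} {k₁ k₂ : ℤ} {S : Finset ℤ} {U : Set V}
    (hU : MeasurableSet U) (hS : ∀ k ∈ S, edge v (ledge n k₁ k₂ k) ⊆ U) :
    lineM v n k₁ k₂ S Uᶜ = 0 := by
  refine edgeM_compl hU fun e he => ?_
  obtain ⟨k, hk, rfl⟩ := Finset.mem_map.1 he
  exact hS k hk

end Vale.Agent.P073.H732
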