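import Vale.Agent.P073.H687.LenSeg
import Vale.Agent.P073.Net.NH2a

/-!
# P073, P2: the derivative of a curve after a collapse (helper732), `[DVAR1]`

`γ` is a curve close to a line in `W^{1,1}`; `g = T ∘ γ` off a set `U` of times, where `T` is almost
non-expanding in each coordinate; on `U` the curve `g` is short; the end points of `g` are where they
should be.  Then `g` is close to the line in `W^{1,1}`.
-/

namespace Vale.Agent.P073.H732

open MeasureTheory Set Filter Topology Metric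
open Vale.Agent.P073.St (V)
open Vale.Agent.P073.SQ (ev)
open Vale.Agent.P073.AB
open _root_.P073 (ConHomeo ConicalOn)
open _root_.P073.Gauge (gam dvar)
open _root_.P073.Gauge.C110 (mem_edge_iff)
open scoped ENNReal NNReal

/-- limits of difference quotients along a set which accumulates at `t` from the right -/
theorem deriv_le_of_acc {γ g : ℝ → V} {γ' g' : V} {t : ℝ} {E : Set ℝ} {i : Fin 3} {Φ : V → ℝ}
    (hΦ : Continuous Φ) (hΦ' : ∀ (c : ℝ) v, 0 ≤ c → Φ (c • v) = c * Φ v)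
    (hacc : 𝓝[E ∩ Ioi t] t ≠ ⊥) (hγ : HasDerivAt γ γ' t) (hg : HasDerivAt g g' t)
    (h : ∀ s ∈ E, t < s → |g s i - g t i| ≤ Φ (γ s - γ t)) : |g' i| ≤ Φ γ' := by
  have : NeBot (𝓝[E ∩ Ioi t] t) := ⟨hacc⟩
  have hle : 𝓝[E ∩ Ioi t] t ≤ 𝓝[≠] t :=
    nhdsWithin_mono _ fun s hs => ne_of_gt hs.2
  have h1 : Tendsto (slope γ t) (𝓝[E ∩ Ioi t] t) (𝓝 γ') :=
    (hasDerivAt_iff_tendsto_slope.1 hγ).mono_left hle
  have h2 : Tendsto (slope g t) (𝓝[E ∩ Ioi t] t) (𝓝 g') :=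
    (hasDerivAt_iff_tendsto_slope.1 hg).mono_left hle
  have h3 : Tendsto (fun s => |slope g t s i|) (𝓝[E ∩ Ioi t] t) (𝓝 |g' i|) :=
    (((continuous_apply i).tendsto g').comp h2).abs
  have h4 : Tendsto (fun s => Φ (slope γ t s)) (𝓝[E ∩ Ioi t] t) (𝓝 (Φ γ')) :=
    (hΦ.tendsto γ').comp h1
  refine le_of_tendsto_of_tendsto h3 h4 ?_
  filter_upwards [self_mem_nhdsWithin] with s hs
  have hst : 0 < s - t := sub_pos.2 hs.2
  have h5 := h s hs.1 hs.2
  have e1 : slope g t s i = (s - t)⁻¹ * (g s i - g t i) := by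
    simp [slope, vsub_eq_sub]
  have e2 : slope γ t s = (s - t)⁻¹ • (γ s - γ t) := by
    simp [slope, vsub_eq_sub]
  rw [e1, e2, hΦ' _ _ (inv_nonneg.2 hst.le), abs_mul, abs_of_pos (inv_pos.2 hst)]
  exact mul_le_mul_of_nonneg_left h5 (inv_nonneg.2 hst.le)

/-- a conical curve is differentiable off a finite set -/
theorem conical_diff {γ : ℝ → V} (hγ : ConicalOn γ (Icc 0 1)) :
    {t | t ∈ Ioo (0:ℝ) 1 ∧ ¬ DifferentiableAt ℝ γ t}.Finite := by
  refine (_root_.P073.Net.conical_affine_off_finite zero_le_one hγ).subset ?_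
  rintro t ⟨ht, hn⟩
  refine ⟨ht, ?_⟩
  rintro ⟨w, hw⟩
  apply hn
  have h1 : HasDerivAt (fun s : ℝ => γ t + (s - t) • w) ((1:ℝ) • w) t :=
    (((hasDerivAt_id t).sub_const t).smul_const w).const_add (γ t)
  exact (h1.congr_of_eventuallyEq hw).differentiableAt

/-- a pointwise bound almost everywhere on a set -/
theorem ae_deriv_le {γ g : ℝ → V} (hγ : ConicalOn γ (Icc 0 1)) (hg : ConicalOn g (Icc 0 1))
    {E : Set ℝ} {i : Fin 3} {Φ : V → ℝ} (hΦ : Continuous Φ)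
    (hΦ' : ∀ (c : ℝ) v, 0 ≤ c → Φ (c • v) = c * Φ v) (hE : E ⊆ Icc 0 1)
    (h : ∀ s ∈ E, ∀ t ∈ E, |g s i - g t i| ≤ Φ (γ s - γ t)) :
    ∀ᵐ t : ℝ, t ∈ E → |deriv g t i| ≤ Φ (deriv γ t) := by
  have hc : ({x ∈ E | 𝓝[E ∩ Ioi x] x = ⊥} ∪ ({t | t ∈ Ioo (0:ℝ) 1 ∧ ¬ DifferentiableAt ℝ γ t} ∪
      {t | t ∈ Ioo (0:ℝ) 1 ∧ ¬ DifferentiableAt ℝ g t}) ∪ {0, 1}).Countable :=
    (countable_setOfPred_isolated_right_within.union
      ((conical_diff hγ).countable.union (conical_diff hg).countable)).union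
      ((finite_singleton (1:ℝ)).insert 0).countable
  filter_upwards [hc.ae_notMem volume] with t ht htE
  simp only [mem_union, mem_ofPred_eq, mem_insert_iff, mem_singleton_iff, not_or, not_and,
    not_not] at ht
  obtain ⟨⟨h1, h2, h3⟩, h4, h5⟩ := ht
  have htI : t ∈ Ioo (0:ℝ) 1 :=
    ⟨lt_of_le_of_ne (hE htE).1 (Ne.symm h4), lt_of_le_of_ne (hE htE).2 h5⟩
  exact deriv_le_of_acc hΦ hΦ' (h1 htE) (h2 htI).hasDerivAt (h3 htI).hasDerivAt
    fun s hs _ => h s hs t htE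

/-- the derivative of a conical curve is bounded -/
theorem conical_bdd {γ : ℝ → V} (hγ : ConicalOn γ (Icc 0 1)) :
    ∃ K : ℝ, 0 ≤ K ∧ ∀ t ∈ Ioo (0:ℝ) 1, ‖deriv γ t‖ ≤ K := by
  obtain ⟨K, hK⟩ := _root_.P073.Net.conical_lipschitz zero_le_one hγ
  refine ⟨K, K.2, fun t ht => ?_⟩
  exact norm_deriv_le_of_lipschitzOn (Icc_mem_nhds ht.1 ht.2) hK

theorem conical_integrable {γ : ℝ → V} (hγ : ConicalOn γ (Icc 0 1)) :
    IntegrableOn (deriv γ) (Icc 0 1) := by
  obtain ⟨K, hK0, hK⟩ := conical_bdd hγ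
  rw [integrableOn_Icc_iff_integrableOn_Ioo]
  refine Measure.integrableOn_of_bounded (M := K) (by simp) (measurable_deriv γ).aestronglyMeasurable ?_
  exact (ae_restrict_iff' measurableSet_Ioo).2 (Eventually.of_forall hK)

/-- the fundamental theorem for conical curves -/
theorem conical_ftc {γ : ℝ → V} (hγ : ConicalOn γ (Icc 0 1)) :
    ∫ t in Icc (0:ℝ) 1, deriv γ t = γ 1 - γ 0 := by
  obtain ⟨K, hK⟩ := _root_.P073.Net.conical_lipschitz zero_le_one hγ
  have h := MeasureTheory.integral_eq_of_hasDerivAt_off_countable_of_le γ (deriv γ)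
    (zero_le_one' ℝ) (conical_diff hγ).countable hK.continuousOn
    (fun t ht => by
      have h1 : DifferentiableAt ℝ γ t := by
        by_contra hn
        exact ht.2 ⟨ht.1, hn⟩
      exact h1.hasDerivAt)
    ((intervalIntegrable_iff_integrableOn_Icc_of_le zero_le_one).2 (conical_integrable hγ))
  rw [← h, intervalIntegral.integral_of_le zero_le_one, integral_Icc_eq_integral_Ioc]

theorem abs_eq_two_pos (x : ℝ) : |x| = 2 * max x 0 - x := by
  rcases le_total 0 x with h | h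
  · rw [abs_of_nonneg h, max_eq_left h]; ring
  · rw [abs_of_nonpos h, max_eq_right h]; ring

/-- one coordinate -/
theorem coord_bound {γ g : ℝ → V} (hγ : ConicalOn γ (Icc 0 1)) (hg : ConicalOn g (Icc 0 1))
    {η : ℝ} (hη : 0 ≤ η) {U : Set ℝ} (hU : MeasurableSet U) {i : Fin 3}
    (hpt : ∀ᵐ t : ℝ, t ∈ Icc (0:ℝ) 1 \ U →
      |deriv g t i| ≤ (1 + η) * |deriv γ t i| + η * ‖deriv γ t‖)
    {w : V} {a b c : ℝ} (ha : ∫ t in Icc (0:ℝ) 1, ‖deriv γ t - w‖ ≤ a)
    (hb : ∫ t in Icc (0:ℝ) 1 ∩ U, ‖deriv g t‖ ≤ b) (hc : |g 1 i - g 0 i - w i| ≤ c) :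
    ∫ t in Icc (0:ℝ) 1, |deriv g t i - w i| ≤ 2 * ((1 + 2 * η) * a + 2 * η * ‖w‖ + b) + c := by
  have iγ := conical_integrable hγ
  have ig := conical_integrable hg
  obtain ⟨σ, hσ, hσw⟩ : ∃ σ : ℝ, |σ| = 1 ∧ σ * w i = |w i| := by
    rcases le_total 0 (w i) with h | h
    · exact ⟨1, by simp, by rw [one_mul, abs_of_nonneg h]⟩
    · exact ⟨-1, by simp, by rw [abs_of_nonpos h]; ring⟩
  have igi : IntegrableOn (fun t => deriv g t i) (Icc 0 1) := ig.eval i
  set u : ℝ → ℝ := fun t => σ * deriv g t i - |w i| with hu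
  have iu : IntegrableOn u (Icc 0 1) :=
    (igi.const_mul σ).sub (integrableOn_const (by simp))
  have e1 : ∀ t, |deriv g t i - w i| = 2 * max (u t) 0 - u t := by
    intro t
    rw [← abs_eq_two_pos]
    have : u t = σ * (deriv g t i - w i) := by
      simp only [hu]
      rw [mul_sub, hσw]
    rw [this, abs_mul, hσ, one_mul]
  have iup : IntegrableOn (fun t => max (u t) 0) (Icc 0 1) := iu.pos_part
  have e2 : ∫ t in Icc (0:ℝ) 1, |deriv g t i - w i| =
      2 * (∫ t in Icc (0:ℝ) 1, max (u t) 0) - ∫ t in Icc (0:ℝ) 1, u t := by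
    simp_rw [e1]
    rw [integral_sub (iup.const_mul 2) iu, integral_const_mul]
  have e3 : ∫ t in Icc (0:ℝ) 1, u t = σ * (g 1 i - g 0 i - w i) := by
    simp only [hu]
    rw [integral_sub (igi.const_mul σ) (integrableOn_const (by simp)), integral_const_mul]
    have h1 : ∫ t in Icc (0:ℝ) 1, deriv g t i = g 1 i - g 0 i := by
      have := congrFun (conical_ftc hg) i
      rw [← eval_integral (fun i => ig.eval i)] at *
      simpa using this
    rw [h1]
    simp only [integral_const, MeasurableSet.univ, measureReal_restrict_apply, univ_inter,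
      Real.volume_real_Icc, sub_zero, max_eq_left zero_le_one, smul_eq_mul, one_mul]
    rw [← hσw]; ring
  have h4 : -(∫ t in Icc (0:ℝ) 1, u t) ≤ c := by
    rw [e3]
    refine (neg_le_abs _).trans ?_
    rw [abs_mul, hσ, one_mul]
    exact hc
  have iγw : IntegrableOn (fun t => ‖deriv γ t - w‖) (Icc 0 1) :=
    (iγ.sub (integrableOn_const (by simp))).norm
  have h5 : ∫ t in Icc (0:ℝ) 1, max (u t) 0 ≤ (1 + 2 * η) * a + 2 * η * ‖w‖ + b := by
    have hu1 : ∀ t, u t ≤ |deriv g t i| - |w i| := by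
      intro t
      have : σ * deriv g t i ≤ |deriv g t i| := by
        refine (le_abs_self _).trans ?_
        rw [abs_mul, hσ, one_mul]
      simp only [hu]
      linarith
    have hp : ∀ᵐ t ∂(volume.restrict (Icc (0:ℝ) 1)), max (u t) 0 ≤
        ((1 + 2 * η) * ‖deriv γ t - w‖ + 2 * η * ‖w‖) + U.indicator (fun t => ‖deriv g t‖) t := by
      rw [ae_restrict_iff' measurableSet_Icc]
      filter_upwards [hpt] with t ht htI
      have hn : 0 ≤ (1 + 2 * η) * ‖deriv γ t - w‖ + 2 * η * ‖w‖ := by positivity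
      by_cases htU : t ∈ U
      · rw [indicator_of_mem htU]
        refine max_le ?_ (add_nonneg hn (norm_nonneg _))
        have h1 := hu1 t
        have h2 : |deriv g t i| ≤ ‖deriv g t‖ := norm_le_pi_norm (deriv g t) i
        have h3 := abs_nonneg (w i)
        linarith
      · rw [indicator_of_notMem htU, add_zero]
        refine max_le ?_ hn
        have h1 := hu1 t
        have h2 := ht ⟨htI, htU⟩
        have h3 : |deriv γ t i| ≤ ‖deriv γ t‖ := norm_le_pi_norm (deriv γ t) i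
        have h4 : |deriv γ t i| - |w i| ≤ ‖deriv γ t - w‖ :=
          (abs_sub_abs_le_abs_sub _ _).trans (norm_le_pi_norm (deriv γ t - w) i)
        have h5 : ‖deriv γ t‖ ≤ ‖deriv γ t - w‖ + ‖w‖ := by
          have := norm_add_le (deriv γ t - w) w
          rwa [sub_add_cancel] at this
        have h6 : η * |deriv γ t i| ≤ η * (‖deriv γ t - w‖ + ‖w‖) :=
          mul_le_mul_of_nonneg_left (h3.trans h5) hη
        have h7 : η * ‖deriv γ t‖ ≤ η * (‖deriv γ t - w‖ + ‖w‖) :=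
          mul_le_mul_of_nonneg_left h5 hη
        linarith
    have iU : IntegrableOn (U.indicator fun t => ‖deriv g t‖) (Icc 0 1) := ig.norm.indicator hU
    have i1 : IntegrableOn (fun t => (1 + 2 * η) * ‖deriv γ t - w‖ + 2 * η * ‖w‖) (Icc 0 1) :=
      (iγw.const_mul _).add (integrableOn_const (by simp))
    refine (integral_mono_ae iup (i1.add iU) hp).trans ?_
    simp only [Pi.add_apply]
    rw [integral_add i1 iU, integral_add (iγw.const_mul _) (integrableOn_const (by simp)),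
      integral_const_mul, setIntegral_indicator hU]
    simp only [integral_const, MeasurableSet.univ, measureReal_restrict_apply, univ_inter,
      Real.volume_real_Icc, sub_zero, max_eq_left zero_le_one, smul_eq_mul, one_mul]
    have : (1 + 2 * η) * ∫ t in Icc (0:ℝ) 1, ‖deriv γ t - w‖ ≤ (1 + 2 * η) * a := by gcongr
    linarith
  rw [e2]
  linarith

/-- **[DVAR1]**, curves on `[0, 1]` -/
theorem dvar1 {γ g : ℝ → V} (hγ : ConicalOn γ (Icc 0 1)) (hg : ConicalOn g (Icc 0 1))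
    {T : V → V} {η : ℝ} (hη : 0 ≤ η)
    (hT : ∀ y y' i, |T y i - T y' i| ≤ (1 + η) * |y i - y' i| + η * ‖y - y'‖)
    {U : Set ℝ} (hU : MeasurableSet U) (hgT : ∀ t ∈ Icc (0:ℝ) 1, t ∉ U → g t = T (γ t))
    {w : V} {a b c : ℝ} (ha0 : 0 ≤ a) (hb0 : 0 ≤ b)
    (ha : ∫⁻ t in Icc (0:ℝ) 1, ENNReal.ofReal ‖deriv γ t - w‖ ≤ ENNReal.ofReal a)
    (hb : ∫⁻ t in Icc (0:ℝ) 1 ∩ U, ENNReal.ofReal ‖deriv g t‖ ≤ ENNReal.ofReal b)
    (hc : ‖g 1 - g 0 - w‖ ≤ c) :
    ∫⁻ t in Icc (0:ℝ) 1, ENNReal.ofReal ‖deriv g t - w‖ ≤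
      ENNReal.ofReal (3 * (2 * ((1 + 2 * η) * a + 2 * η * ‖w‖ + b) + c)) := by
  have iγ := conical_integrable hγ
  have ig := conical_integrable hg
  have iγw : IntegrableOn (fun t => ‖deriv γ t - w‖) (Icc 0 1) :=
    (iγ.sub (integrableOn_const (by simp))).norm
  have igw : IntegrableOn (fun t => ‖deriv g t - w‖) (Icc 0 1) :=
    (ig.sub (integrableOn_const (by simp))).norm
  have ha' : ∫ t in Icc (0:ℝ) 1, ‖deriv γ t - w‖ ≤ a := by
    rw [← ofReal_integral_eq_lintegral_ofReal iγw (Eventually.of_forall fun t => norm_nonneg _)] at ha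
    exact (ENNReal.ofReal_le_ofReal_iff ha0).1 ha
  have hb' : ∫ t in Icc (0:ℝ) 1 ∩ U, ‖deriv g t‖ ≤ b := by
    rw [← ofReal_integral_eq_lintegral_ofReal (IntegrableOn.mono_set ig.norm inter_subset_left)
      (Eventually.of_forall fun t => norm_nonneg _)] at hb
    exact (ENNReal.ofReal_le_ofReal_iff hb0).1 hb
  have hco : ∀ i : Fin 3, ∫ t in Icc (0:ℝ) 1, |deriv g t i - w i| ≤
      2 * ((1 + 2 * η) * a + 2 * η * ‖w‖ + b) + c := by
    intro i
    refine coord_bound hγ hg hη hU ?_ ha' hb' ((norm_le_pi_norm (g 1 - g 0 - w) i).trans hc)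
    have := ae_deriv_le hγ hg (E := Icc (0:ℝ) 1 \ U) (i := i)
      (Φ := fun v => (1 + η) * |v i| + η * ‖v‖) (by fun_prop) (fun c v hc => by
        simp only [Pi.smul_apply, smul_eq_mul, abs_mul, norm_smul, Real.norm_eq_abs,
          abs_of_nonneg hc]
        ring) sdiff_subset (fun s hs t ht => by
        rw [hgT s hs.1 hs.2, hgT t ht.1 ht.2]
        exact hT _ _ i)
    exact this
  rw [← ofReal_integral_eq_lintegral_ofReal igw (Eventually.of_forall fun t => norm_nonneg _)]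
  refine ENNReal.ofReal_le_ofReal ?_
  have hco' : ∀ i : Fin 3, IntegrableOn (fun t => |deriv g t i - w i|) (Icc 0 1) := fun i =>
    ((ig.eval i).sub (integrableOn_const (by simp))).abs
  calc ∫ t in Icc (0:ℝ) 1, ‖deriv g t - w‖ ≤ ∫ t in Icc (0:ℝ) 1, ∑ i, |deriv g t i - w i| := by
        refine setIntegral_mono igw (integrable_finsetSum _ fun i _ => hco' i) fun t => ?_
        refine (pi_norm_le_iff_of_nonneg (Finset.sum_nonneg fun i _ => abs_nonneg _)).2 fun i => ?_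
        exact Finset.single_le_sum (f := fun i => |deriv g t i - w i|) (fun i _ => abs_nonneg _)
          (Finset.mem_univ i)
    _ = ∑ i, ∫ t in Icc (0:ℝ) 1, |deriv g t i - w i| := integral_finsetSum _ fun i _ => hco' i
    _ ≤ ∑ _i : Fin 3, (2 * ((1 + 2 * η) * a + 2 * η * ‖w‖ + b) + c) :=
        Finset.sum_le_sum fun i _ => hco i
    _ = 3 * (2 * ((1 + 2 * η) * a + 2 * η * ‖w‖ + b) + c) := by
        rw [Finset.sum_const, Finset.card_univ, Fintype.card_fin, nsmul_eq_mul]; norm_num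

/-- the part where the collapse is strong, one set of times -/
theorem small_on {γ g : ℝ → V} (hγ : ConicalOn γ (Icc 0 1)) (hg : ConicalOn g (Icc 0 1))
    {E : Set ℝ} (hE : E ⊆ Icc 0 1) (hEm : MeasurableSet E) {ι : ℝ} (hι : 0 ≤ ι)
    (h : ∀ s ∈ E, ∀ t ∈ E, ‖g s - g t‖ ≤ ι * ‖γ s - γ t‖) :
    ∫⁻ t in E, ENNReal.ofReal ‖deriv g t‖ ≤
      ENNReal.ofReal ι * ∫⁻ t in E, ENNReal.ofReal ‖deriv γ t‖ := by
  have h1 : ∀ i : Fin 3, ∀ᵐ t : ℝ, t ∈ E → |deriv g t i| ≤ ι * ‖deriv γ t‖ := fun i =>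
    ae_deriv_le hγ hg (i := i) (Φ := fun v => ι * ‖v‖) (by fun_prop) (fun c v hc => by
      simp only [norm_smul, Real.norm_eq_abs, abs_of_nonneg hc]
      ring) hE fun s hs t ht => (norm_le_pi_norm (g s - g t) i).trans (h s hs t ht)
  rw [← lintegral_const_mul' _ _ ENNReal.ofReal_ne_top]
  refine setLIntegral_mono_ae' hEm ?_
  filter_upwards [ae_all_iff.2 h1] with t ht htE
  rw [← ENNReal.ofReal_mul hι]
  exact ENNReal.ofReal_le_ofReal
    ((pi_norm_le_iff_of_nonneg (mul_nonneg hι (norm_nonneg _))).2 fun i => ht i htE)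

/-- the part where the collapse is strong, disjoint sets of times -/
theorem small_iUnion {J : Type*} [Countable J] {γ g : ℝ → V} (hγ : ConicalOn γ (Icc 0 1))
    (hg : ConicalOn g (Icc 0 1)) {E : J → Set ℝ} (hE : ∀ j, E j ⊆ Icc 0 1)
    (hEm : ∀ j, MeasurableSet (E j)) (hd : Pairwise (Function.onFun Disjoint E)) {ι : ℝ}
    (hι : 0 ≤ ι) (h : ∀ j, ∀ s ∈ E j, ∀ t ∈ E j, ‖g s - g t‖ ≤ ι * ‖γ s - γ t‖) :
    ∫⁻ t in ⋃ j, E j, ENNReal.ofReal ‖deriv g t‖ ≤
      ENNReal.ofReal ι * ∫⁻ t in Icc (0:ℝ) 1, ENNReal.ofReal ‖deriv γ t‖ := by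
  rw [lintegral_iUnion hEm hd]
  calc ∑' j, ∫⁻ t in E j, ENNReal.ofReal ‖deriv g t‖
      ≤ ∑' j, ENNReal.ofReal ι * ∫⁻ t in E j, ENNReal.ofReal ‖deriv γ t‖ :=
        ENNReal.tsum_le_tsum fun j => small_on hγ hg (hE j) (hEm j) hι (h j)
    _ = ENNReal.ofReal ι * ∫⁻ t in ⋃ j, E j, ENNReal.ofReal ‖deriv γ t‖ := by
        rw [ENNReal.tsum_mul_left, lintegral_iUnion hEm hd]
    _ ≤ _ := by
        gcongr
        exact iUnion_subset hE

/-- Lipschitz bound, integrated: the length does not grow by more than the Lipschitz constant -/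
theorem len_comp_le {γ g : ℝ → V} (hγ : ConicalOn γ (Icc 0 1)) (hg : ConicalOn g (Icc 0 1))
    {E : Set ℝ} (hE : E ⊆ Icc 0 1) (hEm : MeasurableSet E) {T : V → V} {K : ℝ} (hK : 0 ≤ K)
    (hT : ∀ y y', ‖T y - T y'‖ ≤ K * ‖y - y'‖) (h : ∀ s ∈ E, g s = T (γ s)) :
    ∫⁻ t in E, ENNReal.ofReal ‖deriv g t‖ ≤
      ENNReal.ofReal K * ∫⁻ t in E, ENNReal.ofReal ‖deriv γ t‖ :=
  small_on hγ hg hE hEm hK fun s hs t ht => by
    rw [h s hs, h t ht]
    exact hT _ _

variable {Ω Λ Λ' : Set V}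

/-- the curve on an edge is conical -/
theorem conical_edge (h : ConHomeo Ω Λ) {v : V} {e : Idx × Fin 3} (he : edge v e ⊆ Ω) :
    ConicalOn (fun t => h.toFun (gam v e t)) (Icc 0 1) := by
  have hmaps : MapsTo (gam v e) (Icc 0 1) Ω := fun t ht => he (mem_edge_iff.2 ⟨t, ht, rfl⟩)
  have hg : gam v e = fun t => AffineMap.lineMap (k := ℝ) (pt v e.1.1 e.1.2)
      (pt v e.1.1 e.1.2 + (1 / 2 ^ e.1.1 : ℝ) • ev e.2) t := by
    funext t
    rw [AffineMap.lineMap_apply]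
    simp only [gam, vsub_eq_sub, vadd_eq_add, add_sub_cancel_left]
    rw [add_comm]
  refine ConicalOn.comp (g := h.toFun) (h := gam v e) h.conical ?_ hmaps ?_
  · rw [hg]
    exact _root_.P073.conicalOn_of_affine _ (_root_.P073.Convex.conicalSet (convex_Icc 0 1))
  · rw [hg]
    exact AffineMap.lineMap_continuous.continuousOn

theorem continuous_gam (v : V) (e : Idx × Fin 3) : Continuous (gam v e) := by
  unfold gam
  fun_prop

/-- **[DVAR1]** on an edge: `h₁ = T ∘ h₀` off `U` -/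
theorem dvar1_edge (h₀ : ConHomeo Ω Λ) (h₁ : ConHomeo Ω Λ') {v : V} {e : Idx × Fin 3}
    (he : edge v e ⊆ Ω) {T : V → V} {η : ℝ} (hη : 0 ≤ η)
    (hT : ∀ y y' i, |T y i - T y' i| ≤ (1 + η) * |y i - y' i| + η * ‖y - y'‖)
    {U : Set V} (hU : MeasurableSet U) (hgT : ∀ x ∈ edge v e, x ∉ U → h₁.toFun x = T (h₀.toFun x))
    {w : V} {a b c : ℝ} (ha0 : 0 ≤ a) (hb0 : 0 ≤ b)
    (ha : dvar 1 h₀.toFun v e w ≤ ENNReal.ofReal a)
    (hb : ∫⁻ t in Icc (0:ℝ) 1 ∩ gam v e ⁻¹' U,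
      ENNReal.ofReal ‖deriv (fun s => h₁.toFun (gam v e s)) t‖ ≤ ENNReal.ofReal b)
    (hc : ‖h₁.toFun (gam v e 1) - h₁.toFun (gam v e 0) - w‖ ≤ c) :
    dvar 1 h₁.toFun v e w ≤
      ENNReal.ofReal (3 * (2 * ((1 + 2 * η) * a + 2 * η * ‖w‖ + b) + c)) := by
  have hd : ∀ h : V → V, dvar 1 h v e w =
      ∫⁻ t in Icc (0:ℝ) 1, ENNReal.ofReal ‖deriv (fun s => h (gam v e s)) t - w‖ := by
    intro h
    unfold dvar
    simp_rw [Real.rpow_one]
  rw [hd] at ha ⊢
  exact dvar1 (conical_edge h₀ he) (conical_edge h₁ he) hη hT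
    ((continuous_gam v e).measurable hU)
    (fun t ht htU => hgT _ (mem_edge_iff.2 ⟨t, ht, rfl⟩) htU) ha0 hb0 ha hb hc

/-- the length on the part of an edge where `h₁` is a strong collapse of `h₀`: disjoint sets `U j`
of points, on each of them `‖h₁ x - h₁ y‖ ≤ ι ‖h₀ x - h₀ y‖` -/
theorem small_edge {J : Type*} [Countable J] (h₀ : ConHomeo Ω Λ) (h₁ : ConHomeo Ω Λ') {v : V}
    {e : Idx × Fin 3} (he : edge v e ⊆ Ω) {U : J → Set V} (hU : ∀ j, MeasurableSet (U j))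
    (hd : Pairwise (Function.onFun Disjoint U)) {ι : ℝ} (hι : 0 ≤ ι)
    (h : ∀ j, ∀ x ∈ U j ∩ edge v e, ∀ y ∈ U j ∩ edge v e,
      ‖h₁.toFun x - h₁.toFun y‖ ≤ ι * ‖h₀.toFun x - h₀.toFun y‖) :
    ∫⁻ t in Icc (0:ℝ) 1 ∩ gam v e ⁻¹' (⋃ j, U j),
      ENNReal.ofReal ‖deriv (fun s => h₁.toFun (gam v e s)) t‖ ≤
        ENNReal.ofReal ι * dvar 1 h₀.toFun v e 0 := by
  have h1 := small_iUnion (conical_edge h₀ he) (conical_edge h₁ he)
    (E := fun j => Icc (0:ℝ) 1 ∩ gam v e ⁻¹' U j) (fun j => inter_subset_left)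
    (fun j => measurableSet_Icc.inter ((continuous_gam v e).measurable (hU j)))
    (fun i j hij => ((hd hij).preimage (gam v e)).mono inter_subset_right inter_subset_right) hι
    fun j s hs t ht => h j _ ⟨hs.2, mem_edge_iff.2 ⟨s, hs.1, rfl⟩⟩ _
      ⟨ht.2, mem_edge_iff.2 ⟨t, ht.1, rfl⟩⟩
  rw [preimage_iUnion, inter_iUnion]
  refine h1.trans (le_of_eq ?_)
  unfold dvar
  simp_rw [Real.rpow_one, sub_zero]

end Vale.Agent.P073.H732
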