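import Vale.Agent.P073.H732.BeamParts
import Vale.Agent.P073.H732.Dvar1
import Vale.Agent.P073.H333.EdgeT
import Vale.Agent.P073.H83.Sq

/-!
# P073, rank one: `[XLINE]`, the edges of the line (helper732)
-/

namespace Vale.Agent.P073.H732

open MeasureTheory Set Filter Topology Metric Vale.Agent.P073.St Vale.Agent.P073.AB
open Vale.Agent.P073.SQ (ev)
open Vale.Agent.P073.H194 (sInt RgN up)
open Vale.Agent.P073.H235 (Bx bm fl Co Fr P1 cmpD)
open Vale.Agent.P073.H253 (rectN redgeN ledge xL BVData)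
open Vale.Agent.P073.H333 (eInt_tri eInt_mono' eInt_mono_on te_le)
open _root_.P073 (ConHomeo ConicalOn)
open _root_.P073.Net (dyc dyo)
open _root_.P073.Gauge (gam)
open _root_.P073.Gauge.O407 (eInt_eq deriv_gam)
open _root_.P073.Gauge.C110 (mem_edge_iff)
open scoped ENNReal

/-- sums over the integers of a finer generation -/
theorem sum_Ico_mul {M : Type*} [AddCommMonoid M] {D : ℤ} (hD : 0 < D) (α β : ℤ) (f : ℤ → M) :
    ∑ k ∈ Finset.Ico (D * α) (D * β), f k =
      ∑ z ∈ Finset.Ico α β, ∑ a ∈ Finset.Ico (D * z) (D * (z + 1)), f a := by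
  rw [← Finset.sum_fiberwise_of_maps_to (s := Finset.Ico (D * α) (D * β)) (t := Finset.Ico α β)
    (g := fun k => k / D)]
  · refine Finset.sum_congr rfl fun z hz => ?_
    rw [Finset.mem_Ico] at hz
    refine Finset.sum_congr ?_ fun _ _ => rfl
    ext k
    simp only [Finset.mem_filter, Finset.mem_Ico]
    constructor
    · rintro ⟨-, rfl⟩
      have h1 := Int.mul_ediv_self_le (x := k) (k := D) hD.ne'
      have h2 := Int.lt_mul_ediv_self_add (x := k) hD
      constructor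
      · exact h1
      · linarith
    · rintro ⟨h1, h2⟩
      have h3 : k / D = z := by
        apply le_antisymm
        · exact Int.lt_add_one_iff.1 (Int.ediv_lt_of_lt_mul hD (by linarith))
        · exact (Int.le_ediv_iff_mul_le hD).2 (by linarith)
      refine ⟨⟨?_, ?_⟩, h3⟩
      · have := mul_le_mul_of_nonneg_left hz.1 hD.le
        linarith
      · have := mul_le_mul_of_nonneg_left (Int.add_one_le_iff.2 hz.2) hD.le
        linarith
  · intro k hk
    rw [Finset.mem_Ico] at hk ⊢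
    constructor
    · exact (Int.le_ediv_iff_mul_le hD).2 (by linarith [hk.1])
    · exact Int.ediv_lt_of_lt_mul hD (by linarith [hk.2])

/-- the fine edges of the line -/
theorem ledge_sub (v : V) {m d : ℕ} {k₁ k₂ z k : ℤ} (h1 : 2 ^ d * z ≤ k) (h2 : k < 2 ^ d * (z + 1)) :
    edge v (ledge (m + d) (2 ^ d * k₁) (2 ^ d * k₂) k) ⊆ edge v (ledge m k₁ k₂ z) := by
  obtain ⟨i, hi⟩ := Int.eq_ofNat_of_zero_le (sub_nonneg.2 h1)
  have hi' : i < 2 ^ d := by
    have : (i : ℤ) < 2 ^ d := by linarith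
    exact_mod_cast this
  have e1 : ledge (m + d) (2 ^ d * k₁) (2 ^ d * k₂) k = subEdge (ledge m k₁ k₂ z) d i := by
    have hk : k = 2 ^ d * z + i := by linarith
    unfold ledge subEdge
    rw [hk]
    refine Prod.ext (Prod.ext rfl ?_) rfl
    funext l
    fin_cases l <;> simp
  rw [e1]
  exact S308.subEdge_sub hi'

/-- the integral over the line, fine and coarse edges -/
theorem sum_ledge (v : V) (m d : ℕ) (k₁ k₂ α β : ℤ) {H : V → ℝ≥0∞} (hH : Measurable H) :
    ∑ k ∈ Finset.Ico (2 ^ d * α) (2 ^ d * β),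
      eInt v (ledge (m + d) (2 ^ d * k₁) (2 ^ d * k₂) k) H =
    ∑ z ∈ Finset.Ico α β, eInt v (ledge m k₁ k₂ z) H := by
  rw [sum_Ico_mul (by positivity)]
  refine Finset.sum_congr rfl fun z _ => ?_
  have h1 := H83.eInt_split v (Nat.le_add_right m d) ![z, k₁, k₂] 0 hH
  rw [Nat.add_sub_cancel_left] at h1
  have h2 : (ledge m k₁ k₂ z) = ((m, ![z, k₁, k₂]), 0) := rfl
  rw [h2, ← h1]
  refine Finset.sum_congr rfl fun a _ => ?_
  congr 1
  unfold ledge
  refine Prod.ext (Prod.ext rfl ?_) rfl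
  funext l
  fin_cases l <;> simp

theorem P1_apply (w : V) : P1 w = w 0 • ev 0 := rfl

theorem norm_P1 : ‖P1‖ ≤ 1 := by
  refine P1.opNorm_le_bound zero_le_one fun w => ?_
  rw [P1_apply, norm_smul, S293.ev_norm, mul_one, one_mul]
  exact norm_le_pi_norm w 0

theorem P1_ev0 : P1 (ev 0) = ev 0 := by
  rw [P1_apply]
  simp [ev]

/-- the first component of the line derivative does not change under maps which keep the first
coordinate -/
theorem xL_le {Ω Λ : Set V} (h₀ : ConHomeo Ω Λ) (T : ConHomeo Λ Λ)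
    (hT : ∀ y ∈ Λ, T.toFun y 0 = y 0) {v : V} {e : Idx × Fin 3} (he : edge v e ⊆ Ω)
    (he0 : e.2 = 0) : xL (h₀.trans T).toFun v e ≤
      eInt v e (fun x => ENNReal.ofReal ‖lineDeriv ℝ h₀.toFun x (ev e.2) - ev 0‖) := by
  unfold xL
  rw [eInt_eq, eInt_eq]
  gcongr
  refine lintegral_mono_ae ?_
  have hc := ((conical_diff (conical_edge h₀ he)).union
    (conical_diff (conical_edge (h₀.trans T) he))).countable.union
      ((finite_singleton (1:ℝ)).insert 0).countable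
  rw [ae_restrict_iff' measurableSet_Icc]
  filter_upwards [hc.ae_notMem volume] with t ht htI
  simp only [mem_union, mem_ofPred_eq, mem_insert_iff, mem_singleton_iff, not_or, not_and,
    not_not] at ht
  obtain ⟨⟨h1, h2⟩, h4, h5⟩ := ht
  have htO : t ∈ Ioo (0:ℝ) 1 :=
    ⟨lt_of_le_of_ne htI.1 (Ne.symm h4), lt_of_le_of_ne htI.2 h5⟩
  have d1 := (h1 htO).hasDerivAt
  have d2 := (h2 htO).hasDerivAt
  have hmaps : ∀ s ∈ Ioo (0:ℝ) 1, gam v e s ∈ Ω := fun s hs =>
    he (mem_edge_iff.2 ⟨s, ⟨hs.1.le, hs.2.le⟩, rfl⟩)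
  have e1 : (fun s => (h₀.trans T).toFun (gam v e s) 0) =ᶠ[𝓝 t]
      fun s => h₀.toFun (gam v e s) 0 := by
    filter_upwards [Ioo_mem_nhds htO.1 htO.2] with s hs
    exact hT _ (h₀.mapsTo (hmaps s hs))
  have d3 := ((hasDerivAt_pi.1 d1) 0)
  have d4 := ((hasDerivAt_pi.1 d2) 0)
  have e2 := (d4.congr_of_eventuallyEq e1.symm).unique d3
  rw [deriv_gam, deriv_gam, Pi.smul_apply, Pi.smul_apply, smul_eq_mul, smul_eq_mul] at e2
  have hp : (1 / 2 ^ e.1.1 : ℝ) ≠ 0 := by positivity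
  have e3 := mul_left_cancel₀ hp e2
  rw [he0] at e3 ⊢
  rw [e3]
  refine ENNReal.ofReal_le_ofReal ?_
  have h6 := norm_le_pi_norm (lineDeriv ℝ h₀.toFun (gam v e t) (ev 0) - ev 0) 0
  rw [Pi.sub_apply, Real.norm_eq_abs] at h6
  have h7 : (ev 0 : V) 0 = 1 := by simp [ev]
  rwa [h7] at h6

section

variable {p θ₁ θ₂ κ : ℝ} {m₀ : ℕ} {Λ : Set V} {f : V → V} {F : V → Mat}

/-- the density `‖Df - P1‖` on an edge is the density `H₁ ^ (1 / p)` -/
theorem eInt_rep₁ (D : BVData p θ₁ θ₂ κ m₀ Λ f F) {e : Idx × Fin 3}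
    (he : edge D.v e ⊆ Bx (bm θ₁ θ₂)) :
    eInt D.v e (fun x => ‖cl (cmpD (bm θ₁ θ₂) F x) - P1‖ₑ ^ p) = eInt D.v e D.H₁ := by
  classical
  have h1 := (D.rep (fun x => if x ∈ Bx (bm θ₁ θ₂) then ‖cl (cmpD (bm θ₁ θ₂) F x) - P1‖ₑ ^ p
    else D.H₁ x) D.H₁ (fun x hx => by
      by_cases hB : x ∈ Bx (bm θ₁ θ₂)
      · rw [if_pos hB, D.eq₁ x hB hx]
      · rw [if_neg hB])).1 e
  rw [← h1]
  apply le_antisymm
  · exact eInt_mono_on fun x hx => by rw [if_pos (he hx)]
  · exact eInt_mono_on fun x hx => by rw [if_pos (he hx)]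

/-- the edge integral of `H ^ (1 / p) + 1` -/
theorem eInt_H_le (hp : 1 ≤ p) (D : BVData p θ₁ θ₂ κ m₀ Λ f F) {e : Idx × Fin 3}
    (he : edge D.v e ⊆ Bx (bm θ₁ θ₂)) :
    eInt D.v e (fun x => D.H x ^ (1 / p) + 1) ≤
      eInt D.v e (fun x => ‖cl (cmpD (bm θ₁ θ₂) F x) - P1‖ₑ) +
        2 * ENNReal.ofReal (1 / 2 ^ e.1.1) := by
  classical
  have hp0 : 0 < p := by linarith
  have h1 := (D.rep (fun x => if x ∈ Bx (bm θ₁ θ₂) then ‖cl (cmpD (bm θ₁ θ₂) F x)‖ₑ + 1
    else D.H x ^ (1 / p) + 1) (fun x => D.H x ^ (1 / p) + 1) (fun x hx => by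
      by_cases hB : x ∈ Bx (bm θ₁ θ₂)
      · simp only [if_pos hB, D.eq x hB hx]
        rw [← ENNReal.rpow_mul, mul_one_div_cancel hp0.ne', ENNReal.rpow_one]
      · simp only [if_neg hB])).1 e
  rw [← h1]
  refine (eInt_mono_on (K := fun x => ‖cl (cmpD (bm θ₁ θ₂) F x) - P1‖ₑ + 2) fun x hx => ?_).trans
    (le_of_eq ?_)
  · rw [if_pos (he hx)]
    have h2 : ‖cl (cmpD (bm θ₁ θ₂) F x)‖ₑ ≤ ‖cl (cmpD (bm θ₁ θ₂) F x) - P1‖ₑ + ‖P1‖ₑ := by
      have := enorm_add_le (cl (cmpD (bm θ₁ θ₂) F x) - P1) P1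
      rwa [sub_add_cancel] at this
    have h3 : ‖P1‖ₑ ≤ 1 := by
      rw [← ofReal_norm, ← ENNReal.ofReal_one]
      exact ENNReal.ofReal_le_ofReal norm_P1
    calc ‖cl (cmpD (bm θ₁ θ₂) F x)‖ₑ + 1
        ≤ ‖cl (cmpD (bm θ₁ θ₂) F x) - P1‖ₑ + 1 + 1 := by gcongr; exact h2.trans (by gcongr)
      _ = _ := by rw [add_assoc, one_add_one_eq_two]
  · rw [S293.eInt_add _ _ _ _ aemeasurable_const, S293.eInt_const, mul_comm (2:ℝ≥0∞)]

/-- **[XLINE]** -/
theorem specXL : SpecXL := by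
  intro p θ₁ θ₂ κ m₀ Λ f F hp hκ D α β hαβ hunit hsub n hn h₀ T b hb hb1 hT hh
  obtain ⟨d, rfl⟩ := Nat.exists_eq_add_of_le hn
  have hup : ∀ k : ℤ, upz m₀ (m₀ + d) k = 2 ^ d * k := by
    intro k
    unfold upz
    rw [Nat.add_sub_cancel_left]
  simp only [hup] at hh ⊢
  have hp0 : 0 < p := by linarith
  have hN : (0:ℝ) < 1 / 2 ^ (m₀ + d) := by positivity
  have hD : (0:ℤ) < 2 ^ d := by positivity
  have hin : ∀ k ∈ Finset.Ico (2 ^ d * α) (2 ^ d * β),
      edge D.v (ledge (m₀ + d) (2 ^ d * D.B₁) (2 ^ d * D.B₂) k) ⊆ Bx (bm θ₁ θ₂) := by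
    intro k hk
    rw [Finset.mem_Ico] at hk
    have h1 : 2 ^ d * (k / 2 ^ d) ≤ k := Int.mul_ediv_self_le (x := k) (k := 2 ^ d) hD.ne'
    have h2 : k < 2 ^ d * (k / 2 ^ d + 1) := by
      have := Int.lt_mul_ediv_self_add (x := k) hD
      linarith
    refine (ledge_sub D.v h1 h2).trans (hsub _ ?_)
    rw [Finset.mem_Ico]
    constructor
    · exact (Int.le_ediv_iff_mul_le hD).2 (by linarith [hk.1])
    · exact Int.ediv_lt_of_lt_mul hD (by linarith [hk.2])
  refine ⟨fun k hk => ⟨hin k hk, ?_, ?_⟩, ?_⟩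
  · -- near
    set e := ledge (m₀ + d) (2 ^ d * D.B₁) (2 ^ d * D.B₂) k with he
    have hgen : e.1.1 = m₀ + d := rfl
    have hdir : e.2 = 0 := rfl
    refine (xL_le h₀ T hT (hin k hk) hdir).trans ?_
    by_cases htop : eInt D.v e (fun x => ‖cl (cmpD (bm θ₁ θ₂) F x) - P1‖ₑ) = ⊤
    · unfold XL
      rw [htop]
      simp
    have h1 : eInt D.v e (fun x => ENNReal.ofReal ‖cl (cmpD (bm θ₁ θ₂) F x) (ev e.2) - ev 0‖) ≤
        ENNReal.ofReal
          (eInt D.v e (fun x => ‖cl (cmpD (bm θ₁ θ₂) F x) - P1‖ₑ)).toReal := by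
      rw [ENNReal.ofReal_toReal htop]
      refine eInt_mono' _ _ fun x => ?_
      rw [hdir, ← ofReal_norm]
      refine ENNReal.ofReal_le_ofReal ?_
      have h2 := (cl (cmpD (bm θ₁ θ₂) F x) - P1).le_opNorm (ev 0)
      rw [S293.ev_norm, mul_one, sub_apply, P1_ev0] at h2
      exact h2
    have h2 := eInt_tri D.rat (hin k hk) h₀.toFun (ev 0) (a := b / 2 ^ (m₀ + d)) (by positivity)
      ENNReal.toReal_nonneg (hh k hk) h1
    refine h2.trans ?_
    rw [ENNReal.ofReal_add (by positivity) ENNReal.toReal_nonneg, ENNReal.ofReal_toReal htop]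
    unfold XL
    rw [hgen, add_comm, two_mul]
    exact le_self_add
  · -- length
    refine (eInt_H_le hp D (hin k hk)).trans ?_
    unfold XL
    rw [show (ledge (m₀ + d) (2 ^ d * D.B₁) (2 ^ d * D.B₂) k).1.1 = m₀ + d from rfl, add_comm,
      mul_add]
    refine add_le_add le_rfl ?_
    set Q := eInt D.v (ledge (m₀ + d) (2 ^ d * D.B₁) (2 ^ d * D.B₂) k)
      (fun x => ‖cl (cmpD (bm θ₁ θ₂) F x) - P1‖ₑ) with hQ
    calc Q ≤ Q + ENNReal.ofReal (b / 2 ^ (m₀ + d)) := le_self_add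
      _ ≤ 2 * (2 * (Q + ENNReal.ofReal (b / 2 ^ (m₀ + d)))) := by
          rw [← mul_assoc]
          refine le_mul_of_one_le_left (by positivity) ?_
          norm_num
  · -- the sum
    have h1 : ∀ k ∈ Finset.Ico (2 ^ d * α) (2 ^ d * β),
        ENNReal.ofReal ((1 / 2 ^ (m₀ + d)) ^ (1 - p)) *
          XL θ₁ θ₂ D.v F b (ledge (m₀ + d) (2 ^ d * D.B₁) (2 ^ d * D.B₂) k) ^ p ≤
        ENNReal.ofReal (4 ^ p) *
          eInt D.v (ledge (m₀ + d) (2 ^ d * D.B₁) (2 ^ d * D.B₂) k) D.H₁ +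
        ENNReal.ofReal (4 ^ p * b * (1 / 2 ^ (m₀ + d))) := by
      intro k hk
      set e := ledge (m₀ + d) (2 ^ d * D.B₁) (2 ^ d * D.B₂) k with he
      have hgen : e.1.1 = m₀ + d := rfl
      have h2 := te_le hp (v := D.v) (e := e) (ℓ := XL θ₁ θ₂ D.v F b e)
        (b := ENNReal.ofReal (2 * (b / 2 ^ (m₀ + d))))
        (G := fun x => 2 * ‖cl (cmpD (bm θ₁ θ₂) F x) - P1‖ₑ) (by
          rw [H333.eInt_const_mul _ _ (by norm_num)]
          unfold XL
          rw [mul_add, hgen, ENNReal.ofReal_mul (by norm_num), ENNReal.ofReal_ofNat])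
      rw [hgen] at h2
      refine h2.trans (add_le_add ?_ ?_)
      · have e1 : (fun x => (2 * ‖cl (cmpD (bm θ₁ θ₂) F x) - P1‖ₑ) ^ p) =
            fun x => (2:ℝ≥0∞) ^ p * ‖cl (cmpD (bm θ₁ θ₂) F x) - P1‖ₑ ^ p := by
          funext x
          rw [ENNReal.mul_rpow_of_nonneg _ _ hp0.le]
        rw [e1, H333.eInt_const_mul _ _ (by
          exact ENNReal.rpow_ne_top_of_nonneg hp0.le (by norm_num)), eInt_rep₁ D (hin k hk),
          ← mul_assoc]
        gcongr
        rw [← ENNReal.rpow_add _ _ (by norm_num) (by norm_num), ← ENNReal.ofReal_rpow_of_pos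
          (by norm_num)]
        rw [show (4:ℝ) = 2 * 2 by norm_num, ENNReal.ofReal_mul (by norm_num), ENNReal.ofReal_ofNat,
          ENNReal.mul_rpow_of_nonneg _ _ hp0.le, ← ENNReal.rpow_add _ _ (by norm_num)
          (by norm_num)]
        exact ENNReal.rpow_le_rpow_of_exponent_le (by norm_num) (by linarith)
      · rw [ENNReal.ofReal_rpow_of_nonneg (by positivity) hp0.le]
        have e2 : (2:ℝ≥0∞) ^ (p - 1) = ENNReal.ofReal (2 ^ (p - 1)) := by
          rw [← ENNReal.ofReal_rpow_of_pos (by norm_num), ENNReal.ofReal_ofNat]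
        rw [e2, ← ENNReal.ofReal_mul (by positivity), ← ENNReal.ofReal_mul (by positivity)]
        refine ENNReal.ofReal_le_ofReal ?_
        have e3 : (2 * (b / 2 ^ (m₀ + d))) ^ p =
            2 ^ p * (b ^ p * (1 / 2 ^ (m₀ + d)) ^ p) := by
          rw [Real.mul_rpow (by norm_num) (by positivity), div_eq_mul_one_div,
            Real.mul_rpow hb.le hN.le]
        rw [e3]
        set N : ℝ := 1 / 2 ^ (m₀ + d) with hNdef
        have e4 : N ^ (1 - p) * N ^ p = N := by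
          rw [← Real.rpow_add hN]
          simp
        have e5 : b ^ p ≤ b := by
          have := Real.rpow_le_rpow_of_exponent_ge hb hb1 hp
          rwa [Real.rpow_one] at this
        have e6 : (2:ℝ) ^ (p - 1) * 2 ^ p ≤ 4 ^ p := by
          rw [show (4:ℝ) = 2 * 2 by norm_num, Real.mul_rpow (by norm_num) (by norm_num)]
          gcongr
          · norm_num
          · linarith
        calc N ^ (1 - p) * (2 ^ (p - 1) * (2 ^ p * (b ^ p * N ^ p)))
            = (2 ^ (p - 1) * 2 ^ p) * b ^ p * (N ^ (1 - p) * N ^ p) := by ring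
          _ ≤ 4 ^ p * b * N := by
              rw [e4]
              gcongr
    refine (Finset.sum_le_sum h1).trans ?_
    rw [Finset.sum_add_distrib, ← Finset.mul_sum, sum_ledge D.v m₀ d D.B₁ D.B₂ α β D.meas₁,
      Finset.sum_const, Int.card_Ico, nsmul_eq_mul]
    have h2 := D.line (Finset.Ico α β) hsub
    have h3 : ((2 ^ d * β - 2 ^ d * α).toNat : ℝ≥0∞) =
        ENNReal.ofReal (2 ^ d * (β - α)) := by
      rw [← ENNReal.ofReal_natCast]
      congr 1
      have h4 : ((2 ^ d * β - 2 ^ d * α).toNat : ℤ) = 2 ^ d * β - 2 ^ d * α := by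
        rw [Int.toNat_of_nonneg]
        have := mul_lt_mul_of_pos_left hαβ hD
        linarith
      have h5 : (((2 ^ d * β - 2 ^ d * α).toNat : ℤ) : ℝ) = ((2 ^ d * β - 2 ^ d * α : ℤ) : ℝ) := by
        rw [h4]
      rw [Int.cast_natCast] at h5
      rw [h5]
      push_cast
      ring
    have hβα : (0:ℝ) ≤ β - α := by
      have : (α : ℝ) < β := by exact_mod_cast hαβ
      linarith
    rw [h3, ← ENNReal.ofReal_mul (by positivity)]
    calc ENNReal.ofReal (4 ^ p) * ∑ z ∈ Finset.Ico α β, eInt D.v (ledge m₀ D.B₁ D.B₂ z) D.H₁ +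
          ENNReal.ofReal (2 ^ d * (β - α) * (4 ^ p * b * (1 / 2 ^ (m₀ + d))))
        ≤ ENNReal.ofReal (4 ^ p) * ENNReal.ofReal κ + ENNReal.ofReal (4 ^ p * b) := by
          refine add_le_add (by gcongr) (ENNReal.ofReal_le_ofReal ?_)
          have e1 : 2 ^ d * (β - α : ℝ) * (4 ^ p * b * (1 / 2 ^ (m₀ + d))) =
              4 ^ p * b * ((β - α) / 2 ^ m₀) := by
            rw [pow_add]
            field_simp
          rw [e1]
          have : (0:ℝ) ≤ 4 ^ p * b := by positivity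
          nlinarith
      _ = ENNReal.ofReal (4 ^ p * (κ + b)) := by
          rw [← ENNReal.ofReal_mul (by positivity), ← ENNReal.ofReal_add (by positivity)
            (by positivity)]
          congr 1
          ring

end

end Vale.Agent.P073.H732
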