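import Vale.Agent.P073.H304.St1Sol
import Vale.Agent.P073.H622.H0
import Vale.Agent.P073.H803.Blk3

/-!
# P073, block B09, [ST1]: the field `close`

* `zone_box`: a point of the zone of the block `k` lies in the box `ek k`;
* `norm_sub_zone`, `eq_off_zone`: the distance of `h₁` and `h₀` in the zones, and off the zones;
* `norm_h0_sub`: the distance of `h₀` and `f`;
* `st1_close`: field `close`, with the sizes `μC` of the boxes (a function of the point) and the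
  closeness `rC` of the net theorem;
* `st1_clo`: closeness off the boxes.
-/

open Set Metric Topology Filter MeasureTheory
open scoped ENNReal

namespace Vale.Agent.P073.H732

open Vale.Agent.P073
open Vale.Agent.P073.St (V Mat)
open Vale.Agent.P073.H73 (Mesh ctr)
open Vale.Agent.P073.AB
open Vale.Agent.P073.H304
open Vale.Agent.P073.H696 (am blk blkS solid deep Boxes)
open Vale.Agent.P073.H726 (LBOn)
open Vale.Agent.P073.H622 (NetB)
open _root_.P073.Net (dyc dyo)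
open _root_.P073 (ConHomeo)

variable {Ω Λ : Set V} {J : ℝ → ℕ} {Mg Δ : ℝ → ℝ} {v : V} {M : Mesh Ω} {h : ConHomeo Ω Λ}
  {p D : ℝ} {𝓑 : Blocks Λ J Δ v M h.toFun} {ε : M.κ → ℝ} {h₁ : ConHomeo Ω Λ}
  {g : ∀ k, ConHomeo Ω (af (𝓑.L k) (𝓑.b k) ⁻¹' Λ)}
  {f : V → V} {F : V → Mat} {K : Set Idx} {x : Idx → V} {n N' : Idx → ℕ} {c₀ : Idx → ℝ}
  {I₁ U : Set Idx} {ek : 𝓑.K → Idx}

/-- the linear part of a block -/
theorem clm_eq (L : Link 𝓑 f F K x n N' c₀ I₁ U ek) (k : 𝓑.K) :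
    (𝓑.L k : V →L[ℝ] V) = cl (F (x (ek k))) := by
  ext w : 1
  have h1 : 𝓑.L k w + 𝓑.b k = f (x (ek k)) + cl (F (x (ek k))) (w - x (ek k)) := L.am k w
  have h0 : 𝓑.L k 0 + 𝓑.b k = f (x (ek k)) + cl (F (x (ek k))) (0 - x (ek k)) := L.am k 0
  rw [map_zero, zero_add, zero_sub, map_neg] at h0
  rw [map_sub, h0] at h1
  show 𝓑.L k w = _
  have h2 : 𝓑.L k w = (𝓑.L k w + (f (x (ek k)) + -cl (F (x (ek k))) (x (ek k)))) -
    (f (x (ek k)) + -cl (F (x (ek k))) (x (ek k))) := by abel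
  rw [h2, h1]
  abel

theorem nL_eq (L : Link 𝓑 f F K x n N' c₀ I₁ U ek) (k : 𝓑.K) :
    nL (𝓑.L k) = ‖cl (F (x (ek k)))‖ := by
  rw [nL, clm_eq L k]

/-- **a point of the zone of a block lies in the box** -/
theorem zone_box (L : Link 𝓑 f F K x n N' c₀ I₁ U ek) {y : V} (hy : y ∈ Ω) {k : 𝓑.K}
    (hk : afi (𝓑.L k) (𝓑.b k) (h.toFun y) ∈ Nb v (bl (𝓑.n k) (𝓑.B k)) (𝓑.c₀ k)) :
    y ∈ dyc v (ek k).1 (ek k).2 := by
  obtain ⟨q, hq, hyq⟩ := L.dy.part.cover y hy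
  by_cases hU : q ∈ U
  · exact (L.zone k q hU ⟨y, hyq, hk⟩).1 hyq
  · obtain ⟨k', -, h2, i, hi, hqi⟩ := L.prot q hq hU
    -- the point lies in a protected cell of the block `k'`
    have hyi : y ∈ M.Q i := hqi hyq
    obtain ⟨z, hz, hQ⟩ := (𝓑.inp k').prot i hi
    have hid : afi (𝓑.L k') (𝓑.b k') (h.toFun y) = y := (𝓑.inp k').id i hi y hyi
    have hyc : y ∈ closedBall (𝓑.a k') (𝓑.r k') := by
      refine ball_subset_closedBall (𝓑.cell_subset hz ?_)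
      rw [dyc_eq_closedBall]
      rw [hQ] at hyi
      refine closedBall_subset_closedBall ?_ hyi
      have h3 : (0:ℝ) < 1 / 2 ^ J (𝓑.c₀ k') := by positivity
      gcongr
      linarith
    have hkk : k = k' := by
      by_contra hne
      have m1 : h.toFun y ∈ af (𝓑.L k) (𝓑.b k) '' closedBall (𝓑.a k) (𝓑.r k) :=
        ⟨_, ball_subset_closedBall (𝓑.zone k hk), af_afi _ _ _⟩
      have m2 : h.toFun y ∈ af (𝓑.L k') (𝓑.b k') '' closedBall (𝓑.a k') (𝓑.r k') :=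
        ⟨afi (𝓑.L k') (𝓑.b k') (h.toFun y), by rw [hid]; exact hyc, af_afi _ _ _⟩
      exact disjoint_left.1 (𝓑.dis k k' hne) m1 m2
    subst hkk
    exact h2 hyq

/-- off the zones nothing changes -/
theorem eq_off_zone (H : R1Out p D Mg 𝓑 ε h₁ g) {y : V} (hy : y ∈ Ω)
    (hn : ∀ k, afi (𝓑.L k) (𝓑.b k) (h.toFun y) ∉ Nb v (bl (𝓑.n k) (𝓑.B k)) (𝓑.c₀ k)) :
    h₁.toFun y = h.toFun y :=
  H.off y hy hn

/-- the change of the map in a zone -/
theorem norm_sub_zone (L : Link 𝓑 f F K x n N' c₀ I₁ U ek) (H : R1Out p D Mg 𝓑 ε h₁ g) {y : V}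
    (hy : y ∈ Ω) {k : 𝓑.K}
    (hk : afi (𝓑.L k) (𝓑.b k) (h.toFun y) ∈ Nb v (bl (𝓑.n k) (𝓑.B k)) (𝓑.c₀ k)) :
    ‖h₁.toFun y - h.toFun y‖ ≤ ‖cl (F (x (ek k)))‖ * (D / 2 ^ n (ek k)) := by
  obtain ⟨t, ht, z, hz, hyz⟩ := hk
  have h1 := H.eq k y hy (ball_subset_closedBall (𝓑.zone k ⟨t, ht, z, hz, hyz⟩))
  have h2 := (H.out k).close y hy t ht ⟨t, rfl, z, hz, hyz⟩
  have h3 : h.toFun y = af (𝓑.L k) (𝓑.b k) (afi (𝓑.L k) (𝓑.b k) (h.toFun y)) :=
    (af_afi _ _ _).symm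
  rw [h1]
  conv_lhs => rw [h3]
  refine (af_lip _ _ _ _).trans ?_
  rw [nL_eq L k]
  gcongr
  rw [ht.1, L.n_eq] at h2
  exact h2

/-! ### the distance of `h₀` and `f` -/

variable {k₁ k₀ s : Idx → ℕ} {C κ' : Idx → ℝ} {σ : V → ℝ} {δ : Idx × Fin 3 → ℝ}

/-- the distance of `h₀` and `f`: `σ`, or the constant of the box -/
theorem norm_h0_sub (N : NetB v I₁ K x n k₁ k₀ C f F Ω σ δ h.toFun)
    (hC : ∀ k ∈ K, 0 ≤ C k)
    (hcl : ∀ k ∈ K, ∀ y ∈ dyc v k.1 k.2, ‖f y - am f F (x k) y‖ ≤ κ' k)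
    (hn : ∀ k ∈ K, k.1 ≤ n k) {y : V} (hy : y ∈ Ω) :
    ‖h.toFun y - f y‖ ≤ σ y ∨ ∃ k ∈ K, y ∈ dyo v k.1 k.2 ∧
      ‖h.toFun y - f y‖ ≤ C k / 2 ^ (n k + k₁ k) + κ' k := by
  by_cases hc : ∀ k ∈ K, ∀ z ∈ blk k (n k), y ∉ interior (dyc v (n k) z)
  · exact Or.inl (N.off y hy hc)
  · right
    push Not at hc
    obtain ⟨k, hk, z, hz, hyz⟩ := hc
    have hyz' : y ∈ dyc v (n k) z := interior_subset hyz
    have hyk := H622.blk_sub (hn k hk) hz v hyz'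
    have hyo : y ∈ dyo v k.1 k.2 := by
      rw [← _root_.P073.Gauge.C110.interior_dyc]
      exact interior_mono (H622.blk_sub (hn k hk) hz v) hyz
    refine ⟨k, hk, hyo, ?_⟩
    have h1 : ‖h.toFun y - am f F (x k) y‖ ≤ C k / 2 ^ (n k + k₁ k) := by
      by_cases hb : y ∈ interior (boxB v (n k) (k₁ k) z)
      · exact N.inn k hk z hz y (interior_subset hb)
      · refine (N.layer k hk z hz y hyz' hb).trans ?_
        exact div_le_div_of_nonneg_left (hC k hk) (by positivity)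
          (pow_le_pow_right₀ (by norm_num) (by omega))
    have h2 := hcl k hk y hyk
    calc ‖h.toFun y - f y‖
        = ‖(h.toFun y - am f F (x k) y) - (f y - am f F (x k) y)‖ := by congr 1; abel
      _ ≤ _ := (norm_sub_le _ _).trans (add_le_add h1 h2)

/-! ### the numbers -/

/-- the sizes of the boxes -/
noncomputable def μC (D ε₁ : ℝ) (Λ : Set V) (f : V → V) (F : V → Mat) (C : V → ℝ) (y : V) : ℝ :=
  if 0 < infDist (f y) Λᶜ then
    min ε₁ (infDist (f y) Λᶜ) / (8 * (1 + D) * (1 + ‖cl (F y)‖) + 8 * (1 + C y))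
  else 1

theorem μC_pos {D ε₁ : ℝ} {C : V → ℝ} (hD : 0 ≤ D) (hε : 0 < ε₁) {y : V} (hC : 0 ≤ C y) :
    0 < μC D ε₁ Λ f F C y := by
  unfold μC
  split_ifs with hd
  · have := norm_nonneg (cl (F y))
    exact div_pos (lt_min hε hd) (by positivity)
  · exact one_pos

/-- the closeness of `h₀` -/
noncomputable def rC (b ε₁ : ℝ) (Λ : Set V) (f : V → V) (y : V) : ℝ :=
  min (min b (ε₁ / 2)) (infDist (f y) Λᶜ / 8)

theorem infDist_pos (hΛ : St.IsBoundedDomain Λ) {y : V} (hy : y ∈ Λ) : 0 < infDist y Λᶜ :=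
  (hΛ.1.isClosed_compl.notMem_iff_infDist_pos (compl_nonempty hΛ)).1 (by simpa using hy)

theorem mapsTo_of {f : V → V} (hf : St.IsHomeo Ω Λ f) {y : V} (hy : y ∈ Ω) : f y ∈ Λ := by
  obtain ⟨h', h1, -, -⟩ := hf
  exact (h1.1 y hy).1

theorem lbOn_rC {b ε₁ : ℝ} (hΩ : IsOpen Ω) (hΛ : St.IsBoundedDomain Λ) (hf : St.IsHomeo Ω Λ f)
    (hb : 0 < b) (hε : 0 < ε₁) : LBOn Ω (rC b ε₁ Λ f) := by
  refine H726.lb_of_continuousOn hΩ ?_ ?_
  · obtain ⟨h', -, h2, -⟩ := id hf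
    have h3 : ContinuousOn (fun y => infDist (f y) Λᶜ) Ω :=
      (continuous_infDist_pt _).comp_continuousOn h2
    have h4 : ContinuousOn (fun y => infDist (f y) Λᶜ / 8) Ω := h3.div_const 8
    have h5 : ContinuousOn (fun _ : V => min b (ε₁ / 2)) Ω := continuousOn_const
    exact h5.inf h4
  · intro y hy
    have := infDist_pos hΛ (mapsTo_of hf hy)
    exact lt_min (lt_min hb (by positivity)) (by positivity)

/-- **field `close`** -/
theorem st1_close {ε₁ b pB εB M₀ : ℝ} {c : ENNReal} {τ φ κ μ : V → ℝ} {sB : V → ℕ} {nn : ℕ → ℕ}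
    {I' : Set Idx} {Cf : V → ℝ} (hΛ : St.IsBoundedDomain Λ) (hf : St.IsHomeo Ω Λ f) (hD : 0 ≤ D)
    (hε₁ : 0 < ε₁) (L : Link 𝓑 f F K x n N' c₀ I₁ U ek) (H : R1Out p D Mg 𝓑 ε h₁ g)
    (B : Boxes pB εB M₀ c τ φ κ μ sB Ω Λ f F v nn K x)
    (N : NetB v I' K x n k₁ k₀ (fun k => Cf (x k)) f F Ω σ δ h.toFun) (hC : ∀ k ∈ K, 0 ≤ Cf (x k))
    (hn : ∀ k ∈ K, k.1 ≤ n k) (hκ : ∀ k ∈ K, κ (x k) ≤ 1)
    (hμ : ∀ k ∈ K, μ (x k) ≤ μC D ε₁ Λ f F Cf (x k)) (hσ : ∀ y ∈ Ω, σ y ≤ rC b ε₁ Λ f y) :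
    ∀ y ∈ Ω, ‖h₁.toFun y - f y‖ ≤ ε₁ ∧ ‖h₁.toFun y - f y‖ ≤ infDist (f y) Λᶜ / 4 := by
  intro y hy
  -- the numbers of a box
  have key : ∀ k ∈ K, y ∈ dyc v k.1 k.2 → ∀ A Ck : ℝ, A = ‖cl (F (x k))‖ → Ck = Cf (x k) →
      (A * D + Ck + 1) * (1 / 2 ^ k.1) ≤ ε₁ ∧
      (A * D) * (1 / 2 ^ k.1) ≤ ε₁ / 2 ∧
      (A * D + Ck + 1) * (1 / 2 ^ k.1) ≤ infDist (f y) Λᶜ / 4 ∧
      (A * D) * (1 / 2 ^ k.1) ≤ infDist (f y) Λᶜ / 8 := by
    rintro k hk hyk A Ck rfl rfl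
    set A := ‖cl (F (x k))‖ with hA
    obtain ⟨p1, p2, p3, p4⟩ := B.pt k hk
    have hd : 0 < infDist (f (x k)) Λᶜ := infDist_pos hΛ (mapsTo_of hf (p2 p1))
    have hA0 : 0 ≤ A := norm_nonneg _
    have hC0 := hC k hk
    have hm0 : (0:ℝ) < 1 / 2 ^ k.1 := by positivity
    have hm : 1 / 2 ^ k.1 ≤ min ε₁ (infDist (f (x k)) Λᶜ) /
        (8 * (1 + D) * (1 + A) + 8 * (1 + Cf (x k))) := by
      have h1 := p4.trans (hμ k hk)
      unfold μC at h1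
      rwa [if_pos hd] at h1
    have hQ : 0 < 8 * (1 + D) * (1 + A) + 8 * (1 + Cf (x k)) := by positivity
    rw [le_div_iff₀ hQ] at hm
    set m : ℝ := 1 / 2 ^ k.1 with hmdef
    have e1 := hm.trans (min_le_left _ _)
    have e2 := hm.trans (min_le_right _ _)
    have hAD : 0 ≤ A * D * m := by positivity
    have hAm : 0 ≤ A * m := by positivity
    have hDm : 0 ≤ D * m := by positivity
    have hCm : 0 ≤ Cf (x k) * m := by positivity
    have e3 : m * (8 * (1 + D) * (1 + A) + 8 * (1 + Cf (x k))) =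
      16 * m + 8 * (A * m) + 8 * (D * m) + 8 * (A * D * m) + 8 * (Cf (x k) * m) := by ring
    rw [e3] at e1 e2
    -- the distance of `f y` and `f (x k)`
    have h1 := B.close k hk y hyk
    have h2 : κ (x k) / 2 ^ (k.1 + sB (x k)) ≤ m := by
      have h3 : (1:ℝ) / 2 ^ (k.1 + sB (x k)) ≤ m :=
        one_div_le_one_div_of_le (by positivity) (pow_le_pow_right₀ (by norm_num) (by omega))
      refine le_trans ?_ h3
      gcongr
      exact hκ k hk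
    have h3 : ‖am f F (x k) y - f (x k)‖ ≤ A * m := by
      show ‖f (x k) + cl (F (x k)) (y - x k) - f (x k)‖ ≤ _
      rw [add_sub_cancel_left]
      refine ((cl (F (x k))).le_opNorm _).trans ?_
      gcongr
      exact H803.dist_dyc hyk p1
    have h4 : ‖f y - f (x k)‖ ≤ m + A * m :=
      calc ‖f y - f (x k)‖ = ‖(f y - am f F (x k) y) + (am f F (x k) y - f (x k))‖ := by
            congr 1; abel
        _ ≤ _ := (norm_add_le _ _).trans (add_le_add (h1.trans h2) h3)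
    have h5 := infDist_le_infDist_add_dist (s := Λᶜ) (x := f (x k)) (y := f y)
    rw [dist_eq_norm, norm_sub_rev] at h5
    have e4 : (A * D + Cf (x k) + 1) * m = A * D * m + Cf (x k) * m + m := by ring
    rw [e4]
    refine ⟨by linarith, by linarith, by linarith, by linarith⟩
  -- the generations
  have hgen : ∀ k ∈ K, (1:ℝ) / 2 ^ n k ≤ 1 / 2 ^ k.1 := fun k hk =>
    one_div_le_one_div_of_le (by positivity) (pow_le_pow_right₀ (by norm_num) (hn k hk))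
  have hcl : ∀ k ∈ K, ∀ y ∈ dyc v k.1 k.2, ‖f y - am f F (x k) y‖ ≤ 1 / 2 ^ k.1 := by
    intro k hk y hyk
    refine (B.close k hk y hyk).trans ?_
    have h3 : (1:ℝ) / 2 ^ (k.1 + sB (x k)) ≤ 1 / 2 ^ k.1 :=
      one_div_le_one_div_of_le (by positivity) (pow_le_pow_right₀ (by norm_num) (by omega))
    refine le_trans ?_ h3
    gcongr
    exact hκ k hk
  -- the first part: `h₀` and `f`
  have hσy := hσ y hy
  have hσ1 : σ y ≤ ε₁ / 2 := hσy.trans ((min_le_left _ _).trans (min_le_right _ _))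
  have hσ2 : σ y ≤ infDist (f y) Λᶜ / 8 := hσy.trans (min_le_right _ _)
  have hpart1 : ‖h.toFun y - f y‖ ≤ σ y ∨ ∃ k ∈ K, y ∈ dyo v k.1 k.2 ∧
      ‖h.toFun y - f y‖ ≤ (Cf (x k) + 1) * (1 / 2 ^ k.1) := by
    rcases norm_h0_sub N hC (κ' := fun k => 1 / 2 ^ k.1) hcl hn hy with h | ⟨k, hk, hyk, h⟩
    · exact Or.inl h
    · refine Or.inr ⟨k, hk, hyk, h.trans ?_⟩
      have h3 : (1:ℝ) / 2 ^ (n k + k₁ k) ≤ 1 / 2 ^ k.1 :=
        one_div_le_one_div_of_le (by positivity)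
          (pow_le_pow_right₀ (by norm_num) ((hn k hk).trans (by omega)))
      have h4 : Cf (x k) / 2 ^ (n k + k₁ k) = Cf (x k) * (1 / 2 ^ (n k + k₁ k)) := by ring
      rw [h4, add_mul, one_mul]
      have := hC k hk
      gcongr
  by_cases hz : ∀ k, afi (𝓑.L k) (𝓑.b k) (h.toFun y) ∉ Nb v (bl (𝓑.n k) (𝓑.B k)) (𝓑.c₀ k)
  · rw [eq_off_zone H hy hz]
    rcases hpart1 with h | ⟨k, hk, hyk, h⟩
    · have := infDist_nonneg (s := Λᶜ) (x := f y)
      constructor <;> linarith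
    · obtain ⟨k1, -, k3, -⟩ := key k hk (P86.dyo_sub_dyc hyk) _ _ rfl rfl
      have h0 : (Cf (x k) + 1) * (1 / 2 ^ k.1) ≤
          (‖cl (F (x k))‖ * D + Cf (x k) + 1) * (1 / 2 ^ k.1) := by
        gcongr
        have : 0 ≤ ‖cl (F (x k))‖ * D := by positivity
        linarith
      exact ⟨h.trans (h0.trans k1), h.trans (h0.trans k3)⟩
  · push Not at hz
    obtain ⟨k, hk⟩ := hz
    have hyk := zone_box L hy hk
    have hkK := L.mem k
    have h1 := norm_sub_zone L H hy hk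
    have h2 : ‖cl (F (x (ek k)))‖ * (D / 2 ^ n (ek k)) ≤
        ‖cl (F (x (ek k)))‖ * D * (1 / 2 ^ (ek k).1) := by
      have h3 : ‖cl (F (x (ek k)))‖ * (D / 2 ^ n (ek k)) =
        ‖cl (F (x (ek k)))‖ * D * (1 / 2 ^ n (ek k)) := by ring
      rw [h3]
      gcongr ?_ * ?_
      exact hgen _ hkK
    have h3 : ‖h₁.toFun y - f y‖ ≤ ‖h₁.toFun y - h.toFun y‖ + ‖h.toFun y - f y‖ := by
      calc ‖h₁.toFun y - f y‖ = ‖(h₁.toFun y - h.toFun y) + (h.toFun y - f y)‖ := by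
            congr 1; abel
        _ ≤ _ := norm_add_le _ _
    have h4 := h1.trans h2
    obtain ⟨k1, k2, k3, k4⟩ := key (ek k) hkK hyk _ _ rfl rfl
    rcases hpart1 with h | ⟨k', hk', hyk', h⟩
    · constructor <;> linarith
    · -- the boxes are the same
      have hkk : k' = ek k := by
        by_contra hne
        obtain ⟨u, u1, u2⟩ := H803.exists_dyo_near hyk
          ((H803.isOpen_dyo v _ _).mem_nhds hyk')
        exact disjoint_left.1 (B.disj k' hk' (ek k) hkK hne) u2 u1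
      subst hkk
      have h5 : (Cf (x (ek k)) + 1) * (1 / 2 ^ (ek k).1) =
        (‖cl (F (x (ek k)))‖ * D + Cf (x (ek k)) + 1) * (1 / 2 ^ (ek k).1) -
          ‖cl (F (x (ek k)))‖ * D * (1 / 2 ^ (ek k).1) := by ring
      constructor <;> linarith

/-- **closeness off the boxes** -/
theorem st1_clo {ε₁ b : ℝ} {I' : Set Idx} {Cf : Idx → ℝ} (L : Link 𝓑 f F K x n N' c₀ I₁ U ek)
    (H : R1Out p D Mg 𝓑 ε h₁ g) (N : NetB v I' K x n k₁ k₀ Cf f F Ω σ δ h.toFun)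
    (hn : ∀ k ∈ K, k.1 ≤ n k) (hσ : ∀ y ∈ Ω, σ y ≤ rC b ε₁ Λ f y) :
    ∀ y ∈ Ω, (∀ k ∈ K, y ∉ dyc v k.1 k.2) → ‖h₁.toFun y - f y‖ ≤ b := by
  intro y hy hyK
  rw [eq_off_zone H hy fun k hk => hyK _ (L.mem k) (zone_box L hy hk)]
  refine (N.off y hy fun k hk z hz hyz => ?_).trans ((hσ y hy).trans
    ((min_le_left _ _).trans (min_le_left _ _)))
  exact hyK k hk (H622.blk_sub (hn k hk) hz v (interior_subset hyz))

end Vale.Agent.P073.H732
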