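import Vale.Agent.P073.H732.C3

/-!
# P073: the energy of a composition with a diffeomorphism (helper732, for helper253)
-/

namespace Vale.Agent.P073.H732

open MeasureTheory Set Filter Topology Metric Vale.Agent.P073.H235
open Vale.Agent.P073.St (V Mat)
open Vale.Agent.P073.SQ (ev)
open scoped ContDiff ENNReal NNReal

/-- change of variables, `|det| ≥ 1 / M` -/
theorem lintegral_comp_le_det {M : ℝ} (hM : 0 < M) {ψ : V → V} {ψ' : V → V →L[ℝ] V} {S : Set V}
    (hS : MeasurableSet S) (hd : ∀ x ∈ S, HasFDerivWithinAt ψ (ψ' x) S x) (hinj : InjOn ψ S)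
    (hdet : ∀ x ∈ S, 1 / M ≤ |(ψ' x).det|) (G : V → ℝ≥0∞) :
    ∫⁻ x in S, G (ψ x) ≤ ENNReal.ofReal M * ∫⁻ y in ψ '' S, G y := by
  rw [lintegral_image_eq_lintegral_abs_det_fderiv_mul volume hS hd hinj,
    ← lintegral_const_mul' _ _ ENNReal.ofReal_ne_top]
  refine setLIntegral_mono' hS fun x hx => ?_
  rw [← mul_assoc, ← ENNReal.ofReal_mul hM.le]
  have h : 1 ≤ M * |(ψ' x).det| := by
    have := mul_le_mul_of_nonneg_left (hdet x hx) hM.le
    rwa [mul_one_div_cancel hM.ne'] at this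
  calc G (ψ x) = 1 * G (ψ x) := (one_mul _).symm
    _ ≤ ENNReal.ofReal (M * |(ψ' x).det|) * G (ψ x) := by
        gcongr
        rw [← ENNReal.ofReal_one]
        exact ENNReal.ofReal_le_ofReal h

/-- a linear map which changes only the coordinate `k` -/
theorem det_of_update (A : V →L[ℝ] V) (k : Fin 3) (hA : ∀ v, ∀ i, i ≠ k → A v i = v i) :
    A.det = A (ev k) k := by
  show LinearMap.det ((A : V →L[ℝ] V) : V →ₗ[ℝ] V) = _
  rw [← LinearMap.det_toMatrix']
  have hA' : ∀ i j, LinearMap.toMatrix' ((A : V →L[ℝ] V) : V →ₗ[ℝ] V) i j = A (ev j) i := by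
    intro i j
    rw [LinearMap.toMatrix'_apply]
    rfl
  rw [Matrix.det_fin_three]
  simp only [hA']
  have h := fun j i hi => hA (ev j) i hi
  fin_cases k
  · have a1 := fun j => h j 1 (by decide)
    have a2 := fun j => h j 2 (by decide)
    simp only [a1, a2]
    simp [ev]
  · have a1 := fun j => h j 0 (by decide)
    have a2 := fun j => h j 2 (by decide)
    simp only [a1, a2]
    simp [ev]
  · have a1 := fun j => h j 0 (by decide)
    have a2 := fun j => h j 1 (by decide)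
    simp only [a1, a2]
    simp [ev]

/-- a map which changes only the coordinate `k`: its determinant is the partial derivative -/
theorem det_fderiv_update {ψ : V → V} {A : V →L[ℝ] V} {k : Fin 3} {x : V} (h : HasFDerivAt ψ A x)
    (hψ : ∀ y, ∀ i, i ≠ k → ψ y i = y i) : A.det = A (ev k) k := by
  refine det_of_update A k fun v i hi => ?_
  have h1 : HasFDerivAt (fun y => ψ y i) ((ContinuousLinearMap.proj (R := ℝ)
      (φ := fun _ : Fin 3 => ℝ) i).comp A) x := (hasFDerivAt_pi'.1 h) i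
  have h2 : HasFDerivAt (fun y : V => y i) (ContinuousLinearMap.proj (R := ℝ)
      (φ := fun _ : Fin 3 => ℝ) i) x := (ContinuousLinearMap.proj (R := ℝ)
      (φ := fun _ : Fin 3 => ℝ) i).hasFDerivAt
  have h3 : (fun y => ψ y i) = fun y : V => y i := funext fun y => hψ y i hi
  rw [h3] at h1
  have h4 := h1.unique h2
  have h5 := congrArg (fun B : V →L[ℝ] ℝ => B v) h4
  simpa using h5

theorem rpow_est_gen {p M : ℝ} (hp : 1 ≤ p) (hM : 0 ≤ M) (D : V →L[ℝ] V) (v : V)
    (hv : ∀ i, |v i| ≤ M) : ‖D v‖ ^ p ≤ (3 * M) ^ p / 3 * ∑ i, ‖D (ev i)‖ ^ p := by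
  have hw : v = ∑ i, v i • ev i := by
    ext k
    simp [ev, Finset.sum_apply, Pi.single_apply]
  have hs0 : 0 ≤ ∑ i, ‖D (ev i)‖ := Finset.sum_nonneg fun i _ => norm_nonneg _
  have h1 : ‖D v‖ ≤ M * ∑ i, ‖D (ev i)‖ := by
    conv_lhs => rw [hw]
    rw [map_sum, Finset.mul_sum]
    refine (norm_sum_le _ _).trans (Finset.sum_le_sum fun i _ => ?_)
    rw [map_smul, norm_smul]
    exact mul_le_mul_of_nonneg_right (hv i) (norm_nonneg _)
  have h4 : (∑ i, ‖D (ev i)‖) ^ p ≤ 3 ^ (p - 1) * ∑ i, ‖D (ev i)‖ ^ p := by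
    have := Real.rpow_sum_le_const_mul_sum_rpow_of_nonneg (s := Finset.univ)
      (f := fun i => ‖D (ev i)‖) hp fun i _ => norm_nonneg _
    simpa using this
  calc ‖D v‖ ^ p ≤ (M * ∑ i, ‖D (ev i)‖) ^ p := by gcongr
    _ = M ^ p * (∑ i, ‖D (ev i)‖) ^ p := Real.mul_rpow hM hs0
    _ ≤ M ^ p * (3 ^ (p - 1) * ∑ i, ‖D (ev i)‖ ^ p) := by gcongr
    _ = (3 * M) ^ p / 3 * ∑ i, ‖D (ev i)‖ ^ p := by
        rw [Real.rpow_sub_one (by norm_num), Real.mul_rpow (by norm_num) hM]
        ring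

/-- **energy of a composition** (for `helper253`): `ψ` differentiable on `S`, injective on `S`,
the entries of the derivative are at most `M`, `|det| ≥ 1 / N`. -/
theorem En_comp_le {p M N : ℝ} (hp : 1 ≤ p) (hM : 0 ≤ M) (hN : 0 < N) {ψ : V → V}
    {ψ' : V → V →L[ℝ] V} {S : Set V} (hS : MeasurableSet S)
    (hd : ∀ x ∈ S, HasFDerivAt ψ (ψ' x) x) (hinj : InjOn ψ S)
    (hψM : ∀ x ∈ S, ∀ j i, |ψ' x (ev j) i| ≤ M) (hdet : ∀ x ∈ S, 1 / N ≤ |(ψ' x).det|)
    {g : V → V} (hg : ∀ x ∈ S, DifferentiableAt ℝ g (ψ x)) :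
    En p (fun x => g (ψ x)) Finset.univ S ≤
      ENNReal.ofReal ((3 * M) ^ p * N) * En p g Finset.univ (ψ '' S) := by
  have hder : ∀ x ∈ S, ∀ j, fderiv ℝ (fun x => g (ψ x)) x (ev j) =
      fderiv ℝ g (ψ x) (ψ' x (ev j)) := by
    intro x hx j
    have h : HasFDerivAt (fun x => g (ψ x)) ((fderiv ℝ g (ψ x)).comp (ψ' x)) x :=
      (hg x hx).hasFDerivAt.comp x (hd x hx)
    rw [h.fderiv, ContinuousLinearMap.comp_apply]
  unfold En
  calc ∑ j, ∫⁻ x in S, ENNReal.ofReal (‖fderiv ℝ (fun x => g (ψ x)) x (ev j)‖ ^ p)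
      ≤ ∑ j : Fin 3, ∫⁻ x in S, ENNReal.ofReal ((3 * M) ^ p / 3) *
          ∑ i, ENNReal.ofReal (‖fderiv ℝ g (ψ x) (ev i)‖ ^ p) := by
        refine Finset.sum_le_sum fun j _ => setLIntegral_mono' hS fun x hx => ?_
        rw [hder x hx j, ← ENNReal.ofReal_sum_of_nonneg fun i _ => by positivity,
          ← ENNReal.ofReal_mul (by positivity)]
        exact ENNReal.ofReal_le_ofReal (rpow_est_gen hp hM _ _ fun i => hψM x hx j i)
    _ ≤ ∑ j : Fin 3, ENNReal.ofReal ((3 * M) ^ p / 3) *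
          (ENNReal.ofReal N *
            ∫⁻ y in ψ '' S, ∑ i, ENNReal.ofReal (‖fderiv ℝ g y (ev i)‖ ^ p)) := by
        refine Finset.sum_le_sum fun j _ => ?_
        rw [lintegral_const_mul' _ _ ENNReal.ofReal_ne_top]
        gcongr
        exact lintegral_comp_le_det hN hS (fun x hx => (hd x hx).hasFDerivWithinAt) hinj hdet
          fun y => ∑ i, ENNReal.ofReal (‖fderiv ℝ g y (ev i)‖ ^ p)
    _ = ENNReal.ofReal ((3 * M) ^ p * N) * ∑ i : Fin 3, ∫⁻ x in ψ '' S,
          ENNReal.ofReal (‖fderiv ℝ g x (ev i)‖ ^ p) := by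
        rw [lintegral_finsetSum]
        · rw [Finset.sum_const, Finset.card_univ, Fintype.card_fin, nsmul_eq_mul,
            ← mul_assoc, ← mul_assoc]
          congr 1
          have e3 : ((3 : ℕ) : ℝ≥0∞) = ENNReal.ofReal 3 := by norm_num
          rw [e3, ← ENNReal.ofReal_mul (by norm_num), ← ENNReal.ofReal_mul (by positivity)]
          congr 1
          ring
        · intro i _
          exact ENNReal.measurable_ofReal.comp
            ((measurable_fderiv_apply_const ℝ g (ev i)).norm.pow_const p)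

end Vale.Agent.P073.H732
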