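import Vale.Agent.P073.H732.LineM
import Vale.Agent.P073.H439.Ener

/-!
# P073, rank one: the curve on the line, `[LINE-IN]` (helper732)
-/

namespace Vale.Agent.P073.H732

open MeasureTheory Set Filter Topology Metric Vale.Agent.P073.St Vale.Agent.P073.AB
open Vale.Agent.P073.SQ (ev)
open Vale.Agent.P073.H235 (Bx bm fl Co Fr P1 cmpD cmp)
open Vale.Agent.P073.H253 (rectN redgeN ledge xL BVData lpt iv jv)
open _root_.P073 (ConHomeo ConicalOn)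
open _root_.P073.Gauge (gam)
open _root_.P073.Gauge.O407 (eInt_eq)
open _root_.P073.Gauge.C110 (mem_edge_iff)
open scoped ENNReal

theorem continuous_lpt (c₁ c₂ : ℝ) : Continuous (lpt c₁ c₂) := by
  refine continuous_pi fun i => ?_
  fin_cases i
  · exact continuous_id
  · exact continuous_const
  · exact continuous_const

theorem convex_Bx (a : V) : Convex ℝ (Bx a) := by
  intro x hx y hy s t hs ht hst i
  have h1 := hx i
  have h2 := hy i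
  simp only [Pi.add_apply, Pi.smul_apply, smul_eq_mul]
  rcases hs.eq_or_lt with h0 | h0
  · have ht1 : t = 1 := by linarith
    subst ht1
    rw [← h0]
    simpa using h2
  · constructor
    · have := mul_pos h0 h1.1
      have := mul_nonneg ht h2.1.le
      linarith
    · have h3 := mul_lt_mul_of_pos_left h1.2 h0
      have h4 := mul_le_mul_of_nonneg_left h2.2.le ht
      have h5 : s * a i + t * a i = a i := by rw [← add_mul, hst, one_mul]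
      linarith

/-- a good segment in direction `ev 0` -/
theorem goodSeg_line {f : V → V} {F : V → V →L[ℝ] V} {c₁ c₂ u₀ ℓ : ℝ} (hℓ : 0 < ℓ)
    (h : HB.GoodSeg f F (lpt c₁ c₂ u₀) (ℓ • ev 0)) :
    IntegrableOn (fun u => F (lpt c₁ c₂ u) (ev 0)) (Icc u₀ (u₀ + ℓ)) ∧
    ∀ s t, u₀ ≤ s → s ≤ t → t ≤ u₀ + ℓ →
      f (lpt c₁ c₂ t) - f (lpt c₁ c₂ s) = ∫ u in s..t, F (lpt c₁ c₂ u) (ev 0) := by
  have e0 : ∀ s : ℝ, lpt c₁ c₂ u₀ + s • (ℓ • ev 0) = lpt c₁ c₂ (u₀ + ℓ * s) := by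
    intro s
    rw [smul_smul, H253.lpt_add, mul_comm]
  have e1 : ∀ s : ℝ, F (lpt c₁ c₂ u₀ + s • (ℓ • ev 0)) (ℓ • ev 0) =
      ℓ • F (lpt c₁ c₂ (u₀ + ℓ * s)) (ev 0) := by
    intro s
    rw [e0, map_smul]
  constructor
  · have h1 : IntervalIntegrable (fun s : ℝ => F (lpt c₁ c₂ u₀ + s • (ℓ • ev 0)) (ℓ • ev 0))
        volume 0 1 := h.1
    have h2 := (h1.comp_mul_left (c := ℓ⁻¹)).comp_sub_right u₀
    have h3 := h2.smul (ℓ⁻¹ : ℝ)
    have e2 : (ℓ⁻¹ • fun x : ℝ => (fun s : ℝ => F (lpt c₁ c₂ u₀ + s • (ℓ • ev 0)) (ℓ • ev 0))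
        (ℓ⁻¹ * (x - u₀))) = fun u => F (lpt c₁ c₂ u) (ev 0) := by
      funext u
      simp only [Pi.smul_apply]
      rw [e1, smul_smul, inv_mul_cancel₀ hℓ.ne', one_smul]
      congr 2
      field_simp
      ring_nf
    rw [e2] at h3
    have e3 : (0:ℝ) / ℓ⁻¹ + u₀ = u₀ := by simp
    have e4 : (1:ℝ) / ℓ⁻¹ + u₀ = u₀ + ℓ := by rw [one_div, inv_inv, add_comm]
    rw [e3, e4] at h3
    exact (intervalIntegrable_iff_integrableOn_Icc_of_le (by linarith)).1 h3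
  · intro s t hs hst ht
    have hs' : (s - u₀) / ℓ ∈ Icc (0:ℝ) 1 :=
      ⟨div_nonneg (by linarith) hℓ.le, by rw [div_le_one hℓ]; linarith⟩
    have ht' : (t - u₀) / ℓ ∈ Icc (0:ℝ) 1 :=
      ⟨div_nonneg (by linarith) hℓ.le, by rw [div_le_one hℓ]; linarith⟩
    have h1 := h.diff hs' ht'
    simp_rw [e1] at h1
    rw [e0, e0, mul_div_cancel₀ _ hℓ.ne', mul_div_cancel₀ _ hℓ.ne', add_sub_cancel,
      add_sub_cancel, intervalIntegral.integral_smul,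
      intervalIntegral.smul_integral_comp_add_mul (fun u => F (lpt c₁ c₂ u) (ev 0)) ℓ u₀,
      mul_div_cancel₀ _ hℓ.ne', mul_div_cancel₀ _ hℓ.ne', add_sub_cancel, add_sub_cancel] at h1
    exact h1

/-- the first and the second constant coordinate of the line -/
theorem lpt_mem_Bx {θ₁ θ₂ : ℝ} {v : V} {m : ℕ} {B₁ B₂ α β : ℤ} (hαβ : α < β)
    (hsub : ∀ k ∈ Finset.Ico α β, edge v (ledge m B₁ B₂ k) ⊆ Bx (bm θ₁ θ₂)) {u : ℝ}
    (hu : u ∈ Icc (v 0 + α / 2 ^ m) (v 0 + β / 2 ^ m)) :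
    lpt (v 1 + B₁ / 2 ^ m) (v 2 + B₂ / 2 ^ m) u ∈ Bx (bm θ₁ θ₂) := by
  have hp : (0:ℝ) < 1 / 2 ^ m := by positivity
  have h1 : lpt (v 1 + B₁ / 2 ^ m) (v 2 + B₂ / 2 ^ m) (v 0 + α / 2 ^ m) ∈ Bx (bm θ₁ θ₂) := by
    refine hsub α (Finset.mem_Ico.2 ⟨le_rfl, hαβ⟩) (H253.mem_ledge.2 ⟨_, ⟨?_, ?_⟩, rfl⟩)
    · rw [mul_one_div]
    · rw [mul_one_div, add_div]
      linarith
  have h2 : lpt (v 1 + B₁ / 2 ^ m) (v 2 + B₂ / 2 ^ m) (v 0 + β / 2 ^ m) ∈ Bx (bm θ₁ θ₂) := by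
    refine hsub (β - 1) (Finset.mem_Ico.2 ⟨by omega, by omega⟩)
      (H253.mem_ledge.2 ⟨_, ⟨?_, ?_⟩, rfl⟩)
    · rw [mul_one_div]
      push_cast
      rw [sub_div]
      linarith
    · rw [mul_one_div]
      push_cast
      rw [sub_add_cancel]
  intro i
  have a1 := h1 i
  have a2 := h2 i
  fin_cases i
  · change 0 < v 0 + α / 2 ^ m ∧ v 0 + α / 2 ^ m < bm θ₁ θ₂ 0 at a1
    change 0 < v 0 + β / 2 ^ m ∧ v 0 + β / 2 ^ m < bm θ₁ θ₂ 0 at a2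
    show 0 < u ∧ u < bm θ₁ θ₂ 0
    exact ⟨lt_of_lt_of_le a1.1 hu.1, lt_of_le_of_lt hu.2 a2.2⟩
  · exact a1
  · exact a1

/-- the integral over the core of the line and the edges -/
theorem lintegral_line_le {v : V} {m : ℕ} {B₁ B₂ α β : ℤ} (hαβ : α < β) (H : V → ℝ≥0∞) :
    ∫⁻ u in Icc (v 0 + α / 2 ^ m) (v 0 + β / 2 ^ m),
      H (lpt (v 1 + B₁ / 2 ^ m) (v 2 + B₂ / 2 ^ m) u) ≤
    ∑ k ∈ Finset.Ico α β, eInt v (ledge m B₁ B₂ k) H := by
  have hp : (0:ℝ) < 2 ^ m := by positivity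
  have h1 : Icc (v 0 + α / 2 ^ m) (v 0 + β / 2 ^ m) ⊆
      ⋃ k ∈ Finset.Ico α β, jv (v 0) (1 / 2 ^ m) k := by
    intro u hu
    have h2 : (α : ℝ) ≤ 2 ^ m * (u - v 0) := by
      have : (α : ℝ) / 2 ^ m ≤ u - v 0 := by linarith [hu.1]
      rw [div_le_iff₀ hp] at this
      linarith
    have h3 : 2 ^ m * (u - v 0) ≤ (β : ℝ) := by
      have : u - v 0 ≤ (β : ℝ) / 2 ^ m := by linarith [hu.2]
      rw [le_div_iff₀ hp] at this
      linarith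
    have key : ∀ k : ℤ, (k : ℝ) ≤ 2 ^ m * (u - v 0) → 2 ^ m * (u - v 0) ≤ k + 1 →
        u ∈ jv (v 0) (1 / 2 ^ m) k := by
      intro k h4 h5
      constructor
      · have : (k : ℝ) * (1 / 2 ^ m) ≤ u - v 0 := by
          rw [mul_one_div, div_le_iff₀ hp]
          linarith
        linarith
      · have : u - v 0 ≤ ((k : ℝ) + 1) * (1 / 2 ^ m) := by
          rw [mul_one_div, le_div_iff₀ hp]
          linarith
        linarith
    rcases h3.eq_or_lt with h6 | h6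
    · refine mem_iUnion₂.2 ⟨β - 1, Finset.mem_Ico.2 ⟨by omega, by omega⟩, key _ ?_ ?_⟩
      · push_cast; linarith
      · push_cast; linarith
    · refine mem_iUnion₂.2 ⟨⌊2 ^ m * (u - v 0)⌋,
        Finset.mem_Ico.2 ⟨Int.le_floor.2 h2, Int.floor_lt.2 h6⟩, key _ (Int.floor_le _)
          (Int.lt_floor_add_one _).le⟩
  refine (lintegral_mono_set h1).trans ?_
  have h2 : ∀ S : Finset ℤ, ∫⁻ u in ⋃ k ∈ S, jv (v 0) (1 / 2 ^ m) k,
        H (lpt (v 1 + B₁ / 2 ^ m) (v 2 + B₂ / 2 ^ m) u) ≤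
      ∑ k ∈ S, ∫⁻ u in jv (v 0) (1 / 2 ^ m) k,
        H (lpt (v 1 + B₁ / 2 ^ m) (v 2 + B₂ / 2 ^ m) u) := by
    intro S
    induction S using Finset.induction_on with
    | empty => simp
    | insert k S hk ih =>
      rw [Finset.set_biUnion_insert, Finset.sum_insert hk]
      exact (lintegral_union_le _ _ _).trans (add_le_add le_rfl ih)
  refine (h2 _).trans (le_of_eq ?_)
  exact Finset.sum_congr rfl fun k _ => (H253.eInt_ledge v m B₁ B₂ k H).symm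

/-- Young's inequality on an edge -/
theorem edge_young {p θ₁ θ₂ κ : ℝ} {m₀ : ℕ} {Λ : Set V} {f : V → V} {F : V → Mat} (hp : 1 ≤ p)
    (D : BVData p θ₁ θ₂ κ m₀ Λ f F) {e : Idx × Fin 3} (he : edge D.v e ⊆ Bx (bm θ₁ θ₂)) {t : ℝ}
    (ht : 0 < t) : eInt D.v e (fun x => ‖cl (cmpD (bm θ₁ θ₂) F x) - P1‖ₑ) ≤
      ENNReal.ofReal (t ^ (1 - p)) * eInt D.v e D.H₁ +
        ENNReal.ofReal t * ENNReal.ofReal (1 / 2 ^ e.1.1) := by
  rw [← eInt_rep₁ D he, ← H333.eInt_const_mul D.v e ENNReal.ofReal_ne_top,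
    mul_comm (ENNReal.ofReal t), ← S293.eInt_const D.v e (ENNReal.ofReal t),
    ← S293.eInt_add _ _ _ _ aemeasurable_const]
  exact H333.eInt_mono' _ _ fun x => (H439.EN.young hp ht _).trans (le_of_eq (add_comm _ _))

/-- **[LINE-IN]** the hypotheses of `SpecBeamCol` -/
theorem line_in {p θ₁ θ₂ κ : ℝ} {m₀ : ℕ} {Λ : Set V} {f : V → V} {F : V → Mat} (hp : 1 ≤ p)
    (hκ : 0 < κ) (D : BVData p θ₁ θ₂ κ m₀ Λ f F)
    (hf : St.IsHomeo (Bx (bm θ₁ θ₂)) Λ (cmp (bm θ₁ θ₂) f)) {α β : ℤ} (hαβ : α < β)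
    (hunit : (β - α : ℝ) / 2 ^ m₀ ≤ 1)
    (hsub : ∀ k ∈ Finset.Ico α β, edge D.v (ledge m₀ D.B₁ D.B₂ k) ⊆ Bx (bm θ₁ θ₂)) {γ : ℝ → V}
    (hγ : ∀ t, γ t = cmp (bm θ₁ θ₂) f
      (lpt (D.v 1 + D.B₁ / 2 ^ m₀) (D.v 2 + D.B₂ / 2 ^ m₀) t)) :
    ContinuousOn γ (Icc (D.v 0 + α / 2 ^ m₀) (D.v 0 + β / 2 ^ m₀)) ∧
    MapsTo γ (Icc (D.v 0 + α / 2 ^ m₀) (D.v 0 + β / 2 ^ m₀)) Λ ∧
    ∃ ψ : ℝ → ℝ, IntegrableOn ψ (Icc (D.v 0 + α / 2 ^ m₀) (D.v 0 + β / 2 ^ m₀)) ∧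
      (∀ t, 0 ≤ ψ t) ∧
      (∀ s t, D.v 0 + α / 2 ^ m₀ ≤ s → s ≤ t → t ≤ D.v 0 + β / 2 ^ m₀ →
        ‖(γ t - t • ev 0) - (γ s - s • ev 0)‖ ≤ ∫ x in s..t, ψ x) ∧
      ∫ x in Icc (D.v 0 + α / 2 ^ m₀) (D.v 0 + β / 2 ^ m₀), ψ x ≤ 2 * κ ^ (1 / p) := by
  have hp0 : 0 < p := by linarith
  have hγ' : γ = fun t => cmp (bm θ₁ θ₂) f
      (lpt (D.v 1 + D.B₁ / 2 ^ m₀) (D.v 2 + D.B₂ / 2 ^ m₀) t) := funext hγ
  set c₁ : ℝ := D.v 1 + D.B₁ / 2 ^ m₀ with hc₁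
  set c₂ : ℝ := D.v 2 + D.B₂ / 2 ^ m₀ with hc₂
  set u₀ : ℝ := D.v 0 + α / 2 ^ m₀ with hu₀
  set u₁ : ℝ := D.v 0 + β / 2 ^ m₀ with hu₁
  set ℓ : ℝ := (β - α : ℝ) / 2 ^ m₀ with hℓ
  have hβα : (0:ℝ) < β - α := by
    have : (α : ℝ) < β := by exact_mod_cast hαβ
    linarith
  have hℓ0 : 0 < ℓ := by positivity
  have hu01 : u₀ + ℓ = u₁ := by rw [hu₀, hℓ, hu₁, sub_div]; ring
  have hmem : ∀ u ∈ Icc u₀ u₁, lpt c₁ c₂ u ∈ Bx (bm θ₁ θ₂) := fun u hu =>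
    lpt_mem_Bx hαβ hsub hu
  have hle : u₀ ≤ u₁ := by linarith
  have hseg : HB.GoodSeg (cmp (bm θ₁ θ₂) f) (fun x => cl (cmpD (bm θ₁ θ₂) F x)) (lpt c₁ c₂ u₀)
      (ℓ • ev 0) := by
    have h1 := D.rat (lpt c₁ c₂ u₀) (lpt c₁ c₂ u₁) (fun k => by
      fin_cases k
      · exact ⟨(α : ℚ) / 2 ^ m₀, by simp [lpt, hu₀]⟩
      · exact ⟨(D.B₁ : ℚ) / 2 ^ m₀, by simp [lpt, hc₁]⟩
      · exact ⟨(D.B₂ : ℚ) / 2 ^ m₀, by simp [lpt, hc₂]⟩) (fun k => by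
      fin_cases k
      · exact ⟨(β : ℚ) / 2 ^ m₀, by simp [lpt, hu₁]⟩
      · exact ⟨(D.B₁ : ℚ) / 2 ^ m₀, by simp [lpt, hc₁]⟩
      · exact ⟨(D.B₂ : ℚ) / 2 ^ m₀, by simp [lpt, hc₂]⟩)
      ((convex_Bx _).segment_subset (hmem _ ⟨le_rfl, hle⟩) (hmem _ ⟨hle, le_rfl⟩))
    have e1 : lpt c₁ c₂ u₁ - lpt c₁ c₂ u₀ = ℓ • ev 0 := by
      rw [← hu01, ← H253.lpt_add, add_sub_cancel_left]
    rwa [e1] at h1
  obtain ⟨h1, h2⟩ := goodSeg_line hℓ0 hseg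
  rw [hu01] at h1 h2
  have hint : IntegrableOn (fun u => cl (cmpD (bm θ₁ θ₂) F (lpt c₁ c₂ u)) (ev 0) - ev 0)
      (Icc u₀ u₁) := h1.sub (integrableOn_const (by simp))
  refine ⟨?_, ?_, fun u => ‖cl (cmpD (bm θ₁ θ₂) F (lpt c₁ c₂ u)) (ev 0) - ev 0‖, hint.norm,
    fun t => norm_nonneg _, fun s t hs hst ht => ?_, ?_⟩
  · rw [hγ']
    exact hf.choose_spec.2.1.comp (continuous_lpt c₁ c₂).continuousOn hmem
  · rw [hγ']
    intro u hu
    exact (hf.choose_spec.1.1 _ (hmem u hu)).1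
  · have e1 : (γ t - t • ev 0) - (γ s - s • ev 0) =
        ∫ u in s..t, (cl (cmpD (bm θ₁ θ₂) F (lpt c₁ c₂ u)) (ev 0) - ev 0) := by
      rw [intervalIntegral.integral_sub]
      · rw [← h2 s t hs hst ht, intervalIntegral.integral_const, hγ, hγ]
        module
      · exact (intervalIntegrable_iff_integrableOn_Icc_of_le hst).2
          (h1.mono_set (Icc_subset_Icc hs ht))
      · exact intervalIntegrable_const
    rw [e1]
    exact intervalIntegral.norm_integral_le_integral_norm hst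
  · set t : ℝ := κ ^ (1 / p) with ht
    have ht0 : 0 < t := by positivity
    have h3 : ∑ k ∈ Finset.Ico α β, eInt D.v (ledge m₀ D.B₁ D.B₂ k)
          (fun x => ‖cl (cmpD (bm θ₁ θ₂) F x) - P1‖ₑ) ≤
        ENNReal.ofReal (t * ((Finset.Ico α β).card / 2 ^ m₀)) +
          ENNReal.ofReal (t ^ (1 - p)) *
            ∑ k ∈ Finset.Ico α β, eInt D.v (ledge m₀ D.B₁ D.B₂ k) D.H₁ := by
      have h5 : ∀ k ∈ Finset.Ico α β, eInt D.v (ledge m₀ D.B₁ D.B₂ k)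
          (fun x => ‖cl (cmpD (bm θ₁ θ₂) F x) - P1‖ₑ) ≤
          ENNReal.ofReal (t ^ (1 - p)) * eInt D.v (ledge m₀ D.B₁ D.B₂ k) D.H₁ +
            ENNReal.ofReal t * ENNReal.ofReal (1 / 2 ^ m₀) := fun k hk =>
        edge_young hp D (hsub k hk) ht0
      refine (Finset.sum_le_sum h5).trans ?_
      rw [Finset.sum_add_distrib, ← Finset.mul_sum, add_comm, Finset.sum_const, nsmul_eq_mul,
        ← ENNReal.ofReal_mul ht0.le, ← ENNReal.ofReal_natCast, ← ENNReal.ofReal_mul (by positivity)]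
      refine add_le_add (ENNReal.ofReal_le_ofReal (le_of_eq ?_)) le_rfl
      ring
    have h4 : ENNReal.ofReal
        (∫ x in Icc u₀ u₁, ‖cl (cmpD (bm θ₁ θ₂) F (lpt c₁ c₂ x)) (ev 0) - ev 0‖) ≤
        ENNReal.ofReal (2 * t) := by
      rw [ofReal_integral_eq_lintegral_ofReal hint.norm
        (Eventually.of_forall fun x => norm_nonneg _)]
      calc ∫⁻ x in Icc u₀ u₁,
            ENNReal.ofReal ‖cl (cmpD (bm θ₁ θ₂) F (lpt c₁ c₂ x)) (ev 0) - ev 0‖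
          ≤ ∫⁻ x in Icc u₀ u₁, ‖cl (cmpD (bm θ₁ θ₂) F (lpt c₁ c₂ x)) - P1‖ₑ := by
            refine lintegral_mono fun x => ?_
            rw [← ofReal_norm]
            refine ENNReal.ofReal_le_ofReal ?_
            have h2 := (cl (cmpD (bm θ₁ θ₂) F (lpt c₁ c₂ x)) - P1).le_opNorm (ev 0)
            rw [S293.ev_norm, mul_one, sub_apply, P1_ev0] at h2
            exact h2
        _ ≤ ∑ k ∈ Finset.Ico α β, eInt D.v (ledge m₀ D.B₁ D.B₂ k)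
              (fun x => ‖cl (cmpD (bm θ₁ θ₂) F x) - P1‖ₑ) :=
            lintegral_line_le hαβ (fun x => ‖cl (cmpD (bm θ₁ θ₂) F x) - P1‖ₑ)
        _ ≤ _ := h3
        _ ≤ ENNReal.ofReal t + ENNReal.ofReal (t ^ (1 - p)) * ENNReal.ofReal κ := by
            gcongr
            · have e1 : ((Finset.Ico α β).card : ℝ) / 2 ^ m₀ = ℓ := by
                rw [Int.card_Ico, hℓ]
                congr 1
                have h5 : ((β - α).toNat : ℤ) = β - α := Int.toNat_of_nonneg (by omega)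
                have h6 : (((β - α).toNat : ℤ) : ℝ) = ((β - α : ℤ) : ℝ) := by rw [h5]
                rw [Int.cast_natCast] at h6
                rw [h6]
                push_cast
                ring
              rw [e1]
              nlinarith
            · exact D.line _ hsub
        _ = ENNReal.ofReal (2 * t) := by
            rw [← ENNReal.ofReal_mul (by positivity), ← ENNReal.ofReal_add ht0.le (by positivity)]
            congr 1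
            have e1 : t ^ (1 - p) * κ = t := by
              have e2 : κ = t ^ p := by
                rw [ht, ← Real.rpow_mul hκ.le, one_div_mul_cancel hp0.ne', Real.rpow_one]
              calc t ^ (1 - p) * κ = t ^ (1 - p) * t ^ p := by rw [← e2]
                _ = t := by
                  rw [← Real.rpow_add ht0]
                  simp
            rw [e1]
            ring
    exact (ENNReal.ofReal_le_ofReal_iff (by positivity)).1 h4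

end Vale.Agent.P073.H732
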