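import Vale.Agent.P073.H732.LineIn
import Vale.Agent.P073.H523.BeamDefs

/-!
# P073, rank one: `[LINE-P]`, the collapse near the image of the line (helper732)
-/

namespace Vale.Agent.P073.H732

open MeasureTheory Set Filter Topology Metric Vale.Agent.P073.St Vale.Agent.P073.AB
open Vale.Agent.P073.SQ (ev)
open Vale.Agent.P073.H235 (Bx bm fl Co Fr P1 cmpD cmp)
open Vale.Agent.P073.H253 (rectN redgeN ledge xL BVData lpt iv jv)
open _root_.P073 (ConHomeo ConicalOn)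
open scoped ENNReal

theorem upz_div {m n : ℕ} (h : m ≤ n) (k : ℤ) : (upz m n k : ℝ) / 2 ^ n = k / 2 ^ m := by
  obtain ⟨d, rfl⟩ := Nat.exists_eq_add_of_le h
  unfold upz
  rw [Nat.add_sub_cancel_left, pow_add]
  push_cast
  field_simp

/-- **[LINE-P]** -/
theorem specLineP {p : ℝ} (hp : 1 ≤ p) : H523.SpecLineP p := by
  intro ε hε
  have hp0 : 0 < p := by linarith
  obtain ⟨κc, hκc, H⟩ := H687.BeamT.specBeamCol ε hε
  refine ⟨(κc / 2) ^ p, by positivity, ?_⟩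
  intro θ₁ θ₂ κ m₀ Λ f F hθ₁ hθ₂ hκ hκP hΛ hf D z₀ z₁ hz hunit hsub
  set γ : ℝ → V := fun t => cmp (bm θ₁ θ₂) f
    (lpt (D.v 1 + D.B₁ / 2 ^ m₀) (D.v 2 + D.B₂ / 2 ^ m₀) t) with hγ
  obtain ⟨h1, h2, ψ, h3, h4, h5, h6⟩ := line_in hp hκ D hf hz hunit hsub (γ := γ) fun t => rfl
  have h7 : 2 * κ ^ (1 / p) ≤ κc := by
    have h8 : κ ^ (1 / p) ≤ ((κc / 2) ^ p) ^ (1 / p) :=
      Real.rpow_le_rpow hκ.le hκP (by positivity)
    rw [← Real.rpow_mul (by positivity), mul_one_div_cancel hp0.ne', Real.rpow_one] at h8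
    linarith
  obtain ⟨n₀, hn₀⟩ := H (D.v 0) m₀ z₀ z₁ Λ γ ψ hz hunit hΛ.1 h1 h2 h3 h4 h5 (h6.trans h7)
  refine ⟨n₀, fun n₃ hn₃ hmn => ?_⟩
  obtain ⟨G, mt₀, K, hKΛ, hK, hG, hcard, hT⟩ := hn₀ n₃ hn₃
  have hp3 : (0:ℝ) < 2 ^ n₃ := by positivity
  refine ⟨G, mt₀, K, hKΛ, hK, fun k hk => ?_, hcard, fun mt hmt δ hδ => ?_⟩
  · have h8 := hG k hk
    have h9 : D.v 0 + k / 2 ^ n₃ ≤ D.v 0 + (k + 1) / 2 ^ n₃ := by
      gcongr
      linarith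
    have h10 := (h8 ⟨le_rfl, h9⟩).1
    have h11 := (h8 ⟨h9, le_rfl⟩).2
    rw [← upz_div hmn z₀] at h10
    rw [← upz_div hmn z₁] at h11
    have h12 : (upz m₀ n₃ z₀ : ℝ) / 2 ^ n₃ ≤ k / 2 ^ n₃ := by linarith
    have h13 : ((k : ℝ) + 1) / 2 ^ n₃ ≤ (upz m₀ n₃ z₁ : ℝ) / 2 ^ n₃ := by linarith
    rw [div_le_div_iff_of_pos_right hp3] at h12 h13
    rw [Finset.mem_Ico]
    constructor
    · exact_mod_cast h12
    · have : k + 1 ≤ upz m₀ n₃ z₁ := by exact_mod_cast h13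
      omega
  · obtain ⟨T, r, hr, t1, t2, t3, t4, t5⟩ := hT mt hmt δ hδ
    refine ⟨T, r, hr, t1, t2, t4, fun k hk => ?_⟩
    obtain ⟨t, ht⟩ := t5 k hk
    refine ⟨t, fun x hx y hy hyx j hj => ?_⟩
    obtain ⟨u, hu, rfl⟩ := H253.mem_ledge.1 hx
    refine ht u ⟨?_, ?_⟩ y hy ?_ j hj
    · have := hu.1
      rwa [mul_one_div] at this
    · have := hu.2
      rwa [mul_one_div] at this
    · rw [upz_div hmn, upz_div hmn] at hyx
      exact hyx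

end Vale.Agent.P073.H732
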