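import Vale.Agent.P073.H234.P2Defs

/-!
# P073, P2: the own squares near a point of the target (helper732), `[LOCSUM]`
-/

namespace Vale.Agent.P073.H732

open MeasureTheory Set Filter Topology Metric Vale.Agent.P073.St Vale.Agent.P073.AB
open Vale.Agent.P073.SQ (ev)
open Vale.Agent.P073.H234
open _root_.P073.Net (dyc dyo)
open scoped ENNReal

/-- **packing**: `s`-separated points in a cube of radius `R` -/
theorem card_pack {ι : Type*} (S : Finset ι) (φ : ι → V) {s R : ℝ} (hs : 0 < s) (hR : 0 ≤ R)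
    (y : V) (hsep : ∀ i ∈ S, ∀ j ∈ S, i ≠ j → s ≤ ‖φ i - φ j‖)
    (hball : ∀ i ∈ S, ‖φ i - y‖ ≤ R) : (S.card : ℝ) ≤ (2 * R / s + 2) ^ 3 := by
  classical
  let g : ι → Fin 3 → ℤ := fun i k => ⌊φ i k / s⌋
  let B : Finset (Fin 3 → ℤ) :=
    Fintype.piFinset fun k => Finset.Icc ⌊(y k - R) / s⌋ ⌊(y k + R) / s⌋
  have h1 : S.card ≤ B.card := by
    refine Finset.card_le_card_of_injOn g (fun i hi => ?_) fun i hi j hj hij => ?_
    · have h2 : ∀ k, g i k ∈ Finset.Icc ⌊(y k - R) / s⌋ ⌊(y k + R) / s⌋ := by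
        intro k
        have h2 := (norm_le_pi_norm (φ i - y) k).trans (hball i hi)
        rw [Real.norm_eq_abs, Pi.sub_apply, abs_le] at h2
        rw [Finset.mem_Icc]
        exact ⟨Int.floor_le_floor (by gcongr; linarith), Int.floor_le_floor (by gcongr; linarith)⟩
      exact Finset.mem_coe.2 (Fintype.mem_piFinset.2 h2)
    · by_contra hne
      have h3 := hsep i hi j hj hne
      have h4 : ‖φ i - φ j‖ < s := by
        refine (pi_norm_lt_iff hs).2 fun k => ?_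
        have h5 : ⌊φ i k / s⌋ = ⌊φ j k / s⌋ := congrFun hij k
        have h6 := Int.abs_sub_lt_one_of_floor_eq_floor h5
        rw [← sub_div, abs_div, abs_of_pos hs, div_lt_one hs] at h6
        exact h6
      linarith
  have h2 : ∀ k, ((Finset.Icc ⌊(y k - R) / s⌋ ⌊(y k + R) / s⌋).card : ℝ) ≤ 2 * R / s + 2 := by
    intro k
    have h3 : ⌊(y k - R) / s⌋ ≤ ⌊(y k + R) / s⌋ := Int.floor_le_floor (by gcongr; linarith)
    have h4 : ((Finset.Icc ⌊(y k - R) / s⌋ ⌊(y k + R) / s⌋).card : ℤ) =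
        ⌊(y k + R) / s⌋ + 1 - ⌊(y k - R) / s⌋ := by
      rw [Int.card_Icc, Int.toNat_of_nonneg (by omega)]
    have h5 : ((Finset.Icc ⌊(y k - R) / s⌋ ⌊(y k + R) / s⌋).card : ℝ) =
        (⌊(y k + R) / s⌋ : ℝ) + 1 - ⌊(y k - R) / s⌋ := by exact_mod_cast h4
    rw [h5]
    have h6 := Int.floor_le ((y k + R) / s)
    have h7 := Int.lt_floor_add_one ((y k - R) / s)
    have h8 : (y k + R) / s - (y k - R) / s = 2 * R / s := by ring
    linarith
  calc (S.card : ℝ) ≤ B.card := by exact_mod_cast h1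
    _ = ∏ k, ((Finset.Icc ⌊(y k - R) / s⌋ ⌊(y k + R) / s⌋).card : ℝ) := by
        simp only [B, Fintype.card_piFinset, Nat.cast_prod]
    _ ≤ ∏ _k : Fin 3, (2 * R / s + 2) := Finset.prod_le_prod (fun k _ => Nat.cast_nonneg _)
        fun k _ => h2 k
    _ = (2 * R / s + 2) ^ 3 := by simp

theorem finite_of_card_le {α : Type*} {S : Set α} {B : ℝ}
    (h : ∀ t : Finset α, (t : Set α) ⊆ S → (t.card : ℝ) ≤ B) : S.Finite ∧ (S.ncard : ℝ) ≤ B := by
  have hf : S.Finite := by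
    by_contra hn
    obtain ⟨n, hn'⟩ := exists_nat_gt B
    obtain ⟨t, ht, hc⟩ := Set.Infinite.exists_subset_card_eq hn n
    have := h t ht
    rw [hc] at this
    linarith
  refine ⟨hf, ?_⟩
  have := h hf.toFinset (by simp)
  rwa [← Set.ncard_eq_toFinset_card S hf] at this

section

variable {p θ M κ c₀ t₀ δ₀ ε₁ θ' M' κ' : ℝ} {ε : ℝ≥0∞} {j m : ℕ} {Ω Λ : Set V} {f : V → V}
  {F : V → Mat} {T : Set V} {v : V}

/-- two different own vertices have distant images -/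
theorem vertex_sep (HT : TSet θ M κ t₀ δ₀ ε₁ Ω f F T) (hκ : κ ≤ θ / 2) (hθ : 0 < θ) (ht₀ : 0 < t₀)
    {r : ℝ} (hr : θ / 2 * r ≤ δ₀) {a b : V} (ha : a ∈ T) (hb : b ∈ T) (hab : r ≤ ‖a - b‖) :
    θ / 2 * r ≤ ‖f a - f b‖ := by
  rcases le_total ‖b - a‖ (4 * t₀) with h | h
  · have h1 := (HT.two a ha b hb h).2
    have h2 := HT.low a ha (b - a)
    have h3 : ‖cl (F a) (b - a)‖ ≤ ‖f b - f a‖ + ‖f b - f a - cl (F a) (b - a)‖ := by
      have := norm_sub_le (f b - f a) (f b - f a - cl (F a) (b - a))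
      rwa [sub_sub_cancel] at this
    have h4 : κ * ‖b - a‖ ≤ θ / 2 * ‖b - a‖ := by gcongr
    have h5 : θ / 2 * r ≤ θ / 2 * ‖b - a‖ := by rw [norm_sub_rev b a]; gcongr
    rw [norm_sub_rev (f a)]
    linarith
  · have h1 := HT.far a ha b (HT.sub b hb (mem_closedBall_self (by positivity))) (by linarith)
    rw [norm_sub_rev (f a)]
    linarith

theorem pt_sep {v : V} {n : ℕ} {a b : Fin 3 → ℤ} (h : a ≠ b) :
    1 / 2 ^ n ≤ ‖pt v n a - pt v n b‖ := by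
  obtain ⟨k, hk⟩ := Function.ne_iff.1 h
  refine le_trans ?_ (norm_le_pi_norm (pt v n a - pt v n b) k)
  have h1 : (pt v n a - pt v n b) k = ((a k - b k : ℤ) : ℝ) / 2 ^ n := by
    simp only [pt, Pi.sub_apply]
    push_cast
    ring
  rw [h1, Real.norm_eq_abs, abs_div, abs_of_pos (show (0:ℝ) < 2 ^ n by positivity)]
  gcongr
  rw [← Int.cast_abs]
  have : 1 ≤ |a k - b k| := Int.one_le_abs (sub_ne_zero.2 hk)
  exact_mod_cast this

theorem pt_mem_squ (v : V) (s : Idx × Fin 3) : pt v s.1.1 s.1.2 ∈ squ v s := by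
  refine ⟨rfl, fun k _ => ⟨le_rfl, ?_⟩⟩
  simp only [pt]
  gcongr
  linarith

theorem dist_squ {v : V} {s : Idx × Fin 3} {x : V} (hx : x ∈ squ v s) :
    ‖pt v s.1.1 s.1.2 - x‖ ≤ 1 / 2 ^ s.1.1 := by
  refine (pi_norm_le_iff_of_nonneg (by positivity)).2 fun k => ?_
  rw [Pi.sub_apply, Real.norm_eq_abs]
  by_cases hk : k = s.2
  · rw [hk, hx.1]
    simp only [pt, sub_self, abs_zero]
    positivity
  · obtain ⟨h1, h2⟩ := hx.2 k hk
    have e : (s.1.2 k + 1 : ℝ) / 2 ^ s.1.1 = s.1.2 k / 2 ^ s.1.1 + 1 / 2 ^ s.1.1 := by ring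
    rw [e] at h2
    simp only [pt]
    rw [abs_le]
    constructor <;> linarith

/-- an own square of the big cube `z` whose image under `A z` meets `closedBall y R` -/
def NearSq (H : P2Cells p ε θ' M' κ' c₀ t₀ δ₀ j Ω Λ f F T v m) (y : V) (R : ℝ)
    (s : Idx × Fin 3) : Prop :=
  s.1.1 = m + j ∧ ∃ z ∈ H.J, squ v s ⊆ dyc v m z ∧ ∃ x ∈ squ v s, ‖H.A z x - y‖ ≤ R

/-- **[LOCSUM]** -/
theorem locsum_card (HT : TSet θ M κ t₀ δ₀ ε₁ Ω f F T)
    (H : P2Cells p ε θ' M' κ' c₀ t₀ δ₀ j Ω Λ f F T v m) (hκ : κ ≤ θ / 2) (hθ : 0 < θ)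
    (ht₀ : 0 < t₀) (hM' : 0 ≤ M') (hθM : θ ≤ M') (hκ' : 0 ≤ κ') (y : V) {R : ℝ} (hR : 0 ≤ R)
    (S : Finset (Idx × Fin 3)) (hS : ∀ s ∈ S, NearSq H y R s) :
    (S.card : ℝ) ≤ 3 * (4 * (R * 2 ^ (m + j) + M' + κ') / θ + 2) ^ 3 := by
  classical
  have h2 : (0:ℝ) < 2 ^ (m + j) := by positivity
  set P : Finset (Fin 3 → ℤ) := S.image fun s => s.1.2 with hP
  have hP' : ∀ a ∈ P, pt v (m + j) a ∈ T ∧
      ‖f (pt v (m + j) a) - y‖ ≤ R + (M' + κ') / 2 ^ (m + j) := by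
    intro a ha
    obtain ⟨s, hs, rfl⟩ := Finset.mem_image.1 ha
    obtain ⟨h1, z, hz, hsub, x, hx, hxy⟩ := hS s hs
    have h3 := pt_mem_squ v s
    rw [h1] at h3
    obtain ⟨hT, hf, -⟩ := H.vert z hz s.1.2 (hsub h3)
    refine ⟨hT, ?_⟩
    have h4 : ‖H.A z (pt v (m + j) s.1.2) - H.A z x‖ ≤ M' * (1 / 2 ^ (m + j)) := by
      rw [H.aff z hz x (pt v (m + j) s.1.2)]
      refine (H.above z hz _).trans ?_
      have := dist_squ hx
      rw [h1] at this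
      gcongr
    have h5 : f (pt v (m + j) s.1.2) - y = (f (pt v (m + j) s.1.2) - H.A z (pt v (m + j) s.1.2)) +
        (H.A z (pt v (m + j) s.1.2) - H.A z x) + (H.A z x - y) := by abel
    rw [h5]
    refine (norm_add₃_le).trans ?_
    have h6 : (M' + κ') / 2 ^ (m + j) = M' * (1 / 2 ^ (m + j)) + κ' / 2 ^ (m + j) := by ring
    rw [h6]
    linarith
  have hδ : θ / 2 * (1 / 2 ^ (m + j)) ≤ δ₀ := by
    refine le_trans ?_ H.fine
    have h3 : (1:ℝ) / 2 ^ (m + j) ≤ 1 / 2 ^ m := by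
      apply one_div_le_one_div_of_le (by positivity)
      gcongr
      · norm_num
      · omega
    calc θ / 2 * (1 / 2 ^ (m + j)) ≤ M' / 2 * (1 / 2 ^ m) := by gcongr
      _ = (M' / 2) / 2 ^ m := by ring
      _ ≤ 64 * (M' + 1) / 2 ^ m := by gcongr; linarith
  have hcP : (P.card : ℝ) ≤ (2 * (R + (M' + κ') / 2 ^ (m + j)) /
      (θ / 2 * (1 / 2 ^ (m + j))) + 2) ^ 3 := by
    refine card_pack P (fun a => f (pt v (m + j) a)) (by positivity) (by positivity) y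
      (fun a ha b hb hab => ?_) fun a ha => (hP' a ha).2
    exact vertex_sep HT hκ hθ ht₀ hδ (hP' a ha).1 (hP' b hb).1 (pt_sep hab)
  have hcS : S.card ≤ P.card * 3 := by
    have h3 : S.card ≤ (P ×ˢ (Finset.univ : Finset (Fin 3))).card := by
      refine Finset.card_le_card_of_injOn (fun s => (s.1.2, s.2)) (fun s hs => ?_)
        fun s hs s' hs' h => ?_
      · simp only [Finset.coe_product, Finset.coe_univ, mem_prod, Finset.mem_coe, mem_univ,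
          and_true]
        exact Finset.mem_image_of_mem _ hs
      · have e1 := (hS s hs).1
        have e2 := (hS s' hs').1
        simp only [Prod.mk.injEq] at h
        exact Prod.ext (Prod.ext (e1.trans e2.symm) h.1) h.2
    rwa [Finset.card_product, Finset.card_univ, Fintype.card_fin] at h3
  have e : 2 * (R + (M' + κ') / 2 ^ (m + j)) / (θ / 2 * (1 / 2 ^ (m + j))) =
      4 * (R * 2 ^ (m + j) + M' + κ') / θ := by
    field_simp
    ring
  rw [e] at hcP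
  calc (S.card : ℝ) ≤ P.card * 3 := by exact_mod_cast hcS
    _ ≤ (4 * (R * 2 ^ (m + j) + M' + κ') / θ + 2) ^ 3 * 3 := by gcongr
    _ = _ := by ring

/-- **[LOCSUM]**, finiteness and cardinality of the set of all near own squares -/
theorem locsum_ncard (HT : TSet θ M κ t₀ δ₀ ε₁ Ω f F T)
    (H : P2Cells p ε θ' M' κ' c₀ t₀ δ₀ j Ω Λ f F T v m) (hκ : κ ≤ θ / 2) (hθ : 0 < θ)
    (ht₀ : 0 < t₀) (hM' : 0 ≤ M') (hθM : θ ≤ M') (hκ' : 0 ≤ κ') (y : V) {R : ℝ} (hR : 0 ≤ R) :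
    {s | NearSq H y R s}.Finite ∧
      ({s | NearSq H y R s}.ncard : ℝ) ≤ 3 * (4 * (R * 2 ^ (m + j) + M' + κ') / θ + 2) ^ 3 :=
  finite_of_card_le fun S hS => locsum_card HT H hκ hθ ht₀ hM' hθM hκ' y hR S fun _ hs => hS hs

/-- **[LOCSUM]**, weights at most `c` on each own square -/
theorem locsum_sum (HT : TSet θ M κ t₀ δ₀ ε₁ Ω f F T)
    (H : P2Cells p ε θ' M' κ' c₀ t₀ δ₀ j Ω Λ f F T v m) (hκ : κ ≤ θ / 2) (hθ : 0 < θ)
    (ht₀ : 0 < t₀) (hM' : 0 ≤ M') (hθM : θ ≤ M') (hκ' : 0 ≤ κ') (y : V) {R : ℝ} (hR : 0 ≤ R)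
    (S : Finset (Idx × Fin 3)) (hS : ∀ s ∈ S, NearSq H y R s) {W : Idx × Fin 3 → ℝ} {c : ℝ}
    (hc : 0 ≤ c) (hW : ∀ s ∈ S, W s ≤ c) :
    ∑ s ∈ S, W s ≤ 3 * (4 * (R * 2 ^ (m + j) + M' + κ') / θ + 2) ^ 3 * c := by
  have h1 := Finset.sum_le_card_nsmul S W c hW
  rw [nsmul_eq_mul] at h1
  exact h1.trans (mul_le_mul_of_nonneg_right
    (locsum_card HT H hκ hθ ht₀ hM' hθM hκ' y hR S hS) hc)

end

end Vale.Agent.P073.H732
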