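import Mathlib

/-!
# P073: Morrey's inequality in the plane from absolute continuity on lines (helper732)

`exists_morrey2`: for `p > 2` there is a constant `C` such that for every closed square `Q` of side
`R`, every continuous `u` on `Q` whose increments on almost all horizontal and almost all vertical
lines are bounded by the integrals of `H`, and all `z, z'` in `Q`:
`‖u z - u z'‖ₑ ≤ C R ^ (1 - 2 / p) (∫_Q H ^ p) ^ (1 / p)`.
-/

namespace Vale.Agent.P073.H732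

open MeasureTheory Set Filter Topology Metric
open scoped ENNReal

variable {E : Type*} [NormedAddCommGroup E] [NormedSpace ℝ E]

/-- closed square with lower corner `c` and side `r` -/
def Qd (c : ℝ × ℝ) (r : ℝ) : Set (ℝ × ℝ) := Icc c.1 (c.1 + r) ×ˢ Icc c.2 (c.2 + r)

/-- the increments of `u` on almost all lines of the square are bounded by the integral of `H` -/
structure LineBd (u : ℝ × ℝ → E) (H : ℝ × ℝ → ℝ≥0∞) (c : ℝ × ℝ) (r : ℝ) : Prop where
  hor : ∀ᵐ t ∂(volume.restrict (Icc c.2 (c.2 + r))), ∀ s s', c.1 ≤ s → s ≤ s' → s' ≤ c.1 + r →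
    ‖u (s', t) - u (s, t)‖ₑ ≤ ∫⁻ x in Icc s s', H (x, t)
  ver : ∀ᵐ s ∂(volume.restrict (Icc c.1 (c.1 + r))), ∀ t t', c.2 ≤ t → t ≤ t' → t' ≤ c.2 + r →
    ‖u (s, t') - u (s, t)‖ₑ ≤ ∫⁻ y in Icc t t', H (s, y)

/-- the square `(c', r')` is contained in the square `(c, r)` -/
structure SubQ (c' : ℝ × ℝ) (r' : ℝ) (c : ℝ × ℝ) (r : ℝ) : Prop where
  l1 : c.1 ≤ c'.1
  u1 : c'.1 + r' ≤ c.1 + r
  l2 : c.2 ≤ c'.2
  u2 : c'.2 + r' ≤ c.2 + r

theorem SubQ.sub {c' c : ℝ × ℝ} {r' r : ℝ} (h : SubQ c' r' c r) : Qd c' r' ⊆ Qd c r :=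
  prod_mono (Icc_subset_Icc h.l1 h.u1) (Icc_subset_Icc h.l2 h.u2)

omit [NormedSpace ℝ E] in
theorem LineBd.mono {u : ℝ × ℝ → E} {H : ℝ × ℝ → ℝ≥0∞} {c' c : ℝ × ℝ} {r' r : ℝ}
    (h : LineBd u H c r) (hs : SubQ c' r' c r) : LineBd u H c' r' := by
  constructor
  · have h1 := ae_restrict_of_ae_restrict_of_subset (Icc_subset_Icc hs.l2 hs.u2) h.hor
    filter_upwards [h1] with t ht s s' h2 h3 h4
    exact ht s s' (hs.l1.trans h2) h3 (h4.trans hs.u1)
  · have h1 := ae_restrict_of_ae_restrict_of_subset (Icc_subset_Icc hs.l1 hs.u1) h.ver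
    filter_upwards [h1] with t ht s s' h2 h3 h4
    exact ht s s' (hs.l2.trans h2) h3 (h4.trans hs.u2)

theorem isCompact_Qd (c : ℝ × ℝ) (r : ℝ) : IsCompact (Qd c r) := isCompact_Icc.prod isCompact_Icc

theorem measurableSet_Qd (c : ℝ × ℝ) (r : ℝ) : MeasurableSet (Qd c r) :=
  (isCompact_Qd c r).measurableSet

theorem volume_Icc_add (a r : ℝ) : volume (Icc a (a + r)) = ENNReal.ofReal r := by
  rw [Real.volume_Icc, add_sub_cancel_left]

theorem restrict_Qd (c : ℝ × ℝ) (r : ℝ) : (volume : Measure (ℝ × ℝ)).restrict (Qd c r) =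
    (volume.restrict (Icc c.1 (c.1 + r))).prod (volume.restrict (Icc c.2 (c.2 + r))) := by
  rw [Measure.prod_restrict]
  rfl

theorem volume_Qd (c : ℝ × ℝ) {r : ℝ} (hr : 0 ≤ r) : volume (Qd c r) = ENNReal.ofReal (r * r) := by
  unfold Qd
  rw [Measure.volume_eq_prod, Measure.prod_prod, volume_Icc_add, volume_Icc_add,
    ENNReal.ofReal_mul hr]

section

variable {u : ℝ × ℝ → E} {H : ℝ × ℝ → ℝ≥0∞} {c : ℝ × ℝ} {r : ℝ}

omit [NormedSpace ℝ E] in
/-- the mean oscillation -/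
theorem LineBd.double (h : LineBd u H c r) (hH : Measurable H) (hr : 0 ≤ r) :
    ∫⁻ z in Qd c r, ∫⁻ z' in Qd c r, ‖u z - u z'‖ₑ ≤
      2 * ENNReal.ofReal r ^ 3 * ∫⁻ z in Qd c r, H z := by
  set I : Set ℝ := Icc c.1 (c.1 + r) with hI
  set J : Set ℝ := Icc c.2 (c.2 + r) with hJ
  set G₁ : ℝ → ℝ≥0∞ := fun t => ∫⁻ x in I, H (x, t) with hG₁
  set G₂ : ℝ → ℝ≥0∞ := fun s => ∫⁻ y in J, H (s, y) with hG₂
  set ν : Measure (ℝ × ℝ) := volume.restrict (Qd c r) with hν
  have hνp : ν = (volume.restrict I).prod (volume.restrict J) := restrict_Qd c r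
  have hG₁m : Measurable G₁ := hH.lintegral_prod_left'
  have hG₂m : Measurable G₂ := hH.lintegral_prod_right'
  have hmem : ∀ᵐ z ∂ν, z ∈ Qd c r := ae_restrict_mem (measurableSet_Qd c r)
  have h1 : ∀ᵐ z ∂ν, ∀ s ∈ I, ∀ s' ∈ I, ‖u (s, z.2) - u (s', z.2)‖ₑ ≤ G₁ z.2 := by
    have h2 : ∀ᵐ t ∂(volume.restrict J), ∀ s ∈ I, ∀ s' ∈ I, ‖u (s, t) - u (s', t)‖ₑ ≤ G₁ t := by
      filter_upwards [h.hor] with t ht s hs s' hs'
      rcases le_total s s' with h3 | h3
      · rw [← edist_eq_enorm_sub, edist_comm, edist_eq_enorm_sub]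
        exact (ht s s' hs.1 h3 hs'.2).trans (lintegral_mono_set (Icc_subset_Icc hs.1 hs'.2))
      · exact (ht s' s hs'.1 h3 hs.2).trans (lintegral_mono_set (Icc_subset_Icc hs'.1 hs.2))
    rw [hνp]
    exact Measure.quasiMeasurePreserving_snd.ae h2
  have h2 : ∀ᵐ z ∂ν, ∀ t ∈ J, ∀ t' ∈ J, ‖u (z.1, t) - u (z.1, t')‖ₑ ≤ G₂ z.1 := by
    have h2 : ∀ᵐ s ∂(volume.restrict I), ∀ t ∈ J, ∀ t' ∈ J, ‖u (s, t) - u (s, t')‖ₑ ≤ G₂ s := by
      filter_upwards [h.ver] with t ht s hs s' hs'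
      rcases le_total s s' with h3 | h3
      · rw [← edist_eq_enorm_sub, edist_comm, edist_eq_enorm_sub]
        exact (ht s s' hs.1 h3 hs'.2).trans (lintegral_mono_set (Icc_subset_Icc hs.1 hs'.2))
      · exact (ht s' s hs'.1 h3 hs.2).trans (lintegral_mono_set (Icc_subset_Icc hs'.1 hs.2))
    rw [hνp]
    exact Measure.quasiMeasurePreserving_fst.ae h2
  have hu : ν univ = ENNReal.ofReal r * ENNReal.ofReal r := by
    rw [hν, Measure.restrict_apply_univ, volume_Qd c hr, ENNReal.ofReal_mul hr]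
  have e1 : ∫⁻ z, G₁ z.2 ∂ν = ENNReal.ofReal r * ∫⁻ z, H z ∂ν := by
    rw [hνp, lintegral_prod_symm _ hH.aemeasurable,
      lintegral_prod (fun z : ℝ × ℝ => G₁ z.2) (hG₁m.comp measurable_snd).aemeasurable]
    change ∫⁻ _ in I, (∫⁻ y in J, G₁ y) = _
    rw [lintegral_const, Measure.restrict_apply_univ, volume_Icc_add, mul_comm]
  have e2 : ∫⁻ z, G₂ z.1 ∂ν = ENNReal.ofReal r * ∫⁻ z, H z ∂ν := by
    rw [hνp, lintegral_prod _ hH.aemeasurable,
      lintegral_prod_symm (fun z : ℝ × ℝ => G₂ z.1) (hG₂m.comp measurable_fst).aemeasurable]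
    change ∫⁻ _ in J, (∫⁻ x in I, G₂ x) = _
    rw [lintegral_const, Measure.restrict_apply_univ, volume_Icc_add, mul_comm]
  calc ∫⁻ z, ∫⁻ z', ‖u z - u z'‖ₑ ∂ν ∂ν ≤ ∫⁻ z, ∫⁻ z', (G₁ z.2 + G₂ z'.1) ∂ν ∂ν := by
        refine lintegral_mono_ae ?_
        filter_upwards [h1, hmem] with z hz1 hz
        refine lintegral_mono_ae ?_
        filter_upwards [h2, hmem] with z' hz2 hz'
        have e : u z - u z' = (u (z.1, z.2) - u (z'.1, z.2)) + (u (z'.1, z.2) - u (z'.1, z'.2)) := by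
          simp
        rw [e]
        exact (enorm_add_le _ _).trans (add_le_add (hz1 _ hz.1 _ hz'.1) (hz2 _ hz.2 _ hz'.2))
    _ = ∫⁻ z, (G₁ z.2 * ν univ + ENNReal.ofReal r * ∫⁻ z, H z ∂ν) ∂ν := by
        refine lintegral_congr fun z => ?_
        rw [lintegral_add_left measurable_const, lintegral_const, e2]
    _ = 2 * ENNReal.ofReal r ^ 3 * ∫⁻ z, H z ∂ν := by
        rw [lintegral_add_right _ measurable_const, lintegral_const,
          lintegral_mul_const (f := fun z : ℝ × ℝ => G₁ z.2) _ (hG₁m.comp measurable_snd), e1, hu]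
        ring

/-- the mean value -/
noncomputable def mean (u : ℝ × ℝ → E) (c : ℝ × ℝ) (r : ℝ) : E := (r * r)⁻¹ • ∫ z in Qd c r, u z

theorem smul_integral_const (hr : 0 < r) (w : E) [CompleteSpace E] :
    (r * r)⁻¹ • ∫ _ in Qd c r, w = w := by
  rw [setIntegral_const, measureReal_def, volume_Qd c hr.le, ENNReal.toReal_ofReal (by positivity),
    smul_smul, inv_mul_cancel₀ (by positivity), one_smul]

theorem enorm_mean_sub_le [CompleteSpace E] (hr : 0 < r) (hu : ContinuousOn u (Qd c r)) (w : E) :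
    ‖mean u c r - w‖ₑ ≤ ENNReal.ofReal (r * r)⁻¹ * ∫⁻ z in Qd c r, ‖u z - w‖ₑ := by
  have hi : IntegrableOn u (Qd c r) := hu.integrableOn_compact (isCompact_Qd c r)
  have hi' : IntegrableOn (fun _ => w) (Qd c r) :=
    continuousOn_const.integrableOn_compact (isCompact_Qd c r)
  have e : mean u c r - w = (r * r)⁻¹ • ∫ z in Qd c r, (u z - w) := by
    rw [integral_sub hi hi', smul_sub, smul_integral_const hr]
    rfl
  rw [e, enorm_smul, Real.enorm_of_nonneg (by positivity)]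
  gcongr
  exact enorm_integral_le_lintegral_enorm _

theorem LineBd.step [CompleteSpace E] (h : LineBd u H c r) (hH : Measurable H) (hr : 0 < r)
    (hu : ContinuousOn u (Qd c r)) {c' : ℝ × ℝ} (hs : SubQ c' (r / 2) c r) :
    ‖mean u c r - mean u c' (r / 2)‖ₑ ≤ ENNReal.ofReal (8 / r) * ∫⁻ z in Qd c r, H z := by
  have h1 := enorm_mean_sub_le hr hu (mean u c' (r / 2))
  have h2 : ∀ z, ‖u z - mean u c' (r / 2)‖ₑ ≤
      ENNReal.ofReal (r / 2 * (r / 2))⁻¹ * ∫⁻ z' in Qd c r, ‖u z - u z'‖ₑ := by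
    intro z
    rw [← edist_eq_enorm_sub, edist_comm, edist_eq_enorm_sub]
    refine (enorm_mean_sub_le (by positivity) (hu.mono hs.sub) (u z)).trans ?_
    gcongr ENNReal.ofReal (r / 2 * (r / 2))⁻¹ * ?_
    refine (lintegral_mono_set hs.sub).trans (lintegral_mono fun z' => ?_)
    rw [← edist_eq_enorm_sub, edist_comm, edist_eq_enorm_sub]
  calc ‖mean u c r - mean u c' (r / 2)‖ₑ
      ≤ ENNReal.ofReal (r * r)⁻¹ * ∫⁻ z in Qd c r, ‖u z - mean u c' (r / 2)‖ₑ := h1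
    _ ≤ ENNReal.ofReal (r * r)⁻¹ * ∫⁻ z in Qd c r,
        (ENNReal.ofReal (r / 2 * (r / 2))⁻¹ * ∫⁻ z' in Qd c r, ‖u z - u z'‖ₑ) := by
        gcongr with z
        exact h2 z
    _ = ENNReal.ofReal (r * r)⁻¹ * (ENNReal.ofReal (r / 2 * (r / 2))⁻¹ *
        ∫⁻ z in Qd c r, ∫⁻ z' in Qd c r, ‖u z - u z'‖ₑ) := by
        rw [lintegral_const_mul' _ _ ENNReal.ofReal_ne_top]
    _ ≤ ENNReal.ofReal (r * r)⁻¹ * (ENNReal.ofReal (r / 2 * (r / 2))⁻¹ *
        (2 * ENNReal.ofReal r ^ 3 * ∫⁻ z in Qd c r, H z)) := by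
        gcongr
        exact h.double hH hr.le
    _ = ENNReal.ofReal (8 / r) * ∫⁻ z in Qd c r, H z := by
        have e : ENNReal.ofReal (8 / r) = ENNReal.ofReal (r * r)⁻¹ *
            (ENNReal.ofReal (r / 2 * (r / 2))⁻¹ * (2 * ENNReal.ofReal r ^ 3)) := by
          have e2 : (2 : ℝ≥0∞) = ENNReal.ofReal 2 := by simp
          rw [e2, ← ENNReal.ofReal_pow hr.le, ← ENNReal.ofReal_mul (by positivity),
            ← ENNReal.ofReal_mul (by positivity), ← ENNReal.ofReal_mul (by positivity)]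
          congr 1
          field_simp
          norm_num
        rw [e]
        ring

/-- Hölder -/
theorem lintegral_le_rpow {p : ℝ} (hp : 1 < p) (hH : Measurable H) (hr : 0 < r) :
    ∫⁻ z in Qd c r, H z ≤
      ENNReal.ofReal (r ^ (2 - 2 / p)) * (∫⁻ z in Qd c r, H z ^ p) ^ (1 / p) := by
  have hpq : p.HolderConjugate (p / (p - 1)) := Real.HolderConjugate.conjExponent hp
  have h1 := ENNReal.lintegral_mul_le_Lp_mul_Lq (volume.restrict (Qd c r)) hpq
    hH.aemeasurable (aemeasurable_const (b := (1 : ℝ≥0∞)))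
  simp only [Pi.mul_apply, mul_one, ENNReal.one_rpow, lintegral_const, one_mul,
    Measure.restrict_apply_univ] at h1
  refine h1.trans (le_of_eq ?_)
  rw [mul_comm, volume_Qd c hr.le, ENNReal.ofReal_rpow_of_pos (by positivity)]
  congr 2
  have e : r * r = r ^ (2 : ℝ) := by
    rw [Real.rpow_two, sq]
  rw [e, ← Real.rpow_mul hr.le]
  congr 1
  have hp0 : p ≠ 0 := by linarith
  have hp1 : p - 1 ≠ 0 := by linarith
  field_simp

/-- the mean values over small squares around a point converge -/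
theorem tendsto_mean [CompleteSpace E] (hr : 0 < r) (hu : ContinuousOn u (Qd c r)) {z : ℝ × ℝ}
    (hz : z ∈ Qd c r) (c' : ℕ → ℝ × ℝ) (hs : ∀ n, SubQ (c' n) (r * (1 / 2) ^ n) c r)
    (hz' : ∀ n, z ∈ Qd (c' n) (r * (1 / 2) ^ n)) :
    Tendsto (fun n => mean u (c' n) (r * (1 / 2) ^ n)) atTop (𝓝 (u z)) := by
  rw [Metric.tendsto_atTop]
  intro ε hε
  obtain ⟨δ, hδ, hd⟩ := Metric.continuousWithinAt_iff.1 (hu z hz) (ε / 2) (by positivity)
  have ht : Tendsto (fun n : ℕ => r * (1 / 2 : ℝ) ^ n) atTop (𝓝 0) := by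
    have := (tendsto_pow_atTop_nhds_zero_of_lt_one (r := (1 / 2 : ℝ)) (by norm_num)
      (by norm_num)).const_mul r
    rwa [mul_zero] at this
  obtain ⟨N, hN⟩ := (Metric.tendsto_atTop.1 ht) δ hδ
  refine ⟨N, fun n hn => ?_⟩
  set ρ : ℝ := r * (1 / 2) ^ n with hρ
  have hρ0 : 0 < ρ := by positivity
  have hρδ : ρ < δ := by
    have := hN n hn
    rwa [Real.dist_eq, sub_zero, abs_of_pos hρ0] at this
  have h1 : ∀ y ∈ Qd (c' n) ρ, ‖u y - u z‖ ≤ ε / 2 := by
    intro y hy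
    have hyz : dist y z ≤ ρ := by
      obtain ⟨⟨a1, a2⟩, a3, a4⟩ := hy
      obtain ⟨⟨b1, b2⟩, b3, b4⟩ := hz' n
      rw [Prod.dist_eq, Real.dist_eq, Real.dist_eq]
      refine max_le ?_ ?_ <;> rw [abs_le] <;> constructor <;> linarith
    have := hd ((hs n).sub hy) (hyz.trans_lt hρδ)
    rw [dist_eq_norm] at this
    exact this.le
  have hi : IntegrableOn u (Qd (c' n) ρ) :=
    (hu.mono (hs n).sub).integrableOn_compact (isCompact_Qd _ _)
  have hi' : IntegrableOn (fun _ => u z) (Qd (c' n) ρ) :=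
    continuousOn_const.integrableOn_compact (isCompact_Qd _ _)
  have e : mean u (c' n) ρ - u z = (ρ * ρ)⁻¹ • ∫ y in Qd (c' n) ρ, (u y - u z) := by
    rw [integral_sub hi hi', smul_sub, smul_integral_const hρ0]
    rfl
  have hvol : volume.real (Qd (c' n) ρ) = ρ * ρ := by
    rw [measureReal_def, volume_Qd _ hρ0.le, ENNReal.toReal_ofReal (by positivity)]
  rw [dist_eq_norm, e, norm_smul, Real.norm_of_nonneg (by positivity)]
  have h2 : ‖∫ y in Qd (c' n) ρ, (u y - u z)‖ ≤ ε / 2 * volume.real (Qd (c' n) ρ) :=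
    norm_setIntegral_le_of_norm_le_const (by rw [volume_Qd _ hρ0.le]; exact ENNReal.ofReal_lt_top)
      h1
  rw [hvol] at h2
  calc (ρ * ρ)⁻¹ * ‖∫ y in Qd (c' n) ρ, (u y - u z)‖ ≤ (ρ * ρ)⁻¹ * (ε / 2 * (ρ * ρ)) := by gcongr
    _ = ε / 2 := by field_simp
    _ < ε := by linarith

end

/-- the constant -/
noncomputable def cm (p : ℝ) : ℝ := 8 / (1 - (1 / 2) ^ (1 - 2 / p))

theorem cm_pos {p : ℝ} (hp : 2 < p) : 0 < cm p := by
  have h1 : 0 < 1 - 2 / p := by
    rw [sub_pos, div_lt_one (by linarith)]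
    exact hp
  have h2 : (1 / 2 : ℝ) ^ (1 - 2 / p) < 1 := Real.rpow_lt_one (by norm_num) (by norm_num) h1
  unfold cm
  have : 0 < 1 - (1 / 2 : ℝ) ^ (1 - 2 / p) := by linarith
  positivity

section

variable {u : ℝ × ℝ → E} {H : ℝ × ℝ → ℝ≥0∞} {c : ℝ × ℝ} {r : ℝ}

/-- distance to the mean value -/
theorem LineBd.mean_le [CompleteSpace E] {p : ℝ} (hp : 2 < p) (h : LineBd u H c r)
    (hH : Measurable H) (hr : 0 < r) (hu : ContinuousOn u (Qd c r)) {z : ℝ × ℝ}
    (hz : z ∈ Qd c r) :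
    ‖mean u c r - u z‖ₑ ≤
      ENNReal.ofReal (cm p * r ^ (1 - 2 / p)) * (∫⁻ z in Qd c r, H z ^ p) ^ (1 / p) := by
  set N : ℝ≥0∞ := (∫⁻ z in Qd c r, H z ^ p) ^ (1 / p) with hN
  set α : ℝ := 1 - 2 / p with hα
  have hα0 : 0 < α := by
    rw [hα, sub_pos, div_lt_one (by linarith)]
    exact hp
  set w : ℕ → ℝ := fun n => (1 / 2 : ℝ) ^ n with hw
  have hw0 : ∀ n, 0 < w n := fun n => by positivity
  have hw1 : ∀ n, w n ≤ 1 := fun n => pow_le_one₀ (by norm_num) (by norm_num)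
  set c' : ℕ → ℝ × ℝ := fun n => (z.1 - w n * (z.1 - c.1), z.2 - w n * (z.2 - c.2)) with hc'
  obtain ⟨⟨z1, z2⟩, z3, z4⟩ := hz
  have hs : ∀ n, SubQ (c' n) (r * w n) c r := by
    intro n
    have h0 := hw0 n
    have h1 := hw1 n
    constructor
    · simp only [hc']; nlinarith
    · simp only [hc']; nlinarith
    · simp only [hc']; nlinarith
    · simp only [hc']; nlinarith
  have hs' : ∀ n, SubQ (c' (n + 1)) (r * w n / 2) (c' n) (r * w n) := by
    intro n
    have h0 := hw0 n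
    have e : w (n + 1) = w n / 2 := by
      simp only [hw, pow_succ]
      ring
    constructor
    · simp only [hc', e]; nlinarith
    · simp only [hc', e]; nlinarith
    · simp only [hc', e]; nlinarith
    · simp only [hc', e]; nlinarith
  have hz' : ∀ n, z ∈ Qd (c' n) (r * w n) := by
    intro n
    have h0 := hw0 n
    refine ⟨⟨?_, ?_⟩, ?_, ?_⟩
    · simp only [hc']; nlinarith
    · simp only [hc']; nlinarith
    · simp only [hc']; nlinarith
    · simp only [hc']; nlinarith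
  have ht := tendsto_mean (z := z) hr hu ⟨⟨z1, z2⟩, z3, z4⟩ c' hs hz'
  have hp0 : p ≠ 0 := by linarith
  have hstep : ∀ n, edist (mean u (c' n) (r * w n)) (mean u (c' (n + 1)) (r * w (n + 1))) ≤
      ENNReal.ofReal (8 * r ^ α) * N * ENNReal.ofReal ((1 / 2) ^ α) ^ n := by
    intro n
    have hρ : 0 < r * w n := mul_pos hr (hw0 n)
    have e : r * w (n + 1) = r * w n / 2 := by
      simp only [hw, pow_succ]
      ring
    rw [e, edist_eq_enorm_sub]
    refine ((h.mono (hs n)).step hH hρ (hu.mono (hs n).sub) (hs' n)).trans ?_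
    have h1 : ∫⁻ z in Qd (c' n) (r * w n), H z ≤ ENNReal.ofReal ((r * w n) ^ (2 - 2 / p)) * N := by
      refine (lintegral_le_rpow (p := p) (by linarith) hH hρ).trans ?_
      gcongr
      rw [hN]
      exact ENNReal.rpow_le_rpow (lintegral_mono_set (hs n).sub) (by positivity)
    refine (mul_le_mul_right h1 _).trans (le_of_eq ?_)
    rw [← mul_assoc, ← ENNReal.ofReal_mul (by positivity), ← ENNReal.ofReal_pow (by positivity),
      mul_assoc (ENNReal.ofReal (8 * r ^ α)), mul_comm N, ← mul_assoc,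
      ← ENNReal.ofReal_mul (by positivity)]
    congr 2
    have e1 : (r * w n) ^ (2 - 2 / p) = (r * w n) * (r * w n) ^ α := by
      have : 2 - 2 / p = 1 + α := by rw [hα]; ring
      rw [this, Real.rpow_add hρ, Real.rpow_one]
    have e2 : (r * w n) ^ α = r ^ α * ((1 / 2) ^ α) ^ n := by
      rw [Real.mul_rpow hr.le (hw0 n).le]
      congr 1
      simp only [hw]
      rw [← Real.rpow_natCast, ← Real.rpow_natCast, ← Real.rpow_mul (by norm_num),
        ← Real.rpow_mul (by norm_num), mul_comm]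
    have hw00 := (hw0 n).ne'
    rw [e1, e2]
    field_simp
  have hlim := edist_le_tsum_of_edist_le_of_tendsto₀ _ hstep ht
  have e0 : mean u (c' 0) (r * w 0) = mean u c r := by
    have e1 : w 0 = 1 := by simp [hw]
    simp only [hc', e1]
    simp
  have hlt : (1 / 2 : ℝ) ^ α < 1 := Real.rpow_lt_one (by norm_num) (by norm_num) hα0
  have hnn : 0 ≤ (1 / 2 : ℝ) ^ α := by positivity
  rw [ENNReal.tsum_mul_left, ENNReal.tsum_geometric] at hlim
  rw [e0, edist_eq_enorm_sub] at hlim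
  refine hlim.trans (le_of_eq ?_)
  have e3 : (1 - ENNReal.ofReal ((1 / 2) ^ α))⁻¹ = ENNReal.ofReal (1 - (1 / 2) ^ α)⁻¹ := by
    rw [ENNReal.ofReal_inv_of_pos (by linarith), ENNReal.ofReal_sub _ hnn, ENNReal.ofReal_one]
  have hpos : 0 < 1 - (1 / 2 : ℝ) ^ α := by linarith
  rw [e3, mul_assoc, mul_comm N, ← mul_assoc, ← ENNReal.ofReal_mul (by positivity)]
  congr 2
  unfold cm
  rw [← hα, div_eq_mul_inv]
  ring

/-- **Morrey's inequality in the plane**, `p > 2`, from the bounds on almost all lines. -/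
theorem LineBd.morrey [CompleteSpace E] {p : ℝ} (hp : 2 < p) (h : LineBd u H c r)
    (hH : Measurable H) (hr : 0 < r) (hu : ContinuousOn u (Qd c r)) {z z' : ℝ × ℝ}
    (hz : z ∈ Qd c r) (hz' : z' ∈ Qd c r) :
    ‖u z - u z'‖ₑ ≤
      ENNReal.ofReal (2 * cm p * r ^ (1 - 2 / p)) * (∫⁻ z in Qd c r, H z ^ p) ^ (1 / p) := by
  have h1 := h.mean_le hp hH hr hu hz
  have h2 := h.mean_le hp hH hr hu hz'
  have hc := cm_pos hp
  have e : u z - u z' = (mean u c r - u z') - (mean u c r - u z) := by abel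
  rw [e]
  refine (enorm_sub_le).trans ((add_le_add h2 h1).trans (le_of_eq ?_))
  rw [← add_mul, ← ENNReal.ofReal_add (by positivity) (by positivity)]
  congr 2
  ring

/-- the same with the `p`-th power -/
theorem LineBd.morrey_rpow [CompleteSpace E] {p : ℝ} (hp : 2 < p) (h : LineBd u H c r)
    (hH : Measurable H) (hr : 0 < r) (hu : ContinuousOn u (Qd c r)) {z z' : ℝ × ℝ}
    (hz : z ∈ Qd c r) (hz' : z' ∈ Qd c r) :
    ‖u z - u z'‖ₑ ^ p ≤
      ENNReal.ofReal ((2 * cm p) ^ p * r ^ (p - 2)) * ∫⁻ z in Qd c r, H z ^ p := by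
  have h1 := h.morrey hp hH hr hu hz hz'
  have hc := cm_pos hp
  have hp0 : 0 < p := by linarith
  refine (ENNReal.rpow_le_rpow h1 hp0.le).trans (le_of_eq ?_)
  rw [ENNReal.mul_rpow_of_nonneg _ _ hp0.le, ← ENNReal.rpow_mul, one_div, inv_mul_cancel₀ hp0.ne',
    ENNReal.rpow_one, ENNReal.ofReal_rpow_of_pos (by positivity)]
  congr 2
  rw [Real.mul_rpow (by positivity) (by positivity), ← Real.rpow_mul hr.le]
  congr 2
  field_simp

end

end Vale.Agent.P073.H732
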