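import Vale.Agent.P073.H732.Dvar1
import Vale.Agent.P073.H190.ColB3
import Vale.Agent.P073.H333.NetInC

/-!
# P073, P2: `W^{1,1}`-closeness on the own edges after retraction and collapse (helper732),
`[OWN-W11]`
-/

namespace Vale.Agent.P073.H732

open MeasureTheory Set Filter Topology Metric
open Vale.Agent.P073.St (V Mat)
open Vale.Agent.P073.SQ (ev)
open Vale.Agent.P073.AB
open Vale.Agent.P073.H333
open Vale.Agent.P073.H190 (IsColB)
open _root_.P073 (ConHomeo ConicalOn)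
open _root_.P073.Gauge (gam dvar)
open _root_.P073.Gauge.C110 (mem_edge_iff)
open scoped ENNReal NNReal

variable {Ω Λ : Set V}

/-- the length of a conical curve is finite -/
theorem dvar_zero_ne_top (h : ConHomeo Ω Λ) {v : V} {e : Idx × Fin 3} (he : edge v e ⊆ Ω) :
    dvar 1 h.toFun v e 0 ≠ ⊤ := by
  unfold dvar
  simp_rw [Real.rpow_one, sub_zero]
  have h1 := conical_integrable (conical_edge h he)
  rw [← ofReal_integral_eq_lintegral_ofReal h1.norm (Eventually.of_forall fun t => norm_nonneg _)]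
  exact ENNReal.ofReal_ne_top

/-- the collapse can be so strong that the collapsed parts of finitely many edges are short -/
theorem exists_iota_own (h : ConHomeo Ω Λ) {v : V} {S : Set (Idx × Fin 3)} (hS : S.Finite)
    (hSΩ : ∀ e ∈ S, edge v e ⊆ Ω) {σ : ℝ} (hσ : 0 < σ) :
    ∃ ι₀ > 0, ∀ ι, 0 ≤ ι → ι ≤ ι₀ → ∀ e ∈ S,
      ENNReal.ofReal ι * dvar 1 h.toFun v e 0 ≤ ENNReal.ofReal σ := by
  have h1 : ∀ e, ∃ M : ℝ, 0 < M ∧ (e ∈ S → dvar 1 h.toFun v e 0 ≤ ENNReal.ofReal M) := by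
    intro e
    by_cases he : e ∈ S
    · refine ⟨(dvar 1 h.toFun v e 0).toReal + 1, by positivity, fun _ => ?_⟩
      rw [← ENNReal.ofReal_toReal (dvar_zero_ne_top h (hSΩ e he))]
      refine ENNReal.ofReal_le_ofReal ?_
      rw [ENNReal.toReal_ofReal ENNReal.toReal_nonneg]
      linarith
    · exact ⟨1, one_pos, fun hn => absurd hn he⟩
  choose M hM0 hM using h1
  obtain ⟨B, hB⟩ := (hS.image M).bddAbove
  set B' : ℝ := max B 1 with hB'
  have hB'0 : 0 < B' := lt_max_of_lt_right one_pos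
  refine ⟨σ / B', by positivity, fun ι hι hιB e he => ?_⟩
  have h2 : M e ≤ B' := (hB (mem_image_of_mem M he)).trans (le_max_left _ _)
  calc ENNReal.ofReal ι * dvar 1 h.toFun v e 0
      ≤ ENNReal.ofReal (σ / B') * ENNReal.ofReal B' := by
        gcongr
        exact (hM e he).trans (ENNReal.ofReal_le_ofReal h2)
    _ = ENNReal.ofReal σ := by
        rw [← ENNReal.ofReal_mul (by positivity), div_mul_cancel₀ _ hB'0.ne']

/-- **[OWN-W11]**, one own edge.  `h₀`: before the retractions, `h'`: after the retractions,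
`T`: the collapse. -/
theorem own_w11 {γ : Type*} {b : γ → V} {r : γ → ℝ} {D : V → ℝ} {J : Finset γ} {ε l₀ : ℝ}
    (h₀ h' : ConHomeo Ω Λ) (T : ConHomeo Λ Λ) (HT : IsColB b r D J ε l₀ T.toFun) (hε : 0 ≤ ε)
    (hl : 0 ≤ l₀)
    (hd : ∀ g ∈ J, ∀ g' ∈ J, g ≠ g' → Disjoint (closedBall (b g) (r g)) (closedBall (b g') (r g')))
    {v : V} {e : Idx × Fin 3} (he : edge v e ⊆ Ω)
    (hoff : ∀ x ∈ edge v e, h'.toFun x = h₀.toFun x ∨ ∃ g ∈ J, h'.toFun x ∈ closedBall (b g) (r g))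
    {A : V → V} {L : V →L[ℝ] V} (aff : ∀ x y, A y - A x = L (y - x)) {M a τ β σ : ℝ}
    (hM : ‖L (ev e.2)‖ ≤ M) (hβ : 0 ≤ β) (hσ : 0 ≤ σ)
    (hclose : ∀ x ∈ edge v e, ‖h'.toFun x - A x‖ ≤ a)
    (hdisp : ∀ x ∈ edge v e, ‖T.toFun (h'.toFun x) - h'.toFun x‖ ≤ τ)
    (hW : eInt v e (fun x => ENNReal.ofReal ‖lineDeriv ℝ h₀.toFun x (ev e.2) - L (ev e.2)‖) ≤
      ENNReal.ofReal β)
    (hι : ENNReal.ofReal l₀ * dvar 1 h'.toFun v e 0 ≤ ENNReal.ofReal σ) :
    eInt v e (fun x => ENNReal.ofReal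
      ‖lineDeriv ℝ (h'.trans T).toFun x (ev e.2) - L (ev e.2)‖) ≤
      ENNReal.ofReal (3 * (2 * ((1 + 192 * ε) * β + 192 * ε * (M / 2 ^ e.1.1) + σ) +
        2 * (a + τ))) := by
  classical
  set U : γ → Set V := fun g => if g ∈ J then edge v e ∩ h'.toFun ⁻¹' closedBall (b g) (r g)
    else ∅ with hU
  have hcomp : IsClosed (edge v e) := by
    unfold edge
    rw [segment_eq_image_lineMap]
    exact (isCompact_Icc.image AffineMap.lineMap_continuous).isClosed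
  have hUc : ∀ g, IsClosed (U g) := by
    intro g
    simp only [hU]
    split_ifs with hg
    · exact (h'.cont.mono he).preimage_isClosed_of_isClosed hcomp isClosed_closedBall
    · exact isClosed_empty
  have hUd : ∀ g g', g ≠ g' → Disjoint (U g) (U g') := by
    intro g g' hgg
    simp only [hU]
    split_ifs with h1 h2 h2
    · rw [Set.disjoint_left]
      intro x hx hx'
      exact Set.disjoint_left.1 (hd g h1 g' h2 hgg) hx.2 hx'.2
    · exact disjoint_empty _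
    · exact empty_disjoint _
    · exact disjoint_empty _
  have hUeq : (⋃ g, U g) = ⋃ g : J, U g := by
    ext x
    simp only [mem_iUnion]
    constructor
    · rintro ⟨g, hg⟩
      by_cases h1 : g ∈ J
      · exact ⟨⟨g, h1⟩, hg⟩
      · simp only [hU, if_neg h1] at hg
        exact absurd hg (notMem_empty _)
    · rintro ⟨g, hg⟩
      exact ⟨g, hg⟩
  have hUm : MeasurableSet (⋃ g, U g) := by
    rw [hUeq]
    exact MeasurableSet.iUnion fun g => (hUc g).measurableSet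
  have h1 := small_edge (J := J) h' (h'.trans T) he (U := fun g => U g)
    (fun g => (hUc g).measurableSet)
    (fun g g' hgg => hUd g g' fun h => hgg (Subtype.ext h)) hl
    (fun g x hx y hy => by
      have hx1 := hx.1
      have hy1 := hy.1
      simp only [hU, if_pos g.2] at hx1 hy1
      have hx2 := hx1.2
      have hy2 := hy1.2
      rw [mem_preimage, mem_closedBall, dist_eq_norm] at hx2 hy2
      exact HT.sq g g.2 _ hx2 _ hy2)
  rw [← hUeq] at h1
  set N : ℕ := e.1.1 with hN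
  have hw : ‖(1 / 2 ^ N : ℝ) • L (ev e.2)‖ ≤ M / 2 ^ N := by
    rw [norm_smul, Real.norm_of_nonneg (by positivity)]
    calc (1 / 2 ^ N : ℝ) * ‖L (ev e.2)‖ ≤ 1 / 2 ^ N * M := by gcongr
      _ = M / 2 ^ N := by ring
  have hg0 : gam v e 0 ∈ edge v e := mem_edge_iff.2 ⟨0, ⟨le_rfl, zero_le_one⟩, rfl⟩
  have hg1 : gam v e 1 ∈ edge v e := mem_edge_iff.2 ⟨1, ⟨zero_le_one, le_rfl⟩, rfl⟩
  have hend : ‖(h'.trans T).toFun (gam v e 1) - (h'.trans T).toFun (gam v e 0) -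
      (1 / 2 ^ N : ℝ) • L (ev e.2)‖ ≤ 2 * (a + τ) := by
    have e1 : A (gam v e 1) - A (gam v e 0) = (1 / 2 ^ N : ℝ) • L (ev e.2) := by
      rw [aff, ← map_smul]
      congr 1
      simp only [gam, hN]
      module
    rw [← e1]
    have e2 := hclose _ hg0
    have e3 := hclose _ hg1
    have e4 := hdisp _ hg0
    have e5 := hdisp _ hg1
    have e6 : (h'.trans T).toFun (gam v e 1) - (h'.trans T).toFun (gam v e 0) -
        (A (gam v e 1) - A (gam v e 0)) =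
        ((T.toFun (h'.toFun (gam v e 1)) - h'.toFun (gam v e 1)) +
          (h'.toFun (gam v e 1) - A (gam v e 1))) -
        ((T.toFun (h'.toFun (gam v e 0)) - h'.toFun (gam v e 0)) +
          (h'.toFun (gam v e 0) - A (gam v e 0))) := by
      simp only [_root_.P073.ConHomeo.trans_toFun, Function.comp]
      abel
    rw [e6]
    refine (norm_sub_le _ _).trans ?_
    have e7 := norm_add_le (T.toFun (h'.toFun (gam v e 1)) - h'.toFun (gam v e 1))
      (h'.toFun (gam v e 1) - A (gam v e 1))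
    have e8 := norm_add_le (T.toFun (h'.toFun (gam v e 0)) - h'.toFun (gam v e 0))
      (h'.toFun (gam v e 0) - A (gam v e 0))
    linarith
  have h2 := dvar1_edge h₀ (h'.trans T) he (T := T.toFun) (η := 96 * ε) (by positivity)
    (fun y y' i => by
      refine (HT.lip y y' i).trans ?_
      have := abs_nonneg (y i - y' i)
      nlinarith) hUm
    (fun x hx hxU => by
      rcases hoff x hx with h3 | ⟨g, hg, h3⟩
      · simp only [_root_.P073.ConHomeo.trans_toFun, Function.comp, h3]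
      · refine absurd (mem_iUnion.2 ⟨g, ?_⟩) hxU
        simp only [hU, if_pos hg]
        exact ⟨hx, h3⟩) hβ hσ
    (w := (1 / 2 ^ N : ℝ) • L (ev e.2)) (by rw [dvar_one]; exact hW) (h1.trans hι) hend
  rw [dvar_one] at h2
  refine h2.trans (ENNReal.ofReal_le_ofReal ?_)
  have h3 : 2 * (96 * ε) * ‖(1 / 2 ^ N : ℝ) • L (ev e.2)‖ ≤ 192 * ε * (M / 2 ^ N) := by
    calc 2 * (96 * ε) * ‖(1 / 2 ^ N : ℝ) • L (ev e.2)‖ = 192 * ε * ‖(1 / 2 ^ N : ℝ) • L (ev e.2)‖ := by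
          ring
      _ ≤ _ := by gcongr
  linarith

/-- **[OWN-W11]**, the coarse edges: generation `n`, fine edges of generation `n + d`; all numbers
in units of the fine lattice -/
theorem own_coarse {γ : Type*} {b : γ → V} {r : γ → ℝ} {D : V → ℝ} {J : Finset γ} {ε l₀ : ℝ}
    (h₀ h' : ConHomeo Ω Λ) (T : ConHomeo Λ Λ) (HT : IsColB b r D J ε l₀ T.toFun) (hε : 0 ≤ ε)
    (hl : 0 ≤ l₀)
    (hd : ∀ g ∈ J, ∀ g' ∈ J, g ≠ g' → Disjoint (closedBall (b g) (r g)) (closedBall (b g') (r g')))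
    {v : V} {e : Idx × Fin 3} (he : edge v e ⊆ Ω) (d : ℕ)
    (hoff : ∀ x ∈ edge v e, h'.toFun x = h₀.toFun x ∨ ∃ g ∈ J, h'.toFun x ∈ closedBall (b g) (r g))
    {A : V → V} {L : V →L[ℝ] V} (aff : ∀ x y, A y - A x = L (y - x)) {M a τ β σ κ : ℝ}
    (hM : ‖L (ev e.2)‖ ≤ M) (hβ : 0 ≤ β) (hσ : 0 ≤ σ)
    (hclose : ∀ x ∈ edge v e, ‖h'.toFun x - A x‖ ≤ a / 2 ^ (e.1.1 + d))
    (hdisp : ∀ x ∈ edge v e, ‖T.toFun (h'.toFun x) - h'.toFun x‖ ≤ τ / 2 ^ (e.1.1 + d))
    (hW : ∀ e' : Idx × Fin 3, e'.1.1 = e.1.1 + d → edge v e' ⊆ edge v e →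
      eInt v e' (fun x => ENNReal.ofReal ‖lineDeriv ℝ h₀.toFun x (ev e'.2) - L (ev e'.2)‖) ≤
        ENNReal.ofReal (β / 2 ^ (e.1.1 + d)))
    (hι : ∀ e' : Idx × Fin 3, e'.1.1 = e.1.1 + d → edge v e' ⊆ edge v e →
      ENNReal.ofReal l₀ * dvar 1 h'.toFun v e' 0 ≤ ENNReal.ofReal (σ / 2 ^ (e.1.1 + d)))
    (hκ : 3 * (2 * ((1 + 192 * ε) * β + 192 * ε * M + σ) + 2 * (a + τ)) ≤ κ) :
    eInt v e (fun x => ENNReal.ofReal
      ‖lineDeriv ℝ (h'.trans T).toFun x (ev e.2) - L (ev e.2)‖) ≤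
      ENNReal.ofReal (κ / 2 ^ e.1.1) := by
  refine len_le_sub v e d _ fun i hi => ?_
  have hsub : edge v (subEdge e d i) ⊆ edge v e := S308.subEdge_sub hi
  have hgen : (subEdge e d i).1.1 = e.1.1 + d := rfl
  have hdir : (subEdge e d i).2 = e.2 := rfl
  have h1 := own_w11 h₀ h' T HT hε hl hd (e := subEdge e d i) (hsub.trans he)
    (fun x hx => hoff x (hsub hx)) aff (M := M) (a := a / 2 ^ (e.1.1 + d))
    (τ := τ / 2 ^ (e.1.1 + d)) (β := β / 2 ^ (e.1.1 + d)) (σ := σ / 2 ^ (e.1.1 + d)) hM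
    (by positivity) (by positivity) (fun x hx => hclose x (hsub hx))
    (fun x hx => hdisp x (hsub hx)) (hW _ hgen hsub) (hι _ hgen hsub)
  rw [hdir, hgen] at h1
  refine h1.trans (ENNReal.ofReal_le_ofReal ?_)
  have h2 : 3 * (2 * ((1 + 192 * ε) * (β / 2 ^ (e.1.1 + d)) + 192 * ε * (M / 2 ^ (e.1.1 + d)) +
      σ / 2 ^ (e.1.1 + d)) + 2 * (a / 2 ^ (e.1.1 + d) + τ / 2 ^ (e.1.1 + d))) =
      3 * (2 * ((1 + 192 * ε) * β + 192 * ε * M + σ) + 2 * (a + τ)) / 2 ^ (e.1.1 + d) := by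
    ring
  rw [h2]
  gcongr

end Vale.Agent.P073.H732
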