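import Vale.Agent.P073.H732.P2K2
import Vale.Agent.P073.H439.P2K1

/-!
# P073, P2 (exponent two, rank three): `[K2]` with `[K1]` inserted (helper732)

The field `ecl` of `H234.H1`.
-/

namespace Vale.Agent.P073.H732

open MeasureTheory Set Filter Topology Metric
open Vale.Agent.P073.St (V Mat)
open Vale.Agent.P073.SQ (ev)
open Vale.Agent.P073.AB
open Vale.Agent.P073.H333
open Vale.Agent.P073.H234
open _root_.P073 (ConHomeo ConicalOn)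
open _root_.P073.Net (dyc dyo)
open _root_.P073.Gauge (gam dvar)
open scoped ENNReal NNReal

variable {p : ℝ} {ε : ℝ≥0∞} {θ M κ c₀ t₀ δ₀ ε₁ β σ : ℝ} {j : ℕ} {Ω Λ : Set V} {f : V → V}
  {F : V → Mat} {T : Set V} {v : V} {m : ℕ}
  {C : P2Cells p ε θ M κ c₀ t₀ δ₀ j Ω Λ f F T v m}
  {Nk : Necks θ M β σ f v m j C.J C.A} {n N : ℕ} {J' : Finset (Fin 3 → ℤ)}
  {π : (Fin 3 → ℤ) → Fin 3 → ℤ} {η l₀ : ℝ} {o : Nk.γ → V} {h₀ h' h₁ : ConHomeo Ω Λ}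
  {Tc : V → V} {G : Finset Nk.γ}

/-- **the field `ecl` of `H234.H1`** -/
theorem K2_ecl (hT : TSet θ M κ t₀ δ₀ ε₁ Ω f F T) (hN : Num θ M κ β)
    (S : SubCells C n J' π) (hmn : m ≤ n) (hnN : n ≤ N) (hNj : N ≤ m + j) (rat : RatGood v Ω f F)
    (K : Cleaned C Nk n N J' η l₀ o h₀ h' h₁ Tc G) (hη : η ≤ β / 2 ^ (m + j)) (hσ0 : 0 ≤ σ)
    (hσ : σ ≤ β / 2) (hσ' : 192 * σ ≤ 1) (hκ : 0 ≤ κ) (hl₀ : 0 ≤ l₀)
    (h0 : ∀ z ∈ J', ∀ u, Touch v n N z u → ∀ e : Idx × Fin 3, EdgeOf e (N, u) →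
      eInt v e (fun x => ENNReal.ofReal
        ‖lineDeriv ℝ h₀.toFun x (ev e.2) - cl (F x) (ev e.2)‖) ≤ ENNReal.ofReal (κ / 2 ^ N))
    (hι : ∀ z ∈ J', ∀ u, Touch v n N z u → ∀ e : Idx × Fin 3, EdgeOf e (N, u) →
      ENNReal.ofReal l₀ * dvar 1 h'.toFun v e 0 ≤ ENNReal.ofReal (κ / 2 ^ N)) {b₁ : ℝ}
    (hb : 30 * κ + 1152 * σ * M + 6 * ((16 * M / θ + 20) * β) / 2 ^ (m + j - N) ≤ b₁) :
    ∀ z ∈ J', ∀ u, Touch v n N z u → ∀ e : Idx × Fin 3, EdgeOf e (N, u) →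
      (∀ x ∈ edge v e, ‖h₁.toFun x - C.A (π z) x‖ ≤ b₁ / 2 ^ N) ∧
      eInt v e (fun x => ENNReal.ofReal
        ‖lineDeriv ℝ h₁.toFun x (ev e.2) - C.L (π z) (ev e.2)‖) ≤ ENNReal.ofReal (b₁ / 2 ^ N) := by
  intro z hz u hu e he
  have hθ := hN.θ0
  have hM := hN.M0
  have hβ := hN.β0
  have hez : edge v e ⊆ dyc v m (π z) :=
    (PK.edgeOf_subset he).trans (touch_sub S hmn hnN hz hu)
  have hclose : ∀ x ∈ edge v e, ‖h₁.toFun x - C.A (π z) x‖ ≤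
      ((16 * M / θ + 20) * β) / 2 ^ (m + j) :=
    of_own_edges hNj (fun e' he' hez' x hx =>
      H439.K1.close_edge hT hN K hη hσ (S.mem z hz) he' hez' hx) he.1 hez
  refine ⟨fun x hx => (hclose x hx).trans ?_,
    (K2_own hT S hmn hnN hNj rat K hκ hσ0 hσ' hl₀ hz hu he hclose (h0 z hz u hu e he)
      (hι z hz u hu e he)).trans (ENNReal.ofReal_le_ofReal (by gcongr))⟩
  have e1 : ((16 * M / θ + 20) * β) / 2 ^ (m + j) =
      ((16 * M / θ + 20) * β) / 2 ^ (m + j - N) / 2 ^ N := by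
    rw [div_div, ← pow_add, Nat.sub_add_cancel hNj]
  rw [e1]
  gcongr
  refine le_trans ?_ hb
  have h1 : 0 ≤ ((16 * M / θ + 20) * β) / 2 ^ (m + j - N) := by positivity
  have h2 : 6 * ((16 * M / θ + 20) * β) / 2 ^ (m + j - N) =
      6 * (((16 * M / θ + 20) * β) / 2 ^ (m + j - N)) := by ring
  rw [h2]
  have h3 : 0 ≤ 1152 * σ * M := by positivity
  linarith

end Vale.Agent.P073.H732
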