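import Vale.Agent.P073.H732.RedV

/-!
# P073: the reduction to finite distortion with closeness `σ₀ x`, `σ₀` a positive continuous function

`red_closeS : CloseFDS q → (local theorems of rank one and two) → CloseS q`.
-/

namespace Vale.Agent.P073.H732

open MeasureTheory Set Filter Topology Metric Vale.Agent.P073.St Vale.Agent.P073.RED
open Vale.Agent.P073.SQ (ev)
open Vale.Agent.P073.AB (cl err FinDist)
open Vale.Agent.P073.H235
open scoped ContDiff ENNReal NNReal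

/-- the theorem for the exponent `q`, with closeness `σ₀ x` -/
def CloseS (q : ℝ) : Prop :=
  ∀ (Ω Λ : Set V) (f : V → V) (F : V → Mat), St.IsBoundedDomain Ω → St.IsBoundedDomain Λ →
    St.IsHomeo Ω Λ f → St.IsSobolev q Ω f F → UniformContinuousOn f Ω →
    ∀ σ₀ : V → ℝ, ContinuousOn σ₀ Ω → (∀ x ∈ Ω, 0 < σ₀ x) →
    ∀ ε > 0, ∃ φ : V → V, St.IsDiffeo Ω Λ φ ∧ (∀ x ∈ Ω, ‖φ x - f x‖ ≤ σ₀ x) ∧
      err q Ω f F φ ≤ ENNReal.ofReal ε

/-- the theorem for finite distortion, exponent `q`, with closeness `σ₀ x` -/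
def CloseFDS (q : ℝ) : Prop :=
  ∀ (Ω Λ : Set V) (f : V → V) (F : V → Mat), St.IsBoundedDomain Ω → St.IsBoundedDomain Λ →
    St.IsHomeo Ω Λ f → St.IsSobolev q Ω f F → UniformContinuousOn f Ω → FinDist Ω F →
    ∀ σ₀ : V → ℝ, ContinuousOn σ₀ Ω → (∀ x ∈ Ω, 0 < σ₀ x) →
    ∀ ε > 0, ∃ φ : V → V, St.IsDiffeo Ω Λ φ ∧ (∀ x ∈ Ω, ‖φ x - f x‖ ≤ σ₀ x) ∧
      err q Ω f F φ ≤ ENNReal.ofReal ε

/-- Vitali covering by good cells, with one more property of the cells -/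
theorem vitG {p : ℝ} {Ω : Set V} {f : V → V} {F : V → Mat} {ε : ℝ} (G : Set V → Prop)
    (H : ∀ᵐ x ∂(volume : Measure V), x ∈ Ω → LowRank (F x) → ∃ r₀ > 0, ∀ r, 0 < r → r < r₀ →
      ∃ (K : Set V) (u : V → V) (U : V → Mat), Cell p Ω f F ε K u U ∧ K ⊆ closedBall x (4 * r) ∧
        (interior K).Nonempty ∧ ENNReal.ofReal (r ^ 3) ≤ volume K ∧ G K) :
    ∃ (ι : Type) (K : ι → Set V) (u : ι → V → V) (U : ι → V → Mat), Countable ι ∧
      (∀ i, Cell p Ω f F ε (K i) (u i) (U i)) ∧ (∀ i j, i ≠ j → Disjoint (K i) (K j)) ∧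
      volume {x | x ∈ Ω ∧ LowRank (F x) ∧ ∀ i, x ∉ interior (K i)} = 0 ∧ ∀ i, G (K i) := by
  let I : Type := V × ℝ × Set V × (V → V) × (V → Mat)
  let t : Set I := {a | (Cell p Ω f F ε a.2.2.1 a.2.2.2.1 a.2.2.2.2 ∧ G a.2.2.1) ∧
    a.2.2.1 ⊆ closedBall a.1 a.2.1 ∧ (interior a.2.2.1).Nonempty ∧
    volume (closedBall a.1 (3 * a.2.1)) ≤ ((13824 : ℝ≥0) : ℝ≥0∞) * volume a.2.2.1}
  let s : Set V := {x | x ∈ Ω ∧ LowRank (F x) ∧ ∃ r₀ > 0, ∀ r, 0 < r → r < r₀ →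
      ∃ (K : Set V) (u : V → V) (U : V → Mat), Cell p Ω f F ε K u U ∧ K ⊆ closedBall x (4 * r) ∧
        (interior K).Nonempty ∧ ENNReal.ofReal (r ^ 3) ≤ volume K ∧ G K}
  have hfine : ∀ x ∈ s, ∀ δ > (0 : ℝ), ∃ a ∈ t, a.2.1 ≤ δ ∧ a.1 = x := by
    rintro x ⟨hx, hl, r₀, hr₀, h⟩ δ hδ
    obtain ⟨K, u, U, h1, h2, h3, h4, h5⟩ := h (min (r₀ / 2) (δ / 4)) (by positivity)
      ((min_le_left _ _).trans_lt (by linarith))
    refine ⟨(x, 4 * min (r₀ / 2) (δ / 4), K, u, U), ⟨⟨h1, h5⟩, h2, h3, ?_⟩, ?_, rfl⟩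
    · exact volume_closedBall_le x (by positivity) h4
    · have := min_le_right (r₀ / 2) (δ / 4)
      simp only; linarith
  obtain ⟨w, hw, hwc, hwd, hwn⟩ := Vitali.exists_disjoint_covering_ae volume s t 13824
    (fun a => a.2.1) (fun a => a.1) (fun a => a.2.2.1) (fun a ha => ha.2.1)
    (fun a ha => ha.2.2.2) (fun a ha => ha.2.2.1) (fun a ha => ha.1.1.comp.isClosed) hfine
  refine ⟨w, fun a => a.1.2.2.1, fun a => a.1.2.2.2.1, fun a => a.1.2.2.2.2, hwc.to_subtype,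
    fun a => (hw a.2).1.1, fun a b hab => ?_, ?_, fun a => (hw a.2).1.2⟩
  · exact hwd a.2 b.2 fun h => hab (Subtype.ext h)
  · have hfr : volume (⋃ a ∈ w, frontier a.2.2.1) = 0 :=
      (measure_biUnion_null_iff hwc).2 fun a ha => (hw ha).1.1.null
    rw [ae_iff] at H
    refine measure_mono_null (t := (s \ ⋃ a ∈ w, a.2.2.1) ∪ (⋃ a ∈ w, frontier a.2.2.1) ∪
      {x | ¬ (x ∈ Ω → LowRank (F x) → ∃ r₀ > 0, ∀ r, 0 < r → r < r₀ →
      ∃ (K : Set V) (u : V → V) (U : V → Mat), Cell p Ω f F ε K u U ∧ K ⊆ closedBall x (4 * r) ∧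
        (interior K).Nonempty ∧ ENNReal.ofReal (r ^ 3) ≤ volume K ∧ G K)}) ?_
      (measure_union_null (measure_union_null hwn hfr) H)
    rintro x ⟨hx, hl, hint⟩
    by_cases hs : x ∈ s
    · left
      by_cases hmem : x ∈ ⋃ a ∈ w, a.2.2.1
      · right
        simp only [mem_iUnion] at hmem ⊢
        obtain ⟨a, ha, hxa⟩ := hmem
        refine ⟨a, ha, ?_⟩
        rw [frontier]
        exact ⟨subset_closure hxa, hint ⟨a, ha⟩⟩
      · exact Or.inl ⟨hs, hmem⟩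
    · right
      intro hcon
      exact hs ⟨hx, hl, hcon hx hl⟩

/-- fine good cells on which `f` oscillates less than `σ₀` -/
theorem fine_pS {p : ℝ} {Ω Λ : Set V} {f : V → V} {F : V → Mat} (hp : 1 ≤ p)
    (hL1 : ∀ L, Rk1 L → Loc p L) (hL2 : ∀ L, Rk2 L → Loc p L)
    (hΩ : St.IsBoundedDomain Ω) (hΛ : St.IsBoundedDomain Λ) (hf : St.IsHomeo Ω Λ f)
    (hF : St.IsSobolev p Ω f F) {σ₀ : V → ℝ} (hσc : ContinuousOn σ₀ Ω)
    (hσ : ∀ x ∈ Ω, 0 < σ₀ x) {ε : ℝ} (hε : 0 < ε) :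
    ∀ᵐ x ∂(volume : Measure V), x ∈ Ω → LowRank (F x) → ∃ r₀ > 0, ∀ r, 0 < r → r < r₀ →
      ∃ (K : Set V) (u : V → V) (U : V → Mat), Cell p Ω f F ε K u U ∧ K ⊆ closedBall x (4 * r) ∧
        (interior K).Nonempty ∧ ENNReal.ofReal (r ^ 3) ≤ volume K ∧
        ∀ y ∈ K, ∀ z ∈ K, ‖f y - f z‖ ≤ σ₀ z := by
  filter_upwards [fine_p hp hL1 hL2 hΩ hΛ hf hF hε] with x hx hxΩ hl
  obtain ⟨r₀, hr₀, h⟩ := hx hxΩ hl
  have hfc : ContinuousOn f Ω := by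
    obtain ⟨_, -, hc, -⟩ := hf; exact hc
  have hs := hσ x hxΩ
  have h1 : ∀ᶠ y in 𝓝 x, dist (f y) (f x) < σ₀ x / 4 ∧ σ₀ x / 2 < σ₀ y := by
    refine ((hfc.continuousAt (hΩ.1.mem_nhds hxΩ)).eventually
      (ball_mem_nhds _ (by positivity))).and ?_
    exact (hσc.continuousAt (hΩ.1.mem_nhds hxΩ)).eventually_const_lt (by linarith)
  obtain ⟨δ, hδ, h2⟩ := Metric.eventually_nhds_iff.1 h1
  refine ⟨min r₀ (δ / 8), lt_min hr₀ (by positivity), fun r hr hr' => ?_⟩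
  obtain ⟨K, u, U, k1, k2, k3, k4⟩ := h r hr (hr'.trans_le (min_le_left _ _))
  have hr2 : 4 * r < δ := by
    have := hr'.trans_le (min_le_right _ _); linarith
  refine ⟨K, u, U, k1, k2, k3, k4, fun y hy z hz => ?_⟩
  have hy1 := h2 (lt_of_le_of_lt (mem_closedBall.1 (k2 hy)) hr2)
  have hz1 := h2 (lt_of_le_of_lt (mem_closedBall.1 (k2 hz)) hr2)
  have h3 := dist_triangle_right (f y) (f z) (f x)
  rw [← dist_eq_norm]
  linarith [hy1.1, hz1.1, hz1.2]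

open Red225 GlueH in
/-- the glued map, with closeness `σ₀ x` -/
theorem exists_gluedS {p : ℝ} (hp : 1 ≤ p) (hL1 : ∀ L, Rk1 L → Loc p L)
    (hL2 : ∀ L, Rk2 L → Loc p L) {Ω Λ : Set V} {f : V → V} {F : V → Mat}
    (hΩ : St.IsBoundedDomain Ω) (hΛ : St.IsBoundedDomain Λ) (hf : St.IsHomeo Ω Λ f)
    (hF : St.IsSobolev p Ω f F) (huc : UniformContinuousOn f Ω) {σ₀ : V → ℝ}
    (hσc : ContinuousOn σ₀ Ω) (hσ : ∀ x ∈ Ω, 0 < σ₀ x) {ε : ℝ} (hε : 0 < ε) :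
    ∃ (f₁ : V → V) (F₁ : V → Mat), St.IsHomeo Ω Λ f₁ ∧ St.IsSobolev p Ω f₁ F₁ ∧
      FinDist Ω F₁ ∧ UniformContinuousOn f₁ Ω ∧ (∀ x ∈ Ω, ‖f₁ x - f x‖ ≤ σ₀ x) ∧
      ∀ g : V → V, err p Ω f F g ≤ 2 ^ (p - 1) * err p Ω f₁ F₁ g +
        2 ^ (p - 1) * (2 * (ENNReal.ofReal ε * volume Ω)) := by
  set ε₁ : ℝ := min 1 ε with hε₁
  have hε₁0 : 0 < ε₁ := lt_min one_pos hε
  have hε₁1 : ε₁ ≤ 1 := min_le_left _ _
  obtain ⟨ι, K, u, U, hι, hC, hd, hn, hG⟩ := vitG (fun K => ∀ y ∈ K, ∀ z ∈ K, ‖f y - f z‖ ≤ σ₀ z)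
    (fine_pS hp hL1 hL2 hΩ hΛ hf hF hσc hσ hε₁0)
  have := hι
  have hf1 := specGlueH p Ω Λ f F hp hΩ hΛ hf ι hι ε₁ K u U hC hd
  have hF1 := specGlueS p Ω Λ f F hp hΩ hΛ hf hF ι hι ε₁ K u U hC hd
  have hfc : ContinuousOn f Ω := by
    obtain ⟨_, _, h, _⟩ := hf
    exact h
  have hv := van_glue hΩ huc hC hd
  have hgc : ContinuousOn (glue K u) Ω := continuousOn_glue hΩ hfc hC hd
  obtain ⟨D, -, hD⟩ := AB.norm_bound_of_domain hΩ
  have hug := uniform_of_van hΩ.1 (isBounded_iff_forall_norm_le.2 ⟨D, hD⟩) hgc hv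
  refine ⟨_, _, hf1, hF1, finDist hC hd hn, uniform_add huc hug, fun x hx => ?_, fun g => ?_⟩
  · rw [add_sub_cancel_left]
    by_cases hi : ∃ i, x ∈ interior (K i)
    · obtain ⟨i, hi⟩ := hi
      rw [glue_in hd hi]
      obtain ⟨h', hinv, -, -⟩ := (hC i).diffeo
      obtain ⟨y, hy, hfy⟩ := (hinv.1 x hi).1
      have h2 : u i x = f y - f x := by
        have : f y = f x + u i x := hfy
        rw [this]; abel
      rw [h2]
      exact hG i y (interior_subset hy) x (interior_subset hi)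
    · push Not at hi
      rw [glue_off hi, norm_zero]
      exact (hσ x hx).le
  · refine (err_of_glue hp hΩ hΛ hf hF hε₁0 hε₁1 hC hd g).trans ?_
    gcongr
    exact min_le_right _ _

/-- **(RED) with closeness `σ₀ x`** -/
theorem red_closeS {q : ℝ} (hq : 1 ≤ q) (hFD : CloseFDS q) (hL1 : ∀ L, Rk1 L → Loc q L)
    (hL2 : ∀ L, Rk2 L → Loc q L) : CloseS q := by
  intro Ω Λ f F hΩ hΛ hf hF huc σ₀ hσc hσ ε hε
  have hΩt : volume Ω ≠ ⊤ := PK.volume_ne_top_of_domain hΩ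
  set m : ℝ := (volume Ω).toReal with hm
  have hm0 : 0 ≤ m := ENNReal.toReal_nonneg
  have hmv : volume Ω = ENNReal.ofReal m := (ENNReal.ofReal_toReal hΩt).symm
  have h2pos : (0 : ℝ) < 2 ^ (q - 1) := by positivity
  have h2E : (2 : ℝ≥0∞) ^ (q - 1) = ENNReal.ofReal (2 ^ (q - 1)) := by
    rw [← ENNReal.ofReal_rpow_of_pos (by norm_num)]
    simp
  have hσc2 : ContinuousOn (fun x => σ₀ x / 2) Ω := hσc.div_const 2
  have hσ2 : ∀ x ∈ Ω, 0 < σ₀ x / 2 := fun x hx => by have := hσ x hx; positivity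
  set ε₁ : ℝ := ε / 2 ^ (q - 1) / (4 * (m + 1)) with hε₁
  have hε₁0 : 0 < ε₁ := by positivity
  obtain ⟨f₁, F₁, hf₁, hF₁, hD₁, hu₁, hc₁, hE₁⟩ :=
    exists_gluedS hq hL1 hL2 hΩ hΛ hf hF huc hσc2 hσ2 hε₁0
  obtain ⟨φ, hφ, hφc, hφE⟩ := hFD Ω Λ f₁ F₁ hΩ hΛ hf₁ hF₁ hu₁ hD₁ _ hσc2 hσ2
    (ε / 2 ^ (q - 1) / 2) (by positivity)
  refine ⟨φ, hφ, fun x hx => ?_, ?_⟩
  · have e : φ x - f x = (φ x - f₁ x) + (f₁ x - f x) := by abel
    rw [e]
    refine (norm_add_le _ _).trans ?_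
    have h1 := hφc x hx
    have h2 := hc₁ x hx
    linarith
  · refine (hE₁ φ).trans ?_
    have h2 : (2 : ℝ≥0∞) = ENNReal.ofReal 2 := by norm_num
    calc 2 ^ (q - 1) * err q Ω f₁ F₁ φ +
          2 ^ (q - 1) * (2 * (ENNReal.ofReal ε₁ * volume Ω))
        ≤ 2 ^ (q - 1) * ENNReal.ofReal (ε / 2 ^ (q - 1) / 2) +
          2 ^ (q - 1) * (2 * (ENNReal.ofReal ε₁ * ENNReal.ofReal m)) := by
          rw [hmv]
          gcongr
      _ = ENNReal.ofReal (2 ^ (q - 1) * (ε / 2 ^ (q - 1) / 2) +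
          2 ^ (q - 1) * (2 * (ε₁ * m))) := by
          rw [ENNReal.ofReal_add (by positivity) (by positivity), ENNReal.ofReal_mul h2pos.le,
            ENNReal.ofReal_mul h2pos.le, ENNReal.ofReal_mul (by norm_num),
            ENNReal.ofReal_mul hε₁0.le, ← h2E, ← h2]
      _ ≤ ENNReal.ofReal ε := by
          apply ENNReal.ofReal_le_ofReal
          have h5 : ε₁ * (4 * (m + 1)) ≤ ε / 2 ^ (q - 1) := by
            rw [hε₁]
            exact le_of_eq (by field_simp)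
          have h6 : 2 * (ε₁ * m) ≤ ε / 2 ^ (q - 1) / 2 := by nlinarith
          calc 2 ^ (q - 1) * (ε / 2 ^ (q - 1) / 2) + 2 ^ (q - 1) * (2 * (ε₁ * m))
              ≤ 2 ^ (q - 1) * (ε / 2 ^ (q - 1) / 2) + 2 ^ (q - 1) * (ε / 2 ^ (q - 1) / 2) := by
                gcongr
            _ = ε := by field_simp; ring

/-- the `K`-form from the `σ₀`-form -/
theorem closeA_of_closeS {q : ℝ} (h : CloseS q) : CloseA q := by
  intro Ω Λ f F hΩ hΛ hf hF huc ε hε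
  obtain ⟨D, -, hD⟩ := AB.norm_bound_of_domain hΩ
  have hb : Bornology.IsBounded Ω := isBounded_iff_forall_norm_le.2 ⟨D, hD⟩
  have hne : Ωᶜ.Nonempty := by
    by_contra hcon
    rw [not_nonempty_iff_eq_empty, compl_empty_iff] at hcon
    rw [hcon] at hb
    exact NormedSpace.unbounded_univ ℝ V hb
  have hpos : ∀ x ∈ Ω, 0 < infDist x Ωᶜ := fun x hx =>
    (hΩ.1.isClosed_compl.notMem_iff_infDist_pos hne).1 (by simpa using hx)
  obtain ⟨φ, h1, h2, h3⟩ := h Ω Λ f F hΩ hΛ hf hF huc (fun x => min ε (infDist x Ωᶜ))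
    (continuous_const.min (continuous_infDist_pt _)).continuousOn
    (fun x hx => lt_min hε (hpos x hx)) ε hε
  refine ⟨φ, h1, h3, fun x hx => (h2 x hx).trans (min_le_left _ _), fun η hη => ?_⟩
  refine ⟨{x | η ≤ infDist x Ωᶜ}, fun x hx => ?_, ?_, fun x hx => ?_⟩
  · by_contra hcon
    rw [mem_ofPred_eq, infDist_zero_of_mem (mem_compl hcon)] at hx
    linarith
  · refine Metric.isCompact_of_isClosed_isBounded
      (isClosed_le continuous_const (continuous_infDist_pt _)) (hb.subset fun x hx => ?_)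
    by_contra hcon
    rw [mem_ofPred_eq, infDist_zero_of_mem (mem_compl hcon)] at hx
    linarith
  · refine (h2 x hx.1).trans ((min_le_right _ _).trans ?_)
    have h4 := hx.2
    rw [mem_ofPred_eq, not_le] at h4
    exact h4.le

end Vale.Agent.P073.H732
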